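import Vale.Agent.P166.Free.Edge

/-!
No eigenvalue of the coupling exceeds a value of the edge function.
-/

open MeasureTheory ProbabilityTheory Filter Topology Matrix Finset

namespace Vale.Agent.P166.Free

variable {α r : ℝ} {ν : Measure ℝ} [IsProbabilityMeasure ν] {ξ : ℝ → ℝ} {N M : ℕ}

theorem measurable_sad (hξm : Measurable ξ) (v : Fin N → ℝ) (q w : Fin M → ℝ) :
    Measurable fun P : Pats N M => sad ξ v q w P := by
  simp only [sad_eq, yv]
  refine Finset.measurable_sum _ fun a _ => ?_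
  have hs : MeasurableSet {P : Pats N M | 0 ≤ ξ (P a).2} := measurableSet_le measurable_const (by fun_prop)
  refine Measurable.add (((Measurable.mul (by fun_prop) (Measurable.mul (by fun_prop)
    (Measurable.ite hs measurable_const measurable_const)))).mul ?_)
    (Measurable.ite hs measurable_const measurable_const)
  simp only [dotProduct]
  fun_prop

theorem integrable_sv (hξ : ∀ x, |ξ x| ≤ r) (hξm : Measurable ξ) {TV : Finset (Fin N → ℝ)}
    {TQ : Finset (Fin M → ℝ)} [Nonempty TV] [Nonempty TQ] (γ : ℝ) :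
    Integrable (fun P : Pats N M => sv γ (tab ξ TV TQ P)) (pats ν N M) := by
  have hr : 0 ≤ r := (abs_nonneg _).trans (hξ 0)
  have hm : Measurable fun P : Pats N M => sv γ (tab ξ TV TQ P) :=
    (continuous_smm (γ := γ) (ρ := fun _ => (1 : ℝ)) (φ := fun _ => (0 : ℝ))).measurable.comp
      (measurable_pi_lambda _ fun c => measurable_sad hξm _ _ _)
  have hlin : ∀ (v : Fin N → ℝ) (a : Fin M), Integrable (fun P : Pats N M => |(P a).1 ⬝ᵥ v|) (pats ν N M) := by
    intro v a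
    have h : PolyB fun g : Fin N → ℝ => ∑ i, g i * v i :=
      Tame.sum _ fun i _ => Tame.mul (polyB_coord i) (tame_const _)
    have hmp : MeasurePreserving (fun P : Pats N M => (P a).1) (pats ν N M) (gs N) :=
      (measurePreserving_fst (μ := gs N) (ν := ν)).comp
        (measurePreserving_eval (fun _ : Fin M => pl ν N) a)
    exact hmp.integrable_comp_of_integrable h.integrable.abs
  set B : (TV × TQ) × TQ → Pats N M → ℝ := fun c P =>
    2 / √(N : ℝ) * (∑ a, √r * (|(c.1.2 : Fin M → ℝ) a| + |(c.2 : Fin M → ℝ) a|) * |(P a).1 ⬝ᵥ (c.1.1 : Fin N → ℝ)|)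
      + ∑ a, ((c.1.2 : Fin M → ℝ) a ^ 2 + (c.2 : Fin M → ℝ) a ^ 2)
  have iB : ∀ c, Integrable (B c) (pats ν N M) := fun c =>
    ((integrable_finsetSum _ fun a _ => (hlin _ a).const_mul _).const_mul _).fun_add (integrable_const _)
  have hB : ∀ c P, |tab ξ TV TQ P c| ≤ B c P := fun c P => by
    refine (abs_add_le _ _).trans (add_le_add ?_ ?_)
    · rw [abs_mul, abs_of_nonneg (show 0 ≤ 2 / √(N : ℝ) by positivity)]
      refine mul_le_mul_of_nonneg_left ((Finset.abs_sum_le_sum_abs _ _).trans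
        (Finset.sum_le_sum fun a _ => ?_)) (by positivity)
      rw [abs_mul, yv, abs_mul, abs_of_nonneg (Real.sqrt_nonneg _)]
      refine mul_le_mul_of_nonneg_right (mul_le_mul (Real.sqrt_le_sqrt (hξ _)) ?_ (abs_nonneg _)
        (Real.sqrt_nonneg _)) (abs_nonneg _)
      split_ifs
      · exact le_add_of_nonneg_right (abs_nonneg _)
      · exact le_add_of_nonneg_left (abs_nonneg _)
    · refine (Finset.abs_sum_le_sum_abs _ _).trans (Finset.sum_le_sum fun a _ => ?_)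
      split_ifs
      · rw [abs_neg, abs_of_nonneg (sq_nonneg _)]; exact le_add_of_nonneg_right (sq_nonneg _)
      · rw [abs_of_nonneg (sq_nonneg _)]; exact le_add_of_nonneg_left (sq_nonneg _)
  have hint : Integrable (fun P : Pats N M => Real.log (Fintype.card (TV × TQ)) + ∑ i : TV × TQ,
      (Real.log (Fintype.card TQ) + ∑ k : TQ, |γ| * (1 * B (i, k) P + 0))) (pats ν N M) :=
    (integrable_const _).fun_add (integrable_finsetSum _ fun i _ => (integrable_const _).fun_add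
      (integrable_finsetSum _ fun k _ => (((iB (i, k)).const_mul _).fun_add (integrable_const _)).const_mul _))
  refine hint.mono' hm.aestronglyMeasurable (ae_of_all _ fun P => ?_)
  rw [Real.norm_eq_abs]
  refine (abs_smm_le _).trans (add_le_add le_rfl (Finset.sum_le_sum fun i _ => add_le_add le_rfl
    (Finset.sum_le_sum fun k _ => mul_le_mul_of_nonneg_left ?_ (abs_nonneg _))))
  simp only [abs_one, abs_zero, one_mul, add_zero]
  exact hB _ _

/-- Gordon's comparison, averaged over the marks. -/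
theorem mean_le (hξ : ∀ x, |ξ x| ≤ r) (hξm : Measurable ξ) {t τ R η δ γ : ℝ} (ht : 0 < t) (hτ : 0 < τ)
    (htξ : ∀ x, τ ≤ 1 - t * ξ x) (hN : 0 < N) (hM : 0 < M) (hη : 0 < η) (hγ : 0 < γ)
    {TV : Finset (Fin N → ℝ)} {TQ : Finset (Fin M → ℝ)} [Nonempty TV] [Nonempty TQ]
    (hTV : ∀ v ∈ TV, ∑ i, v i ^ 2 = 1) (hTQ : ∀ q ∈ TQ, ∑ a, q a ^ 2 ≤ R ^ 2)
    (hcov : ∀ x : Fin M → ℝ, ∑ a, x a ^ 2 ≤ R ^ 2 → ∃ u ∈ TQ, ∀ a, |x a - u a| ≤ δ)
    (hR : r * ((M : ℝ) / N + 1) ≤ R ^ 2) :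
    ∫ P, sv γ (tab ξ TV TQ P) ∂pats ν N M
      ≤ γ * (1 / t + (M : ℝ) / N * (∫ x, ξ x / (1 - t * ξ x) ∂ν) + 4 * |R| * √r / √(N : ℝ)
          + (2 + t * r) * M * δ ^ 2
          + 2 * r * ((M : ℝ) / N + 1) * (2 * M / (N : ℝ) ^ 2 / η + η))
        + Real.log (Fintype.card (TV × TQ)) := by
  have hmp := mp_mkP ν N M
  have i0 := integrable_sv (ν := ν) hξ hξm (TV := TV) (TQ := TQ) γ
  have i1 : Integrable (fun p : (Fin (M * N) → ℝ) × (Fin M → ℝ) => sv γ (tab ξ TV TQ (mkP p)))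
      ((gs (M * N)).prod (Measure.pi fun _ : Fin M => ν)) := hmp.integrable_comp_of_integrable i0
  set φ : ℝ → ℝ := fun x => ξ x / (1 - t * ξ x) with hφ
  have hφb : ∀ x, ‖φ x‖ ≤ r / τ := fun x => by
    simp only [hφ, Real.norm_eq_abs, abs_div, abs_of_pos (lt_of_lt_of_le hτ (htξ x))]
    exact div_le_div₀ ((abs_nonneg _).trans (hξ x)) (hξ x) hτ (htξ x)
  have hφm : Measurable φ := by fun_prop
  have iφ : Integrable φ ν := Integrable.of_bound hφm.aestronglyMeasurable _ (ae_of_all _ hφb)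
  have hev : ∀ a : Fin M, MeasurePreserving (fun m : Fin M → ℝ => m a) (Measure.pi fun _ : Fin M => ν) ν :=
    fun a => measurePreserving_eval (fun _ : Fin M => ν) a
  have iS : ∀ a ∈ (univ : Finset (Fin M)), Integrable (fun m : Fin M → ℝ => φ (m a)) (Measure.pi fun _ : Fin M => ν) :=
    fun a _ => (hev a).integrable_comp_of_integrable iφ
  set c₁ := 4 * |R| * √r / √(N : ℝ)
  set c₂ := (2 + t * r) * M * δ ^ 2
  set c₃ := 2 * r * ((M : ℝ) / N + 1) * (2 * M / (N : ℝ) ^ 2 / η + η)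
  have iR : Integrable (fun m : Fin M → ℝ => γ * (1 / t + (∑ a, φ (m a)) / N + c₁ + c₂ + c₃)
      + Real.log (Fintype.card (TV × TQ))) (Measure.pi fun _ : Fin M => ν) :=
    ((((((integrable_const _).fun_add ((integrable_finsetSum _ iS).div_const _)).fun_add
      (integrable_const _)).fun_add (integrable_const _)).fun_add (integrable_const _)).const_mul γ).fun_add
        (integrable_const _)
  rw [← integral_comp hmp i0, integral_prod_symm _ i1]
  refine (integral_mono_ae i1.integral_prod_right iR ?_).trans (le_of_eq ?_)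
  · filter_upwards [i1.prod_left_ae] with m hm
    exact fixed_le hξ ht hτ htξ hN hM hη hTV hTQ hcov hR hγ m hm
  · rw [integral_add (((((( integrable_const _).fun_add ((integrable_finsetSum _ iS).div_const _)).fun_add
      (integrable_const _)).fun_add (integrable_const _)).fun_add (integrable_const _)).const_mul γ) (integrable_const _),
      integral_const_mul,
      integral_add ((((integrable_const _).fun_add ((integrable_finsetSum _ iS).div_const _)).fun_add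
        (integrable_const _)).fun_add (integrable_const _)) (integrable_const _),
      integral_add (((integrable_const _).fun_add ((integrable_finsetSum _ iS).div_const _)).fun_add
        (integrable_const _)) (integrable_const _),
      integral_add ((integrable_const _).fun_add ((integrable_finsetSum _ iS).div_const _)) (integrable_const _),
      integral_add (integrable_const _) ((integrable_finsetSum _ iS).div_const _)]
    simp only [integral_div]
    rw [integral_finsetSum _ iS]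
    simp only [integral_const, probReal_univ, one_smul, integral_comp (hev _) iφ, Finset.sum_const,
      Finset.card_univ, Fintype.card_fin, nsmul_eq_mul]
    rw [mul_div_right_comm]

/-- Lower bounds for the soft minimax on the nets. -/
theorem psi_ge {K R δN γ : ℝ} (hξ : ∀ x, |ξ x| ≤ r) (hN : 0 < N) (hK : 0 ≤ K)
    (hR : r * K ≤ R ^ 2) (hδN : 0 < δN) (hγ : 0 < γ)
    {TV : Finset (Fin N → ℝ)} {TQ : Finset (Fin M → ℝ)} [Nonempty TV] [Nonempty TQ]
    (hTV : ∀ v ∈ TV, ∑ i, v i ^ 2 = 1)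
    (hcov : ∀ x : Fin M → ℝ, ∑ a, x a ^ 2 ≤ R ^ 2 → ∃ u ∈ TQ, ∀ a, |x a - u a| ≤ δN)
    (hL : Real.log (Fintype.card TQ) / γ ≤ δN) (hMδ : (M : ℝ) * δN ^ 2 ≤ α * δN)
    (P : Pats N M) {u : Fin N → ℝ} (hu : u ∈ TV) :
    (Gd K P → qf (jm ξ P) u - (α + 1) * δN ≤ sv γ (tab ξ TV TQ P) / γ) ∧
      -(r * ((∑ a, ((P a).1 ⬝ᵥ u) ^ 2) / N)) - (2 * α + 1) * δN ≤ sv γ (tab ξ TV TQ P) / γ := by
  have hr : 0 ≤ r := (abs_nonneg _).trans (hξ 0)
  have hN' : (0 : ℝ) < N := by exact_mod_cast hN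
  have hL' := hL
  rw [div_le_iff₀ hγ] at hL'
  refine ⟨fun hG => ?_, ?_⟩
  · set qs : Fin M → ℝ := fun a =>
      if 0 ≤ ξ (P a).2 then √(ξ (P a).2) * (((P a).1 ⬝ᵥ u) / √(N : ℝ)) else 0 with hqs
    have hqn : ∑ a, qs a ^ 2 ≤ R ^ 2 := by
      have h1 := hG u
      rw [hTV u hu, mul_one] at h1
      have h2 : ∑ a, qs a ^ 2 ≤ r * ((∑ a, ((P a).1 ⬝ᵥ u) ^ 2) / N) := by
        rw [Finset.sum_div, Finset.mul_sum]
        refine Finset.sum_le_sum fun a _ => ?_
        simp only [hqs]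
        split_ifs with hc
        · rw [mul_pow, div_pow, Real.sq_sqrt hc, Real.sq_sqrt hN'.le]
          exact mul_le_mul_of_nonneg_right ((le_abs_self _).trans (hξ _)) (by positivity)
        · simp; positivity
      exact (h2.trans (mul_le_mul_of_nonneg_left h1 hr)).trans hR
    obtain ⟨q, hq, hq'⟩ := hcov qs hqn
    have h1 := le_sv hγ.le (tab ξ TV TQ P) (C := qf (jm ξ P) u - M * δN ^ 2) (⟨u, hu⟩, ⟨q, hq⟩) fun k =>
      sad_ge (k : Fin M → ℝ) fun a ha => by have := hq' a; simp only [hqs, if_pos ha] at this; exact this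
    rw [le_div_iff₀ hγ]
    linarith [mul_le_mul_of_nonneg_right hMδ hγ.le]
  · obtain ⟨q, hq, hq'⟩ := hcov 0 (by simp [sq_nonneg])
    have h1 := le_sv hγ.le (tab ξ TV TQ P)
      (C := -(r * ((∑ a, ((P a).1 ⬝ᵥ u) ^ 2) / N)) - 2 * M * δN ^ 2) (⟨u, hu⟩, ⟨q, hq⟩) fun k =>
        sad_ge_crude hξ (fun a => by simpa using hq' a) u (k : Fin M → ℝ) P
    rw [le_div_iff₀ hγ]
    linarith [mul_le_mul_of_nonneg_right hMδ hγ.le]

/-- Unit vectors are close to the net in value. -/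
theorem qf_net {K : ℝ} (hξ : ∀ x, |ξ x| ≤ r) (hN : 0 < N) (hK : 0 ≤ K) {P : Pats N M} (hG : Gd K P)
    {v u : Fin N → ℝ} (hv : ∑ i, v i ^ 2 = 1) (hvu : ∀ i, |v i - u i| ≤ (N : ℝ)⁻¹) :
    qf (jm ξ P) v ≤ qf (jm ξ P) u + r * (2 * K * (√(N : ℝ))⁻¹ + K * (N : ℝ)⁻¹) := by
  have hr : 0 ≤ r := (abs_nonneg _).trans (hξ 0)
  have hN' : (0 : ℝ) < N := by exact_mod_cast hN
  have hsN : 0 < √(N : ℝ) := Real.sqrt_pos.2 hN'
  refine (qf_close hξ hG hv (u := u) (inv_pos.2 hsN)).trans (add_le_add le_rfl (mul_le_mul_of_nonneg_left ?_ hr))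
  have hs : ∑ i, (u i - v i) ^ 2 ≤ (N : ℝ)⁻¹ := by
    refine (Finset.sum_le_sum (g := fun _ => ((N : ℝ)⁻¹) ^ 2) fun i _ => ?_).trans_eq ?_
    · rw [← sq_abs, abs_sub_comm]; exact pow_le_pow_left₀ (abs_nonneg _) (hvu i) 2
    · simp [pow_two, hN'.ne']
  rw [one_div, inv_inv]
  refine (add_le_add le_rfl (mul_le_mul_of_nonneg_left (mul_le_mul_of_nonneg_left hs hK)
    (by positivity))).trans (le_of_eq ?_)
  have hss := Real.mul_self_sqrt hN'.le
  field_simp
  linear_combination K * hss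

/-- Bookkeeping for the pointwise bound. -/
theorem score_le {α δN K sq e δ η D Ψ S qu qv a b : ℝ} (hα : 0 ≤ α) (hr : 0 ≤ r) (hK : 0 ≤ K) (hsq : 0 ≤ sq)
    (hδN : 0 ≤ δN) (hδ : 0 ≤ δ) (hη : 0 ≤ η) (hD : 0 ≤ D) (hS : S ≤ α + D) (herr : r * (2 * K * sq + K * δN) + 3 * (α + 1) * δN < η / 2)
    (ha : a ≤ η / 2) (hb : b = |e| + η + δ + r * (α + 1) + 1) :
    (-(r * S) - (2 * α + 1) * δN ≤ Ψ →
        (e - δ - (r * (2 * K * sq + K * δN) + 3 * (α + 1) * δN)) + (a - (b + r * D)) ≤ Ψ) ∧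
      (qu - (α + 1) * δN ≤ Ψ → e + η / 2 < qu →
        (e - δ - (r * (2 * K * sq + K * δN) + 3 * (α + 1) * δN)) + (η / 2 - (0 + r * D)) ≤ Ψ) ∧
      (qu - (α + 1) * δN ≤ Ψ → e - δ ≤ qv → qv ≤ qu + r * (2 * K * sq + K * δN) →
        (e - δ - (r * (2 * K * sq + K * δN) + 3 * (α + 1) * δN)) + (0 - (0 + r * D)) ≤ Ψ) := by
  have h0 : 0 ≤ r * (2 * K * sq + K * δN) := by positivity
  have h1 : 0 ≤ α * δN := mul_nonneg hα hδN
  have h2 : 0 ≤ r * D := mul_nonneg hr hD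
  refine ⟨fun h => ?_, fun h h' => by linarith, fun h h' h'' => by linarith⟩
  have := mul_le_mul_of_nonneg_left hS hr
  linarith [le_abs_self e]

/-- Bookkeeping for the averaged bound. -/
theorem total_le {α mn t I R sr sq δN Mδ q q' η₁ δ e r X Y : ℝ} (hα : 0 ≤ α) (hr : 0 ≤ r) (ht : 0 ≤ t)
    (hR : 0 ≤ R) (hmn : mn ≤ α) (hM : Mδ ≤ α * δN) (hq : q ≤ q') (hq0 : 0 ≤ q) (hη₁ : η₁ = δ / (r * (α + 3) * 4 + 1))
    (hδ : 0 ≤ δ) (hft : 1 / t + α * I ≤ e + δ)
    (he : (mn - α) * I + 4 * R * sr * sq + ((2 + t * r) * α + 1) * δN + (2 * r * (α + 1) + r) * q' < δ)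
    (hX : X ≤ 1 / t + mn * I + 4 * |R| * sr * sq + (2 + t * r) * Mδ + 2 * r * (mn + 1) * (q + η₁) + δN)
    (hY : Y ≤ q + η₁) : X + r * Y ≤ e + 3 * δ := by
  have hη0 : 0 ≤ η₁ := by rw [hη₁]; positivity
  have b2 : (2 + t * r) * Mδ ≤ (2 + t * r) * (α * δN) := mul_le_mul_of_nonneg_left hM (by positivity)
  have b3 : 2 * r * (mn + 1) * (q + η₁) ≤ 2 * r * (α + 1) * (q' + η₁) :=
    mul_le_mul (mul_le_mul_of_nonneg_left (by linarith) (by positivity)) (by linarith) (by linarith) (by positivity)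
  have b4 : r * Y ≤ r * (q' + η₁) := mul_le_mul_of_nonneg_left (by linarith) hr
  have b5 : (2 * r * (α + 1) + r) * η₁ ≤ δ := by
    rw [hη₁, ← mul_div_assoc, div_le_iff₀ (by positivity)]
    nlinarith [mul_nonneg hr hα]
  rw [abs_of_nonneg hR] at hX
  linarith

/-- Bookkeeping for the probability of the bad event. -/
theorem event_le {E B W X Y e δ err ε₁ η r : ℝ} (hW : 0 < W) (hε : ε₁ ≤ δ / W) (hB : B ≤ 2 * ε₁)
    (hmain : e - δ - err + (E * (η / 2) - (B * W + r * Y)) ≤ X) (hup : X + r * Y ≤ e + 3 * δ)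
    (herr : err < δ) : η / 2 * E ≤ 7 * δ := by
  have h : W * ε₁ ≤ δ := by rw [le_div_iff₀ hW] at hε; linarith
  have := mul_le_mul_of_nonneg_right hB hW.le
  linarith

/-- The edge function bounds the spectrum from above. -/
theorem edge_prob (hα : 0 < α) (hξ : ∀ x, |ξ x| ≤ r) (hξm : Measurable ξ) {μ : Measure ℝ} {C e : ℝ}
    (hμ : IsLaw α ν ξ μ C e)
    (hex : ∀ δ, 0 < δ → ∃ t τ, 0 < t ∧ 0 < τ ∧ (∀ x, τ ≤ 1 - t * ξ x) ∧
      1 / t + α * (∫ x, ξ x / (1 - t * ξ x) ∂ν) ≤ e + δ)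
    {η ε : ℝ} (hη : 0 < η) (hε : 0 < ε) :
    ∀ᶠ N : ℕ in atTop, (pats ν N ⌊α * N⌋₊).real
      {P | ∃ v, ∑ i, v i ^ 2 = 1 ∧ e + η < qf (jm ξ P) v} < ε := by
  classical
  have hr : 0 ≤ r := (abs_nonneg _).trans (hξ 0)
  set δ := ε * η / 100
  have hδ : 0 < δ := by positivity
  obtain ⟨t, τ, ht, hτ, htξ, hft⟩ := hex δ hδ
  set L0 := r * (α + 1)
  set W := |e| + η + δ + L0 + 1
  have hW : 0 < W := by positivity
  set ε₁ := min (ε / 8) (δ / W)
  have hε₁ : 0 < ε₁ := lt_min (by positivity) (by positivity)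
  obtain ⟨K, hK, hgd⟩ := gd_tight (ν := ν) (hM_floor hα.le) hε₁
  set R := √(r * (α + 2 + K))
  have hR2 : R ^ 2 = r * (α + 2 + K) := Real.sq_sqrt (by positivity)
  set η₁ := δ / (r * (α + 3) * 4 + 1)
  have hη₁ : 0 < η₁ := by positivity
  set I := ∫ x, ξ x / (1 - t * ξ x) ∂ν
  -- vanishing errors
  have hN0 : Tendsto (fun N : ℕ => ((N : ℝ))⁻¹) atTop (𝓝 0) := tendsto_inv_atTop_zero.comp tendsto_natCast_atTop_atTop
  have hS0 : Tendsto (fun N : ℕ => (√(N : ℝ))⁻¹) atTop (𝓝 0) :=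
    tendsto_inv_atTop_zero.comp (Real.tendsto_sqrt_atTop.comp tendsto_natCast_atTop_atTop)
  have herr : Tendsto (fun N : ℕ => r * (2 * K * (√(N : ℝ))⁻¹ + K * (N : ℝ)⁻¹) + 3 * (α + 1) * (N : ℝ)⁻¹)
      atTop (𝓝 0) := by
    simpa using ((((hS0.const_mul (2 * K)).add (hN0.const_mul K)).const_mul r).add (hN0.const_mul (3 * (α + 1))))
  have herr2 : Tendsto (fun N : ℕ => ((⌊α * N⌋₊ : ℝ) / N - α) * I + 4 * R * √r * (√(N : ℝ))⁻¹
      + ((2 + t * r) * α + 1) * (N : ℝ)⁻¹ + (2 * r * (α + 1) + r) * (2 * α * (N : ℝ)⁻¹ / η₁)) atTop (𝓝 0) := by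
    simpa using ((((((hM_floor hα.le).sub_const α).mul_const I).add (hS0.const_mul (4 * R * √r))).add
      (hN0.const_mul ((2 + t * r) * α + 1))).add
        (((hN0.const_mul (2 * α)).div_const η₁).const_mul (2 * r * (α + 1) + r)))
  filter_upwards [hgd, low_prob hα.le hξ hξm hμ K hδ hε₁, herr.eventually (gt_mem_nhds (show 0 < min δ (η / 2) from lt_min hδ (half_pos hη))),
    herr2.eventually (gt_mem_nhds hδ), (hM_floor hα.le).eventually (lt_mem_nhds hα),
    eventually_gt_atTop 0] with N hg hlow he1 he2 hMpos hN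
  have hN' : (0 : ℝ) < N := by exact_mod_cast hN
  have hsN : 0 < √(N : ℝ) := Real.sqrt_pos.2 hN'
  set M := ⌊α * (N : ℝ)⌋₊
  have hM : 0 < M := Nat.pos_of_ne_zero fun h => by simp [h] at hMpos
  have hMα : (M : ℝ) / N ≤ α := by
    rw [div_le_iff₀ hN']; exact Nat.floor_le (by positivity)
  set δN : ℝ := (N : ℝ)⁻¹
  have hδN : 0 < δN := by positivity
  -- nets
  have hSph : IsCompact {x : Fin N → ℝ | ∑ i, x i ^ 2 = 1} :=
    (isCompact_ball N 1).of_isClosed_subset (isClosed_eq (by fun_prop) continuous_const)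
      fun x hx => by simp only [Set.mem_ofPred_eq] at hx ⊢; rw [hx, one_pow]
  obtain ⟨TV₀, hV₀, hVc⟩ := exists_net hSph hδN
  set v₀ : Fin N → ℝ := Pi.single ⟨0, hN⟩ 1
  set TV := insert v₀ TV₀
  have hTV : ∀ v ∈ TV, ∑ i, v i ^ 2 = 1 := fun v hv => by
    rcases Finset.mem_insert.1 hv with rfl | h
    · simp [v₀, Pi.single_apply, ite_pow]
    · exact hV₀ v h
  obtain ⟨TQ, hQ₀, hQc⟩ := exists_net (isCompact_ball M R) hδN
  obtain ⟨q₀, hq₀, hq₀'⟩ := hQc 0 (by simp [sq_nonneg])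
  have : Nonempty TV := ⟨⟨v₀, Finset.mem_insert_self _ _⟩⟩
  have : Nonempty TQ := ⟨⟨q₀, hq₀⟩⟩
  set L := Real.log (Fintype.card (TV × TQ))
  set L' := Real.log (Fintype.card TQ)
  have hL : 0 ≤ L := Real.log_nonneg (by exact_mod_cast Fintype.card_pos)
  have hL' : 0 ≤ L' := Real.log_nonneg (by exact_mod_cast Fintype.card_pos)
  set γ : ℝ := N * (L + L' + 1)
  have hγ : 0 < γ := by positivity
  have hLγ : L / γ ≤ δN ∧ L' / γ ≤ δN := by
    constructor <;>
    · rw [div_le_iff₀ hγ]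
      simp only [δN, γ]
      rw [← mul_assoc, inv_mul_cancel₀ hN'.ne', one_mul]
      linarith
  set Ψ : Pats N M → ℝ := fun P => sv γ (tab ξ TV TQ P) / γ
  have iΨ : Integrable Ψ (pats ν N M) := (integrable_sv hξ hξm γ).div_const γ
  set bad := toMeasurable (pats ν N M)
    ({P : Pats N M | ¬ Gd K P} ∪ {P | Gd K P ∧ ∀ v, ∑ i, v i ^ 2 = 1 → qf (jm ξ P) v < e - δ})
  have hbadp : (pats ν N M).real bad ≤ 2 * ε₁ := by
    rw [measureReal_def, measure_toMeasurable, ← measureReal_def]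
    exact (measureReal_union_le _ _).trans (by linarith)
  set En : Set (Pats N M) := ⋃ v ∈ TV, {P | e + η / 2 < qf (jm ξ P) v}
  have hEn : MeasurableSet En := Finset.measurableSet_biUnion _ fun v _ =>
    measurableSet_lt measurable_const (by
      simp only [jm_qf, dotProduct]; fun_prop)
  set D : Pats N M → ℝ := fun P => |(∑ a, ((P a).1 ⟨0, hN⟩) ^ 2) / N - (M : ℝ) / N|
  have hmpD : MeasurePreserving (fun (P : Pats N M) a => (P a).1 ⟨0, hN⟩) (pats ν N M) (gs M) :=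
    measurePreserving_pi (fun _ : Fin M => pl ν N) (fun _ : Fin M => gaussianReal 0 1)
      (f := fun _ (p : (Fin N → ℝ) × ℝ) => p.1 ⟨0, hN⟩) fun _ =>
        (measurePreserving_eval (fun _ : Fin N => gaussianReal 0 1) ⟨0, hN⟩).comp
          (measurePreserving_fst (μ := gs N) (ν := ν))
  obtain ⟨iD0, hDm⟩ := abs_dev (N := N) M hN hη₁
  have iD : Integrable D (pats ν N M) := hmpD.integrable_comp_of_integrable iD0
  have hDm' : ∫ P, D P ∂pats ν N M ≤ 2 * M / (N : ℝ) ^ 2 / η₁ + η₁ := by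
    refine le_trans (le_of_eq ?_) hDm
    exact integral_comp hmpD iD0
  set err := r * (2 * K * (√(N : ℝ))⁻¹ + K * (N : ℝ)⁻¹) + 3 * (α + 1) * (N : ℝ)⁻¹
  have herr0 : 0 ≤ err := by positivity
  have herrη : err < η / 2 := lt_of_lt_of_le he1 (min_le_right _ _)
  have herrδ : err < δ := lt_of_lt_of_le he1 (min_le_left _ _)
  have hMN2 : (M : ℝ) * δN ^ 2 ≤ α * δN := by
    calc (M : ℝ) * δN ^ 2 = (M : ℝ) / N * δN := by simp only [δN]; ring
      _ ≤ _ := mul_le_mul_of_nonneg_right hMα hδN.le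
  have hnear : ∀ P : Pats N M, Gd K P → ∀ v, ∑ i, v i ^ 2 = 1 → ∃ u ∈ TV,
      qf (jm ξ P) v ≤ qf (jm ξ P) u + r * (2 * K * (√(N : ℝ))⁻¹ + K * (N : ℝ)⁻¹) := fun P hG v hv => by
    obtain ⟨u, hu, hvu⟩ := hVc v hv
    exact ⟨u, Finset.mem_insert_of_mem hu, qf_net hξ hN (zero_le_one.trans hK) hG hv hvu⟩
  have hpsi : ∀ (P : Pats N M) (u : Fin N → ℝ), u ∈ TV →
      (Gd K P → qf (jm ξ P) u - (α + 1) * δN ≤ Ψ P) ∧
        -(r * ((∑ a, ((P a).1 ⬝ᵥ u) ^ 2) / N)) - (2 * α + 1) * δN ≤ Ψ P := fun P u hu =>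
    psi_ge hξ hN (zero_le_one.trans hK) (by rw [hR2]; exact mul_le_mul_of_nonneg_left (by linarith) hr)
      hδN hγ hTV hQc hLγ.2 hMN2 P hu
  have hsad : ∀ P : Pats N M, Gd K P → ∀ u ∈ TV, qf (jm ξ P) u - (α + 1) * δN ≤ Ψ P :=
    fun P hG u hu => (hpsi P u hu).1 hG
  -- pointwise
  have hpt : ∀ P : Pats N M, (e - δ - err) + (En.indicator (fun _ => η / 2) P
      - (bad.indicator (fun _ => W) P + r * D P)) ≤ Ψ P := fun P => by
    have hEb : En.indicator (fun _ => η / 2) P ≤ η / 2 :=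
      Set.indicator_le_self' (fun _ _ => by positivity) P
    have hD0 : 0 ≤ D P := abs_nonneg _
    have hS : (∑ a, ((P a).1 ⬝ᵥ v₀) ^ 2) / N ≤ α + D P := by
      simp only [D, v₀, dotProduct_single, mul_one]
      linarith [le_abs_self ((∑ a, (P a).1 ⟨0, hN⟩ ^ 2) / N - (M : ℝ) / N)]
    have hsc := fun (qu qv a : ℝ) (ha : a ≤ η / 2) => score_le (Ψ := Ψ P) (qu := qu) (qv := qv) (a := a) (b := W)
      (e := e) hα.le hr (zero_le_one.trans hK) (inv_nonneg.2 hsN.le) hδN.le hδ.le hη.le hD0 hS herrη ha rfl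
    by_cases hb : P ∈ bad
    · rw [Set.indicator_of_mem hb]
      exact (hsc 0 0 _ hEb).1 (hpsi P v₀ (Finset.mem_insert_self _ _)).2
    · rw [Set.indicator_of_notMem hb]
      have hG : Gd K P := Classical.not_not.1 fun h => hb (subset_toMeasurable _ _ (Or.inl h))
      by_cases hE : P ∈ En
      · rw [Set.indicator_of_mem hE]
        obtain ⟨u, hu, hu'⟩ := Set.mem_iUnion₂.1 hE
        exact (hsc _ 0 0 (by positivity)).2.1 (hsad P hG u hu) hu'
      · rw [Set.indicator_of_notMem hE]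
        have : ∃ v, ∑ i, v i ^ 2 = 1 ∧ e - δ ≤ qf (jm ξ P) v := by
          by_contra h
          push Not at h
          exact hb (subset_toMeasurable _ _ (Or.inr ⟨hG, h⟩))
        obtain ⟨v, hv, hv'⟩ := this
        obtain ⟨u, hu, hu'⟩ := hnear P hG v hv
        exact (hsc _ _ 0 (by positivity)).2.2 (hsad P hG u hu) hv' hu'
  have iE : Integrable (En.indicator fun _ : Pats N M => η / 2) (pats ν N M) :=
    (integrable_const _).indicator hEn
  have iB : Integrable (bad.indicator fun _ : Pats N M => W) (pats ν N M) :=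
    (integrable_const _).indicator (measurableSet_toMeasurable _ _)
  have hmain := integral_mono ((integrable_const _).fun_add (iE.sub' (iB.fun_add (iD.const_mul r)))) iΨ hpt
  rw [integral_add (integrable_const _) (iE.sub' (iB.fun_add (iD.const_mul r))),
    integral_sub iE (iB.fun_add (iD.const_mul r)), integral_add iB (iD.const_mul r), integral_const_mul,
    integral_const, probReal_univ, one_smul, integral_indicator_const _ hEn,
    integral_indicator_const _ (measurableSet_toMeasurable _ _), smul_eq_mul, smul_eq_mul] at hmain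
  have hup : ∫ P, Ψ P ∂pats ν N M ≤ 1 / t + (M : ℝ) / N * I + 4 * |R| * √r / √(N : ℝ)
      + (2 + t * r) * M * δN ^ 2 + 2 * r * ((M : ℝ) / N + 1) * (2 * M / (N : ℝ) ^ 2 / η₁ + η₁) + δN := by
    simp only [Ψ]
    rw [integral_div, div_le_iff₀ hγ]
    have h := mean_le (ν := ν) hξ hξm ht hτ htξ hN hM hη₁ hγ hTV hQ₀ hQc
      (by rw [hR2]; exact mul_le_mul_of_nonneg_left (by linarith) hr)
    have := hLγ.1
    rw [div_le_iff₀ hγ] at this
    linarith
  have hq : 2 * (M : ℝ) / (N : ℝ) ^ 2 / η₁ ≤ 2 * α * (N : ℝ)⁻¹ / η₁ := by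
    gcongr
    calc 2 * (M : ℝ) / (N : ℝ) ^ 2 = 2 * ((M : ℝ) / N) * (N : ℝ)⁻¹ := by ring
      _ ≤ _ := by gcongr
  have hup' : ∫ P, Ψ P ∂pats ν N M + r * ∫ P, D P ∂pats ν N M ≤ e + 3 * δ := by
    rw [mul_assoc (2 + t * r) (M : ℝ), div_eq_mul_inv _ √(N : ℝ)] at hup
    exact total_le hα.le hr ht.le (Real.sqrt_nonneg _) hMα hMN2 hq (by positivity) rfl hδ.le hft he2 hup hDm'
  have hEnle : η / 2 * (pats ν N M).real En ≤ 7 * δ :=
    event_le hW (min_le_right _ _) hbadp hmain hup' herrδ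
  have hsub : {P : Pats N M | ∃ v, ∑ i, v i ^ 2 = 1 ∧ e + η < qf (jm ξ P) v}
      ⊆ {P : Pats N M | ¬ Gd K P} ∪ En := fun P ⟨v, hv, hlt⟩ => by
    by_cases hG : Gd K P
    · obtain ⟨u, hu, hu'⟩ := hnear P hG v hv
      refine Or.inr (Set.mem_iUnion₂.2 ⟨u, hu, ?_⟩)
      have : r * (2 * K * (√(N : ℝ))⁻¹ + K * (N : ℝ)⁻¹) ≤ err := le_add_of_nonneg_right (by positivity)
      simp only [Set.mem_ofPred_eq]
      linarith
    · exact Or.inl hG
  refine lt_of_le_of_lt ((measureReal_mono hsub).trans (measureReal_union_le _ _)) ?_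
  have h7 : (pats ν N M).real En ≤ 14 * ε / 100 := by
    simp only [δ] at hEnle
    exact le_of_mul_le_mul_left (by linarith) (half_pos hη)
  linarith [min_le_left (ε / 8) (δ / W)]

end Vale.Agent.P166.Free
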