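import Vale.Agent.P166.Free.Sharp

/-!
The pressure for deterministic spectra with free compound Poisson limit.
-/

open MeasureTheory ProbabilityTheory Filter Topology Matrix Finset

namespace Vale.Agent.P166.Free

variable {N M : ℕ}

/-- The cumulant form of the recursion. -/
theorem tk_expand {α : ℝ} {ν : Measure ℝ} {ξ : ℝ → ℝ} (k : ℕ) (y : ℝ) :
    tk α ν ξ k y = ∑ s ∈ range (k + 1),
      y ^ s * PowerSeries.coeff (k - s) ((PowerSeries.mk (mom α ν ξ)) ^ (s + 1)) := by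
  induction k using Nat.strong_induction_on with
  | _ k ih =>
    rw [tk_eq, Finset.sum_range_succ' _ k, pow_zero, one_mul, Nat.sub_zero, zero_add, pow_one,
      PowerSeries.coeff_mk, add_comm]
    congr 1
    rw [Finset.mul_sum, Finset.sum_congr rfl fun i hi => show
      y * (mom α ν ξ i * tk α ν ξ (k - 1 - i) y) = ∑ s ∈ range (k - i),
        y ^ (s + 1) * (mom α ν ξ i * PowerSeries.coeff (k - 1 - i - s) ((PowerSeries.mk (mom α ν ξ)) ^ (s + 1))) by
      have := mem_range.1 hi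
      rw [ih _ (by omega), show k - 1 - i + 1 = k - i by omega, Finset.mul_sum, Finset.mul_sum]
      exact Finset.sum_congr rfl fun s _ => by ring]
    rw [Finset.sum_comm' (s := range k) (t := fun i => range (k - i)) (t' := range k)
      (s' := fun s => range (k - s)) (h := fun i s => by simp only [mem_range]; omega)]
    refine Finset.sum_congr rfl fun s hs => ?_
    have := mem_range.1 hs
    rw [pow_succ' _ (s + 1), PowerSeries.coeff_mul,
      Finset.Nat.sum_antidiagonal_eq_sum_range_succ (fun i j => PowerSeries.coeff i (PowerSeries.mk (mom α ν ξ))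
        * PowerSeries.coeff j ((PowerSeries.mk (mom α ν ξ)) ^ (s + 1))) (k - (s + 1)),
      show (k - (s + 1)).succ = k - s by omega, Finset.mul_sum]
    refine Finset.sum_congr rfl fun i hi => ?_
    rw [PowerSeries.coeff_mk, show k - (s + 1) - i = k - 1 - i - s by omega]

/-- The moments in terms of the free cumulants `α ∫ x^(s+1) dν`. -/
theorem mom_cumulants {α r : ℝ} {ν : Measure ℝ} [IsProbabilityMeasure ν] {ξ : ℝ → ℝ}
    (hξ : ∀ x, |ξ x| ≤ r) (hξm : Measurable ξ) (k : ℕ) :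
    mom α ν ξ (k + 1) = ∑ s ∈ range (k + 1), (α * ∫ x, ξ x ^ (s + 1) ∂ν)
      * PowerSeries.coeff (k - s) ((PowerSeries.mk (mom α ν ξ)) ^ (s + 1)) := by
  have hi : ∀ n : ℕ, Integrable (fun x => ξ x ^ n) ν := fun n =>
    Integrable.of_bound (hξm.pow_const n).aestronglyMeasurable (r ^ n) (ae_of_all _ fun x => by
      rw [norm_pow, Real.norm_eq_abs]; exact pow_le_pow_left₀ (abs_nonneg _) (hξ x) n)
  rw [mom_succ]
  simp only [tk_expand, Finset.mul_sum, ← mul_assoc, ← pow_succ']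
  rw [integral_finsetSum _ fun s _ => (hi (s + 1)).mul_const _, Finset.mul_sum]
  simp only [integral_mul_const]
  exact Finset.sum_congr rfl fun s _ => by ring

/-- Pressure of a coupling matrix. -/
noncomputable def press' (β : ℝ) (A : Matrix (Fin N) (Fin N) ℝ) : ℝ :=
  1 / (N : ℝ) * Real.log (((2 : ℝ) ^ N)⁻¹ * ∑ σ : Fin N → Bool,
    Real.exp (β / 2 * qf A fun k => spin (σ k)))

theorem press'_dec (β : ℝ) {A Q : Matrix (Fin N) (Fin N) ℝ} {x : Fin N → ℝ} (h : Dec A Q x)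
    (U : Matrix (Fin N) (Fin N) ℝ) :
    press' β (Uᵀ * A * U) = pr β x (Q * U : Matrix (Fin N) (Fin N) ℝ) := by
  simp only [press', pr, wgt]
  congr 3
  refine Finset.sum_congr rfl fun σ _ => ?_
  congr 2
  rw [h.2.2, show Uᵀ * (Qᵀ * diagonal x * Q) * U = (Q * U)ᵀ * diagonal x * (Q * U) by
    rw [Matrix.transpose_mul]; simp only [Matrix.mul_assoc], qf, ← Matrix.mulVec_mulVec, ← Matrix.mulVec_mulVec,
    Matrix.dotProduct_mulVec, Matrix.vecMul_transpose]
  simp only [dotProduct, Matrix.mulVec_diagonal, comp2]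
  refine Finset.sum_congr rfl fun i _ => ?_
  simp only [Matrix.mulVec, dotProduct]
  ring

/-- Rotation of all vectors. -/
noncomputable def rotP (U : Matrix (Fin N) (Fin N) ℝ) (P : Pats N M) : Pats N M :=
  fun a => ((P a).1 ᵥ* U, (P a).2)

theorem jm_rotP (ξ : ℝ → ℝ) (U : Matrix (Fin N) (Fin N) ℝ) (P : Pats N M) :
    jm ξ (rotP U P) = Uᵀ * jm ξ P * U := by
  ext i j
  simp only [jm, rotP, Matrix.mul_apply, Matrix.transpose_apply, Matrix.vecMul, dotProduct, Finset.sum_mul,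
    Finset.mul_sum, Finset.sum_div]
  rw [Finset.sum_comm]
  refine Finset.sum_congr rfl fun k _ => ?_
  rw [Finset.sum_comm]
  exact Finset.sum_congr rfl fun l _ => Finset.sum_congr rfl fun a _ => by ring

theorem gs_rot {U : Matrix (Fin N) (Fin N) ℝ} (hU : Uᵀ * U = 1) :
    MeasurePreserving (fun g : Fin N → ℝ => g ᵥ* U) (gs N) (gs N) := by
  have hU' : U * Uᵀ = 1 := mul_eq_one_comm.1 hU
  let T : EuclideanSpace ℝ (Fin N) →ₗ[ℝ] EuclideanSpace ℝ (Fin N) :=
    { toFun := fun x => WithLp.toLp 2 (x.ofLp ᵥ* U)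
      map_add' := fun x y => by ext j; simp [Matrix.add_vecMul]
      map_smul' := fun c x => by ext j; simp [Matrix.smul_vecMul] }
  have hnorm : ∀ x, ‖T x‖ = ‖x‖ := fun x => by
    rw [EuclideanSpace.norm_eq, EuclideanSpace.norm_eq]; simp only [Real.norm_eq_abs, sq_abs]
    congr 1
    have e : (x.ofLp ᵥ* U) ⬝ᵥ (x.ofLp ᵥ* U) = x.ofLp ⬝ᵥ x.ofLp := by
      rw [← Matrix.dotProduct_mulVec, ← Matrix.mulVec_transpose U, Matrix.mulVec_mulVec, hU', Matrix.one_mulVec]
    simpa [dotProduct, pow_two, T] using e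
  let F := ({ toLinearMap := T, norm_map' := hnorm } :
    EuclideanSpace ℝ (Fin N) →ₗᵢ[ℝ] EuclideanSpace ℝ (Fin N)).toLinearIsometryEquiv rfl
  have hF : ∀ g : Fin N → ℝ, F (WithLp.toLp 2 g) = WithLp.toLp 2 (g ᵥ* U) := fun g => rfl
  have hm : Measurable fun g : Fin N → ℝ => g ᵥ* U :=
    measurable_pi_lambda _ fun j => by simp only [Matrix.vecMul, dotProduct]; fun_prop
  refine ⟨hm, ?_⟩
  have h := stdGaussian_map F
  rw [← map_pi_eq_stdGaussian, Measure.map_map (by fun_prop) (by fun_prop)] at h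
  have e2 : (F ∘ WithLp.toLp 2) = (WithLp.toLp 2 ∘ fun g : Fin N → ℝ => g ᵥ* U) := funext hF
  rw [e2, ← Measure.map_map (by fun_prop) hm] at h
  exact (MeasurableEquiv.toLp 2 (Fin N → ℝ)).map_measurableEquiv_injective h

variable {ν : Measure ℝ} [IsProbabilityMeasure ν]

theorem pats_rot {U : Matrix (Fin N) (Fin N) ℝ} (hU : Uᵀ * U = 1) :
    MeasurePreserving (rotP (M := M) U) (pats ν N M) (pats ν N M) :=
  measurePreserving_pi (fun _ : Fin M => pl ν N) (fun _ : Fin M => pl ν N)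
    (f := fun _ (p : (Fin N → ℝ) × ℝ) => (p.1 ᵥ* U, p.2)) fun _ => (gs_rot hU).prod (MeasurePreserving.id ν)

/-- Truncated deviation. -/
noncomputable def tdv (L x : ℝ) : ℝ := min |x - L| 1

theorem tdv_mem (L x : ℝ) : 0 ≤ tdv L x ∧ tdv L x ≤ 1 :=
  ⟨le_min (abs_nonneg _) zero_le_one, min_le_right _ _⟩

theorem lipschitz_tdv (L : ℝ) : LipschitzWith 1 (tdv L) := by
  have h : LipschitzWith 1 fun x : ℝ => |x - L| := by
    refine LipschitzWith.of_dist_le_mul fun x y => ?_
    simp only [Real.dist_eq, NNReal.coe_one, one_mul]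
    exact (abs_abs_sub_abs_le_abs_sub _ _).trans (le_of_eq (by ring_nf))
  exact h.min_const 1

/-- Expected truncated deviation over a random rotation. -/
noncomputable def rdev (π : Measure (Fin N → Fin N → ℝ)) (β L : ℝ) (ξ : ℝ → ℝ) (P : Pats N M) : ℝ :=
  ∫ U, tdv L (press' β ((Matrix.of U)ᵀ * jm ξ P * Matrix.of U)) ∂π

theorem rdev_facts {ξ : ℝ → ℝ} (hξm : Measurable ξ) (β L : ℝ) {π : Measure (Fin N → Fin N → ℝ)}
    [IsProbabilityMeasure π] (hπ : LeftInv π) :
    (∀ P : Pats N M, 0 ≤ rdev π β L ξ P) ∧ Integrable (rdev π β L ξ) (pats ν N M) ∧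
      ∫ P, rdev π β L ξ P ∂pats ν N M = ∫ P, tdv L (press' β (jm ξ P)) ∂pats ν N M ∧
      ∀ (P : Pats N M) (Q : Matrix (Fin N) (Fin N) ℝ) (x : Fin N → ℝ), Dec (jm ξ P) Q x →
        rdev π β L ξ P = ∫ U, tdv L (pr β x U) ∂π := by
  have hrep : ∀ (P : Pats N M) (Q : Matrix (Fin N) (Fin N) ℝ) (x : Fin N → ℝ), Dec (jm ξ P) Q x →
      rdev π β L ξ P = ∫ U, tdv L (pr β x U) ∂π := by
    intro P Q x hd
    conv_rhs => rw [← hπ.2 Q hd.1]
    rw [integral_map]
    · simp only [rdev, press'_dec β hd]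
    · refine (measurable_pi_lambda _ fun i => measurable_pi_lambda _ fun k => ?_).aemeasurable
      simp only [Matrix.mul_apply, Matrix.of_apply]; fun_prop
    · exact ((lipschitz_tdv L).continuous.measurable.comp (measurable_pr x)).aestronglyMeasurable
  set F : Pats N M × (Fin N → Fin N → ℝ) → ℝ := fun q =>
    tdv L (press' β ((Matrix.of q.2)ᵀ * jm ξ q.1 * Matrix.of q.2)) with hFdef
  have hFm : Measurable F := by
    refine (lipschitz_tdv L).continuous.measurable.comp ?_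
    simp only [press', qf, dotProduct, Matrix.mulVec, Matrix.mul_apply, Matrix.transpose_apply, Matrix.of_apply, jm]
    fun_prop
  have hF : Integrable F ((pats ν N M).prod π) :=
    Integrable.of_bound hFm.aestronglyMeasurable 1 (ae_of_all _ fun q => by
      rw [Real.norm_eq_abs, abs_of_nonneg (tdv_mem L _).1]; exact (tdv_mem L _).2)
  refine ⟨fun P => integral_nonneg fun U => (tdv_mem L _).1, hF.integral_prod_left, ?_, hrep⟩
  have e1 : ∫ P, rdev π β L ξ P ∂pats ν N M = ∫ U, ∫ P, F (P, U) ∂pats ν N M ∂π := by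
    rw [← integral_prod_symm _ hF, integral_prod _ hF]; rfl
  have hm0 : Measurable fun P : Pats N M => tdv L (press' β (jm ξ P)) := by
    refine (lipschitz_tdv L).continuous.measurable.comp ?_
    simp only [press', qf, dotProduct, Matrix.mulVec, jm]
    fun_prop
  have i0 : Integrable (fun P : Pats N M => tdv L (press' β (jm ξ P))) (pats ν N M) :=
    Integrable.of_bound hm0.aestronglyMeasurable 1 (ae_of_all _ fun P => by
      rw [Real.norm_eq_abs, abs_of_nonneg (tdv_mem L _).1]; exact (tdv_mem L _).2)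
  rw [e1, integral_congr_ae (g := fun _ => ∫ P, tdv L (press' β (jm ξ P)) ∂pats ν N M) ?_]
  · simp
  · filter_upwards [hπ.1] with U hU
    rw [← integral_comp (pats_rot (M := M) (ν := ν) (U := Matrix.of U) hU) i0]
    simp only [hFdef, jm_rotP]

/-- Convergence of moments gives weak convergence for bounded spectra. -/
theorem empTo_moments {μ : Measure ℝ} [IsProbabilityMeasure μ] {C : ℝ} (hμ : ∀ᵐ x ∂μ, |x| ≤ C)
    {m : ℕ → ℝ} (hmom : ∀ k, ∫ x, x ^ k ∂μ = m k) {l : ∀ N : ℕ, Fin N → ℝ}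
    (hl : ∀ᶠ N in atTop, ∀ i, |l N i| ≤ C)
    (hk : ∀ k : ℕ, Tendsto (fun N : ℕ => (∑ i, l N i ^ k) / N) atTop (𝓝 (m k))) : EmpTo μ l := by
  intro f hf ⟨B, hB⟩
  rw [Metric.tendsto_nhds]
  intro ε hε
  obtain ⟨p, hp⟩ := exists_polynomial_near_of_continuousOn (-C) C f hf.continuousOn (ε / 4) (by positivity)
  have hi : ∀ k : ℕ, Integrable (fun x : ℝ => x ^ k) μ := fun k =>
    Integrable.of_bound (continuous_pow k).aestronglyMeasurable (C ^ k) (hμ.mono fun x hx => by
      rw [norm_pow, Real.norm_eq_abs]; exact pow_le_pow_left₀ (abs_nonneg x) hx k)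
  have hip : Integrable (fun x => p.eval x) μ := by
    simp only [Polynomial.eval_eq_sum_range]
    exact integrable_finsetSum _ fun k _ => (hi k).const_mul _
  have hpl : Tendsto (fun N : ℕ => (∑ i, p.eval (l N i)) / N) atTop (𝓝 (∫ x, p.eval x ∂μ)) := by
    simp only [Polynomial.eval_eq_sum_range]
    rw [integral_finsetSum _ fun k _ => (hi k).const_mul _]
    simp only [integral_const_mul, hmom]
    refine (tendsto_finsetSum _ fun k _ => (hk k).const_mul (p.coeff k)).congr fun N => ?_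
    rw [Finset.sum_comm, Finset.sum_div]
    simp only [Finset.mul_sum, ← mul_div_assoc]
  have hclose : |∫ x, f x ∂μ - ∫ x, p.eval x ∂μ| ≤ ε / 4 := by
    have hif : Integrable f μ := Integrable.of_bound hf.aestronglyMeasurable B (ae_of_all _ fun x => hB x)
    rw [← integral_sub hif hip, ← Real.norm_eq_abs]
    refine (norm_integral_le_of_norm_le_const (C := ε / 4) (hμ.mono fun x hx => ?_)).trans_eq (by simp)
    rw [Real.norm_eq_abs, abs_sub_comm]; exact (hp x (abs_le.1 hx)).le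
  filter_upwards [hl, eventually_gt_atTop 0, hpl.eventually (Metric.ball_mem_nhds _ (show 0 < ε / 4 by positivity))]
    with N hN hN0 hball
  have hN' : (0 : ℝ) < N := by exact_mod_cast hN0
  simp only [Metric.mem_ball, Real.dist_eq] at hball
  have h1 : |(∑ i, f (l N i)) / N - (∑ i, p.eval (l N i)) / N| ≤ ε / 4 := by
    rw [← sub_div, ← Finset.sum_sub_distrib, abs_div, abs_of_pos hN', div_le_iff₀ hN']
    refine (Finset.abs_sum_le_sum_abs _ _).trans ((Finset.sum_le_sum (g := fun _ => ε / 4) fun i _ => ?_).trans_eq ?_)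
    · rw [abs_sub_comm]; exact (hp _ (abs_le.1 (hN i))).le
    · simp [mul_comm]
  rw [Real.dist_eq]
  have := abs_le.1 h1; have := abs_le.1 hclose; have := abs_lt.1 hball
  rw [abs_lt]; constructor <;> linarith

/-- Spectra realised by the random coupling. -/
theorem realise' {α r β L : ℝ} (hα : 0 ≤ α) {ξ : ℝ → ℝ} (hξ : ∀ x, |ξ x| ≤ r) (hξm : Measurable ξ)
    {μ : Measure ℝ} {C e : ℝ} (hμ : IsLaw α ν ξ μ C e) (hC : |e| ≤ C)
    {law : ∀ N : ℕ, Measure (Fin N → Fin N → ℝ)} [∀ N, IsProbabilityMeasure (law N)]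
    (hlaw : ∀ N, LeftInv (law N))
    (hL : Tendsto (fun N : ℕ => ∫ P, tdv L (press' β (jm ξ P)) ∂pats ν N ⌊α * N⌋₊) atTop (𝓝 0)) :
    ∃ (R : ℝ) (l : ∀ N : ℕ, Fin N → ℝ), Spec μ e R l ∧
      Tendsto (fun N => ∫ U, tdv L (pr β (l N) U) ∂law N) atTop (𝓝 0) := by
  classical
  have := hμ.prob
  have hneg : ∀ x, |(-ξ x)| ≤ r := fun x => by rw [abs_neg]; exact hξ x
  obtain ⟨μ', C', e', hμ', -⟩ := exists_law (ν := ν) hα hneg hξm.neg
  set R := |e'| + 1
  set Bad : ℕ → ∀ N : ℕ, Set (Pats N ⌊α * N⌋₊) := fun j N =>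
    (⋃ i ∈ range (j + 1), {P | 1 / ((j : ℝ) + 1) < |trm ξ i P - mom α ν ξ i|})
    ∪ {P | ∃ v, ∑ i, v i ^ 2 = 1 ∧ e + 1 / ((j : ℝ) + 1) < qf (jm ξ P) v}
    ∪ {P | ∃ v, ∑ i, v i ^ 2 = 1 ∧ e' + 1 < qf (jm (fun x => -ξ x) P) v}
    ∪ {P | 1 / ((j : ℝ) + 1) ≤ rdev (law N) β L ξ P}
  have hbad : ∀ j, ∀ᶠ N : ℕ in atTop, ∃ P, P ∉ Bad j N := fun j => by
    have hj : (0 : ℝ) < 1 / ((j : ℝ) + 1) := by positivity
    filter_upwards [moments_all (ν := ν) hα hξ hξm j hj (show (0 : ℝ) < 1 / 5 by norm_num),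
      top_prob hα hξ hξm hμ hj (show (0 : ℝ) < 1 / 5 by norm_num),
      top_prob hα hneg hξm.neg hμ' one_pos (show (0 : ℝ) < 1 / 5 by norm_num),
      hL.eventually (gt_mem_nhds (show (0 : ℝ) < 1 / 5 * (1 / ((j : ℝ) + 1)) by positivity))] with N b1 b2 b3 b4
    obtain ⟨h0, hi, heq, -⟩ := rdev_facts (ν := ν) (M := ⌊α * N⌋₊) hξm β L (hlaw N)
    have b4' : (pats ν N ⌊α * N⌋₊).real {P | 1 / ((j : ℝ) + 1) ≤ rdev (law N) β L ξ P} < 1 / 5 := by
      refine lt_of_le_of_lt (markov h0 hi hj) ?_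
      rw [div_lt_iff₀ hj, heq]
      exact b4
    refine exists_notMem (P := pats ν N ⌊α * N⌋₊) (lt_of_le_of_lt ((measureReal_union_le _ _).trans (add_le_add
      ((measureReal_union_le _ _).trans (add_le_add (measureReal_union_le _ _) le_rfl)) le_rfl)) ?_)
    linarith
  set J : ℕ → ℕ := fun N => Nat.findGreatest (fun j => ∃ P, P ∉ Bad j N) N
  have hJ : ∀ j, ∀ᶠ N in atTop, j ≤ J N ∧ ∃ P, P ∉ Bad (J N) N := fun j => by
    filter_upwards [hbad j, eventually_ge_atTop j] with N hN hj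
    exact ⟨Nat.le_findGreatest hj hN, Nat.findGreatest_spec (P := fun j => ∃ P, P ∉ Bad j N) hj hN⟩
  have hch : ∀ N, ∃ P : Pats N ⌊α * N⌋₊, (∃ P, P ∉ Bad (J N) N) → P ∉ Bad (J N) N := fun N => by
    by_cases h : ∃ P, P ∉ Bad (J N) N
    · obtain ⟨P, hP⟩ := h; exact ⟨P, fun _ => hP⟩
    · exact ⟨fun _ => (0, 0), fun h' => absurd h' h⟩
  choose G hG using hch
  choose Q l hd using fun N => exists_dec (jm_symm ξ (G N))
  -- the small quantities
  have hgood : ∀ (k : ℕ) (ε : ℝ), 0 < ε → ∀ᶠ N in atTop,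
      |(∑ i, l N i ^ k) / N - mom α ν ξ k| < ε ∧ (∀ i, l N i ≤ e + ε) ∧ (∀ i, -R ≤ l N i) ∧
        ∫ U, tdv L (pr β (l N) U) ∂law N < ε := fun k ε hε => by
    obtain ⟨j₀, hj₀⟩ := exists_nat_one_div_lt hε
    filter_upwards [hJ (max k j₀)] with N hN
    have h := hG N hN.2
    simp only [Bad, Set.mem_union, Set.mem_iUnion, Set.mem_ofPred_eq, not_or, not_exists, not_and, not_lt,
      not_le] at h
    obtain ⟨⟨⟨h1, h2⟩, h3⟩, h4⟩ := h
    have hlt : 1 / ((J N : ℝ) + 1) < ε := lt_of_le_of_lt (one_div_le_one_div_of_le (by positivity)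
      (by have : (j₀ : ℝ) ≤ J N := by exact_mod_cast (le_max_right k j₀).trans hN.1
          linarith)) hj₀
    refine ⟨?_, fun i => ?_, fun i => ?_, ?_⟩
    · rw [← (hd N).trace k]
      exact lt_of_le_of_lt (h1 k (mem_range.2 (by have := (le_max_left k j₀).trans hN.1; omega))) hlt
    · obtain ⟨a1, a2⟩ := (hd N).row i
      have := h2 _ a1
      rw [a2] at this
      linarith
    · obtain ⟨a1, a2⟩ := (hd N).row i
      have := h3 _ a1
      have e2 : qf (jm (fun x => -ξ x) (G N)) (fun k => Q N i k) = -qf (jm ξ (G N)) (fun k => Q N i k) := by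
        simp only [jm_qf, neg_mul, Finset.sum_neg_distrib, neg_div]
      rw [e2, a2] at this
      simp only [R]
      linarith [le_abs_self e']
    · obtain ⟨-, -, -, hrep⟩ := rdev_facts (ν := ν) (M := ⌊α * N⌋₊) hξm β L (hlaw N)
      rw [← hrep (G N) (Q N) (l N) (hd N)]
      linarith
  refine ⟨R, l, ⟨empTo_moments (C := max C (max R (e + 1))) (hμ.supp.mono fun x hx => hx.trans (le_max_left _ _))
    hμ.moments ?_ (fun k => ?_), fun η hη => (hgood 0 η hη).mono fun N h => h.2.1,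
    (hgood 0 1 one_pos).mono fun N h => h.2.2.1⟩, ?_⟩
  · filter_upwards [hgood 0 1 one_pos] with N h i
    refine abs_le.2 ⟨?_, (h.2.1 i).trans ((le_max_right _ _).trans (le_max_right _ _))⟩
    linarith [h.2.2.1 i, (le_max_left R (e + 1)).trans (le_max_right C _)]
  · rw [Metric.tendsto_nhds]
    intro ε hε
    filter_upwards [hgood k ε hε] with N h
    rw [Real.dist_eq]; exact h.1
  · rw [Metric.tendsto_nhds]
    intro ε hε
    filter_upwards [hgood 0 ε hε] with N h
    rw [Real.dist_eq, sub_zero, abs_of_nonneg (integral_nonneg fun U => (tdv_mem L _).1)]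
    exact h.2.2.2

/-- The pressure converges for every deterministic spectrum with free compound Poisson limit. -/
theorem free_limit {α β r : ℝ} (hα : 0 ≤ α) {ξ : ℝ → ℝ} (hξ : ∀ x, |ξ x| ≤ r) (hξm : Measurable ξ)
    (hβ : 0 ≤ β) (hβr : β * r ≤ 1 / 25) :
    ∃ (μ : Measure ℝ) (C e L : ℝ), IsLaw α ν ξ μ C e ∧
      (∀ ε : ℝ, 0 < ε → ∀ᶠ N : ℕ in atTop,
        Integrable (fun P => (press' β (jm ξ P) - L) ^ 2) (pats ν N ⌊α * N⌋₊) ∧
          ∫ P, (press' β (jm ξ P) - L) ^ 2 ∂pats ν N ⌊α * N⌋₊ < ε) ∧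
      ∀ (law : ∀ N : ℕ, Measure (Fin N → Fin N → ℝ)), (∀ N, IsProbabilityMeasure (law N)) →
        (∀ N, LeftInv (law N)) → ∀ (R : ℝ) (lam : ∀ N : ℕ, Fin N → ℝ), Spec μ e R lam →
          Tendsto (fun N : ℕ => ∫ U, (pr β (lam N) U - L) ^ 2 ∂law N) atTop (𝓝 0) := by
  obtain ⟨μ, C, e, hμ, hC⟩ := exists_law (ν := ν) hα hξ hξm
  have := hμ.prob
  have hκ : ∀ x, |β * ξ x| ≤ 1 / 25 := fun x => by
    rw [abs_mul, abs_of_nonneg hβ]; exact (mul_le_mul_of_nonneg_left (hξ x) hβ).trans hβr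
  obtain ⟨L, hL⟩ := tendsto_sq (ν := ν) (κ := fun x => β * ξ x) hκ (hξm.const_mul β) hα
  have hval : ∀ N : ℕ, 0 < N → ∀ P : Pats N ⌊α * N⌋₊,
      val (fun x => β * ξ x) (unif N) (fun _ : Fin ⌊α * N⌋₊ => flat N) P / N = press' β (jm ξ P) := fun N hN P => by
    have hN' : (0 : ℝ) < N := by exact_mod_cast hN
    have e : ∀ σ : Fin N → Bool, ener (fun x => β * ξ x) (fun _ : Fin ⌊α * N⌋₊ => flat N) P σ
        = β / 2 * qf (jm ξ P) fun k => spin (σ k) := fun σ => by
      simp only [ener, jm_qf, Finset.mul_sum, Finset.sum_div]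
      refine Finset.sum_congr rfl fun a _ => ?_
      have hs : ∑ i, (P a).1 i * flat N σ i = ((P a).1 ⬝ᵥ fun k => spin (σ k)) / √(N : ℝ) := by
        simp only [flat, dotProduct, Finset.sum_div, spin, P157.sg]
        exact Finset.sum_congr rfl fun i _ => by ring
      rw [hs, div_pow, Real.sq_sqrt hN'.le]
      ring
    simp only [val, press', e, unif, ← Finset.mul_sum]
    ring
  have hsq : ∀ ε : ℝ, 0 < ε → ∀ᶠ N : ℕ in atTop,
      Integrable (fun P => (press' β (jm ξ P) - L) ^ 2) (pats ν N ⌊α * N⌋₊) ∧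
        ∫ P, (press' β (jm ξ P) - L) ^ 2 ∂pats ν N ⌊α * N⌋₊ < ε := fun ε hε => by
    filter_upwards [hL ε hε, eventually_gt_atTop 0] with N h hN
    simpa only [hval N hN] using h
  refine ⟨μ, C, e, L, hμ, hsq, fun law hp hlaw R lam hlam => ?_⟩
  have habs : Tendsto (fun N : ℕ => ∫ P, tdv L (press' β (jm ξ P)) ∂pats ν N ⌊α * N⌋₊) atTop (𝓝 0) := by
    rw [Metric.tendsto_nhds]
    intro ε hε
    filter_upwards [hsq (ε ^ 2 / 4) (by positivity)] with N h
    rw [Real.dist_eq, sub_zero, abs_of_nonneg (integral_nonneg fun P => (tdv_mem L _).1)]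
    refine lt_of_le_of_lt (integral_mono_of_nonneg (ae_of_all _ fun P => (tdv_mem L _).1)
      ((h.1.div_const ε).fun_add (integrable_const (ε / 4))) (ae_of_all _ fun P => ?_)) ?_
    · refine (min_le_left _ _).trans ?_
      simp only
      rw [div_add' _ _ _ hε.ne', le_div_iff₀ hε]
      nlinarith [sq_nonneg (|press' β (jm ξ P) - L| - ε / 2), sq_abs (press' β (jm ξ P) - L)]
    · rw [integral_add (h.1.div_const ε) (integrable_const _), integral_div, integral_const, probReal_univ,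
        one_smul]
      have : (∫ P, (press' β (jm ξ P) - L) ^ 2 ∂pats ν N ⌊α * N⌋₊) / ε < ε / 4 := by
        rw [div_lt_iff₀ hε]; nlinarith [h.2]
      linarith
  obtain ⟨R₀, l, hl, hD⟩ := realise' hα hξ hξm hμ hC hlaw habs
  set R' := max (max R R₀) 0
  have hup : ∀ {R₁ : ℝ} {x : ∀ N : ℕ, Fin N → ℝ}, R₁ ≤ R' → Spec μ e R₁ x → Spec μ e R' x := fun hR hx =>
    ⟨hx.1, hx.2.1, hx.2.2.mono fun N h i => by linarith [h i]⟩
  have hl' := hup ((le_max_right R R₀).trans (le_max_left _ 0)) hl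
  have hlam' := hup ((le_max_left R R₀).trans (le_max_left _ 0)) hlam
  have hgood : ∀ N, ∀ᵐ U ∂law N, Good U := fun N => (hlaw N).1.mono fun U hU => good_of_orth hU
  have hu := spec_universal (law := law) (β := β) hgood (fun N τ => leftInv_perm (hlaw N) τ) hβ hμ.top
    hlam' hl' (lipschitz_tdv L)
  have hlim : Tendsto (fun N => ∫ U, tdv L (pr β (lam N) U) ∂law N) atTop (𝓝 0) := by
    simpa using hu.add hD
  set B := (β / 2 * max R' (e + 1) + |L| + 1) ^ 2
  refine squeeze_zero' (Eventually.of_forall fun N => integral_nonneg fun U => sq_nonneg _) ?_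
    (by simpa using hlim.const_mul B)
  filter_upwards [eventually_gt_atTop 0, hlam'.2.1 1 one_pos, hlam'.2.2] with N hN h1 h2
  have i1 : Integrable (fun U => tdv L (pr β (lam N) U)) (law N) :=
    Integrable.of_bound ((lipschitz_tdv L).continuous.measurable.comp (measurable_pr _)).aestronglyMeasurable 1
      (ae_of_all _ fun U => by rw [Real.norm_eq_abs, abs_of_nonneg (tdv_mem L _).1]; exact (tdv_mem L _).2)
  rw [← integral_const_mul]
  refine integral_mono_of_nonneg (ae_of_all _ fun U => sq_nonneg _) (i1.const_mul B)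
    ((hgood N).mono fun U hU => ?_)
  have hb := abs_pr_le (β := β) hN hU (a := lam N) (C := max R' (e + 1)) fun i =>
    abs_le.2 ⟨by linarith [h2 i, le_max_left R' (e + 1)], (h1 i).trans (le_max_right _ _)⟩
  rw [abs_of_nonneg hβ] at hb
  set d := |pr β (lam N) U - L|
  set c := β / 2 * max R' (e + 1) + |L|
  have hd0 : 0 ≤ d := abs_nonneg _
  have hdc : d ≤ c := (abs_sub _ _).trans (add_le_add hb le_rfl)
  simp only
  rw [← sq_abs, tdv]
  rcases min_choice d 1 with h | h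
  · rw [h]
    calc d ^ 2 = d * d := pow_two d
      _ ≤ B * d := mul_le_mul_of_nonneg_right (by
          calc d ≤ c + 1 := by linarith
            _ ≤ B := le_self_pow₀ (show 1 ≤ c + 1 by linarith) two_ne_zero) hd0
  · rw [h, mul_one]
    exact pow_le_pow_left₀ hd0 (hdc.trans (le_add_of_nonneg_right zero_le_one)) 2

end Vale.Agent.P166.Free
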