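import Vale.Agent.P166.MP
import Vale.Agent.P166.Conc.Bud

/-!
Couplings made of marked Gaussian vectors: quadratic forms, powers, norm tightness.
-/

open MeasureTheory ProbabilityTheory Filter Topology Matrix Finset

namespace Vale.Agent.P166.Free

variable {N M : ℕ}

/-- Space of `M` marked vectors. -/
abbrev Pats (N M : ℕ) : Type := Fin M → (Fin N → ℝ) × ℝ

/-- Coupling with jump values `ξ`. -/
noncomputable def jm (ξ : ℝ → ℝ) (P : Pats N M) : Matrix (Fin N) (Fin N) ℝ :=
  fun i j => (∑ a, ξ (P a).2 * (P a).1 i * (P a).1 j) / N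

/-- Quadratic form. -/
def qf (A : Matrix (Fin N) (Fin N) ℝ) (v : Fin N → ℝ) : ℝ := v ⬝ᵥ A *ᵥ v

/-- The Gram matrix of the vectors is at most `K`. -/
def Gd (K : ℝ) (P : Pats N M) : Prop :=
  ∀ v : Fin N → ℝ, (∑ a, ((P a).1 ⬝ᵥ v) ^ 2) / N ≤ K * ∑ i, v i ^ 2

theorem jm_symm (ξ : ℝ → ℝ) (P : Pats N M) : (jm ξ P)ᵀ = jm ξ P := by
  ext i j
  simp only [Matrix.transpose_apply, jm]
  congr 1
  exact Finset.sum_congr rfl fun a _ => by ring

theorem jm_qf (ξ : ℝ → ℝ) (P : Pats N M) (v : Fin N → ℝ) :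
    qf (jm ξ P) v = (∑ a, ξ (P a).2 * ((P a).1 ⬝ᵥ v) ^ 2) / N := by
  simp only [qf, jm, Matrix.mulVec, dotProduct, Finset.mul_sum, Finset.sum_div, Finset.sum_mul,
    pow_two]
  conv_lhs =>
    enter [2, i]
    rw [Finset.sum_comm]
  rw [Finset.sum_comm]
  refine Finset.sum_congr rfl fun a _ => Finset.sum_congr rfl fun i _ => Finset.sum_congr rfl fun j _ => ?_
  ring

theorem abs_qf_le {ξ : ℝ → ℝ} {r K : ℝ} (hξ : ∀ x, |ξ x| ≤ r) {P : Pats N M} (h : Gd K P)
    (v : Fin N → ℝ) : |qf (jm ξ P) v| ≤ r * K * ∑ i, v i ^ 2 := by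
  have hr : 0 ≤ r := (abs_nonneg _).trans (hξ 0)
  rw [jm_qf, abs_div, Nat.abs_cast, mul_assoc]
  refine le_trans ?_ (mul_le_mul_of_nonneg_left (h v) hr)
  rw [← mul_div_assoc, Finset.mul_sum]
  gcongr
  refine (Finset.abs_sum_le_sum_abs _ _).trans (Finset.sum_le_sum fun a _ => ?_)
  rw [abs_mul, abs_of_nonneg (sq_nonneg ((P a).1 ⬝ᵥ v))]
  exact mul_le_mul_of_nonneg_right (hξ _) (sq_nonneg _)

theorem row_le {K : ℝ} (hK : 0 ≤ K) {P : Pats N M} (h : Gd K P) (a : Fin M) :
    ((P a).1 ⬝ᵥ (P a).1) / N ≤ K := by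
  set s := (P a).1 ⬝ᵥ (P a).1
  have e : ∑ i, (P a).1 i ^ 2 = s := by simp [s, dotProduct, pow_two]
  have h1 := h (P a).1
  rw [e] at h1
  have h2 : s ^ 2 / N ≤ (∑ b, ((P b).1 ⬝ᵥ (P a).1) ^ 2) / N :=
    div_le_div_of_nonneg_right
      (single_le_sum (f := fun b => ((P b).1 ⬝ᵥ (P a).1) ^ 2) (fun b _ => sq_nonneg _) (mem_univ a))
      (Nat.cast_nonneg _)
  rcases (show 0 ≤ s by rw [← e]; positivity).eq_or_lt with h0 | h0
  · rw [← h0, zero_div]; exact hK
  · have h3 : s * (s / N) ≤ s * K := by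
      calc s * (s / N) = s ^ 2 / N := by ring
        _ ≤ K * s := h2.trans h1
        _ = s * K := mul_comm _ _
    exact le_of_mul_le_mul_left h3 h0

/-- A spectral decomposition. -/
def Dec (A Q : Matrix (Fin N) (Fin N) ℝ) (x : Fin N → ℝ) : Prop :=
  Qᵀ * Q = 1 ∧ Q * Qᵀ = 1 ∧ A = Qᵀ * diagonal x * Q

theorem exists_dec {A : Matrix (Fin N) (Fin N) ℝ} (hA : Aᵀ = A) : ∃ Q x, Dec A Q x := by
  obtain ⟨Q, x, h1, h2, h3, -⟩ := sym_spectral A hA
  exact ⟨Q, x, h1, h2, h3⟩

variable {A Q : Matrix (Fin N) (Fin N) ℝ} {x : Fin N → ℝ}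

theorem Dec.pow_qf (h : Dec A Q x) (k : ℕ) (v : Fin N → ℝ) :
    qf (A ^ k) v = ∑ i, x i ^ k * (Q *ᵥ v) i ^ 2 := by
  rw [qf, h.2.2, conj_pow h.2.1 h.1, Matrix.diagonal_pow, ← Matrix.mulVec_mulVec, ← Matrix.mulVec_mulVec,
    Matrix.dotProduct_mulVec, Matrix.vecMul_transpose]
  simp only [dotProduct, Matrix.mulVec_diagonal, Pi.pow_apply]
  exact Finset.sum_congr rfl fun i _ => by ring

theorem Dec.qf_eq (h : Dec A Q x) (v : Fin N → ℝ) : qf A v = ∑ i, x i * (Q *ᵥ v) i ^ 2 := by
  simpa using h.pow_qf 1 v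

theorem Dec.trace (h : Dec A Q x) (k : ℕ) : (A ^ k).trace = ∑ i, x i ^ k := by
  rw [h.2.2, conj_pow h.2.1 h.1, Matrix.trace_mul_cycle, h.2.1, Matrix.one_mul, Matrix.diagonal_pow,
    Matrix.trace_diagonal]
  rfl

theorem Dec.norm_sq (h : Dec A Q x) (v : Fin N → ℝ) : ∑ i, (Q *ᵥ v) i ^ 2 = ∑ i, v i ^ 2 := by
  have e : (Q *ᵥ v) ⬝ᵥ (Q *ᵥ v) = v ⬝ᵥ v := by
    rw [Matrix.dotProduct_mulVec, ← Matrix.mulVec_transpose, Matrix.mulVec_mulVec, h.1, Matrix.one_mulVec]
  simpa [dotProduct, pow_two] using e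

/-- The eigenvector of `x j`. -/
theorem Dec.row (h : Dec A Q x) (j : Fin N) : ∑ i, Q j i ^ 2 = 1 ∧ qf A (fun i => Q j i) = x j := by
  have h1 : ∀ i, (Q *ᵥ fun k => Q j k) i = if i = j then 1 else 0 := fun i => by
    have := congrFun (congrFun h.2.1 i) j
    rw [Matrix.mul_apply, Matrix.one_apply] at this
    rw [← this]; rfl
  refine ⟨?_, by simp [h.qf_eq, h1]⟩
  have := congrFun (congrFun h.2.1 j) j
  simpa [Matrix.mul_apply, pow_two] using this

theorem Dec.abs_le (h : Dec A Q x) {C : ℝ} (hC : ∀ v, |qf A v| ≤ C * ∑ i, v i ^ 2) (j : Fin N) :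
    |x j| ≤ C := by
  obtain ⟨h1, h2⟩ := h.row j
  have := hC fun i => Q j i
  rwa [h1, h2, mul_one] at this

theorem pow_facts (hA : Aᵀ = A) {C : ℝ} (hC : ∀ v, |qf A v| ≤ C * ∑ i, v i ^ 2) (k : ℕ) :
    (∀ v, |qf (A ^ k) v| ≤ C ^ k * ∑ i, v i ^ 2) ∧ ∑ i, ∑ j, (A ^ k) i j ^ 2 ≤ N * C ^ (2 * k) := by
  obtain ⟨Q, x, h⟩ := exists_dec hA
  have hx : ∀ l j, |x j ^ l| ≤ C ^ l := fun l j => by
    rw [abs_pow]; exact pow_le_pow_left₀ (abs_nonneg _) (h.abs_le hC j) l
  refine ⟨fun v => ?_, ?_⟩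
  · rw [h.pow_qf, ← h.norm_sq v, Finset.mul_sum]
    refine (Finset.abs_sum_le_sum_abs _ _).trans (Finset.sum_le_sum fun i _ => ?_)
    rw [abs_mul, abs_of_nonneg (sq_nonneg ((Q *ᵥ v) i))]
    exact mul_le_mul_of_nonneg_right (hx k i) (sq_nonneg _)
  · have e : ∑ i, ∑ j, (A ^ k) i j ^ 2 = (A ^ (2 * k)).trace := by
      have hs : ∀ i j, (A ^ k) i j = (A ^ k) j i := fun i j => by
        conv_lhs => rw [← hA, ← Matrix.transpose_pow]
        rfl
      rw [two_mul, pow_add]
      simp only [Matrix.trace, Matrix.diag, Matrix.mul_apply, pow_two]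
      exact Finset.sum_congr rfl fun i _ => Finset.sum_congr rfl fun j _ => by rw [hs i j]
    rw [e, h.trace]
    exact (Finset.sum_le_sum fun i _ => (le_abs_self _).trans (hx (2 * k) i)).trans_eq (by simp)

theorem continuous_jm {ξ : ℝ → ℝ} (hξ : Continuous ξ) : Continuous fun P : Pats N M => jm ξ P :=
  continuous_pi fun i => continuous_pi fun j => by unfold jm; fun_prop

theorem measurable_pow_entry {ξ : ℝ → ℝ} (hξ : Measurable ξ) (k : ℕ) (i j : Fin N) :
    Measurable fun P : Pats N M => (jm ξ P ^ k) i j := by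
  induction k generalizing i j with
  | zero => simp only [pow_zero]; exact measurable_const
  | succ k ih =>
    simp only [pow_succ, Matrix.mul_apply]
    exact Finset.measurable_sum _ fun c _ => (ih i c).mul (by unfold jm; fun_prop)

theorem markov {Ω : Type*} [MeasurableSpace Ω] {P : Measure Ω} {f : Ω → ℝ} (hf0 : ∀ x, 0 ≤ f x)
    (hf : Integrable f P) {ε : ℝ} (hε : 0 < ε) : P.real {x | ε ≤ f x} ≤ (∫ x, f x ∂P) / ε := by
  rw [le_div_iff₀ hε, mul_comm]
  exact mul_meas_ge_le_integral_of_nonneg (ae_of_all _ hf0) hf ε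

/-- Variance of a Gaussian quadratic form. -/
theorem qf_var {A : Matrix (Fin N) (Fin N) ℝ} (hA : Aᵀ = A) :
    Integrable (fun g => (qf A g - A.trace) ^ 2) (gs N) ∧
      ∫ g, (qf A g - A.trace) ^ 2 ∂gs N = 2 * ∑ i, ∑ j, A i j ^ 2 := by
  set u : Fin N → (Fin N → ℝ) → ℝ := fun i g => ∑ j, g j * A i j
  set W : (Fin N → ℝ) → ℝ := fun g => (∑ i, g i * u i g) - A.trace
  have pu : ∀ i, PolyB (u i) := fun i => Tame.sum _ fun j _ => Tame.mul (polyB_coord j) (tame_const _)
  have pW : PolyB W := Tame.sub (Tame.sum _ fun i _ => Tame.mul (polyB_coord i) (pu i)) (tame_const _)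
  have hW : ∀ g, qf A g - A.trace = W g := fun g => by
    simp only [qf, W, u, dotProduct, Matrix.mulVec, mul_comm (g _) (A _ _)]
  have hsym : ∀ i j, A i j = A j i := fun i j => congrFun (congrFun hA j) i
  have du : ∀ (i j : Fin N) (g : Fin N → ℝ),
      HasDerivAt (fun x => u j (Function.update g i x)) (A j i) (g i) := fun i j g => by
    simp only [u]
    have h := HasDerivAt.fun_sum (u := (univ : Finset (Fin N))) fun k (_ : k ∈ univ) =>
      (show HasDerivAt (fun x => Function.update g i x k * A j k)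
        (if k = i then A j k else 0) (g i) by
        by_cases hk : k = i
        · subst hk; simpa using (hasDerivAt_id (g k)).mul_const (A j k)
        · simpa [hk] using hasDerivAt_const (g i) (g k * A j k))
    simpa using h
  have dW : ∀ (i : Fin N) (g : Fin N → ℝ),
      HasDerivAt (fun x => W (Function.update g i x)) (2 * u i g) (g i) := fun i g => by
    simp only [W]
    refine ((HasDerivAt.fun_sum (u := (univ : Finset (Fin N))) fun j (_ : j ∈ univ) =>
      (show HasDerivAt (fun x => Function.update g i x j) (if j = i then (1 : ℝ) else 0) (g i) by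
        by_cases hj : j = i
        · subst hj; simpa using hasDerivAt_id' (g j)
        · simpa [hj] using hasDerivAt_const (g i) (g j)).mul (du i j g)).sub_const _).congr_deriv ?_
    simp only [Function.update_eq_self, Finset.sum_add_distrib, ite_mul, one_mul, zero_mul,
      Finset.sum_ite_eq', mem_univ, if_true, u, two_mul]
    exact congrArg _ (Finset.sum_congr rfl fun j _ => by rw [hsym j i])
  have pgu : ∀ j i, PolyB fun g => g j * u i g := fun j i => Tame.mul (polyB_coord j) (pu i)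
  have puu : ∀ i, PolyB fun g => u i g * u i g := fun i => Tame.mul (pu i) (pu i)
  have i2 : Integrable (fun g => W g * W g) (gs N) := PolyB.integrable (Tame.mul pW pW)
  have hu2 : ∀ i, ∫ g, u i g * u i g ∂gs N = ∑ j, A i j ^ 2 := fun i => by
    have e : ∀ g, u i g * u i g = ∑ j, A i j * (g j * u i g) := fun g => by
      conv_lhs => rw [show u i g * u i g = (∑ j, g j * A i j) * u i g from rfl, Finset.sum_mul]
      exact Finset.sum_congr rfl fun j _ => by ring
    simp only [e]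
    rw [integral_finsetSum _ fun j _ => (pgu j i).integrable.const_mul _]
    refine Finset.sum_congr rfl fun j _ => ?_
    rw [integral_const_mul, ibp j (pu i).integrable (integrable_const (A i j))
      (pgu j i).integrable fun g => du j i g, integral_const, probReal_univ,
      one_smul, pow_two]
  have key : ∫ g, W g * W g ∂gs N = 2 * ∑ i, ∑ j, A i j ^ 2 := by
    have e : ∀ g, W g * W g = (∑ i, g i * (u i g * W g)) - A.trace * W g := fun g => by
      conv_lhs => rw [show W g * W g = ((∑ i, g i * u i g) - A.trace) * W g from rfl, sub_mul, Finset.sum_mul]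
      congr 1
      exact Finset.sum_congr rfl fun i _ => by ring
    have iu : ∀ i, Integrable (fun g => g i * (u i g * W g)) (gs N) :=
      fun i => PolyB.integrable (Tame.mul (polyB_coord i) (Tame.mul (pu i) pW))
    have hi : ∀ i, ∫ g, g i * (u i g * W g) ∂gs N = ∫ g, A i i * W g + 2 * (u i g * u i g) ∂gs N := fun i =>
      ibp i (PolyB.integrable (Tame.mul (pu i) pW))
        (PolyB.integrable (Tame.add (Tame.const_mul pW _) (Tame.const_mul (Tame.mul (pu i) (pu i)) _)))
        (iu i) fun g => ((du i i g).mul (dW i g)).congr_deriv (by simp only [Function.update_eq_self]; ring)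
    simp only [e]
    rw [integral_sub (integrable_finsetSum _ fun i _ => iu i) (pW.integrable.const_mul _),
      integral_finsetSum _ fun i _ => iu i]
    simp only [hi]
    rw [Finset.sum_congr rfl fun i _ => show ∫ g, A i i * W g + 2 * (u i g * u i g) ∂gs N
      = A i i * ∫ g, W g ∂gs N + 2 * ∑ j, A i j ^ 2 by
        rw [integral_add (pW.integrable.const_mul _) ((puu i).integrable.const_mul _),
          integral_const_mul, integral_const_mul, hu2], integral_const_mul]
    rw [Finset.sum_add_distrib, ← Finset.sum_mul, ← Finset.mul_sum, Matrix.trace]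
    simp [Matrix.diag]
  simp only [hW, pow_two] at key ⊢
  exact ⟨i2, key⟩

/-- The Gaussian vectors of a marked family, read as one vector. -/
noncomputable def flatten (G : Fin M → Fin N → ℝ) : Fin (M * N) → ℝ :=
  fun j => G (finProdFinEquiv.symm j).1 (finProdFinEquiv.symm j).2

variable {ν : Measure ℝ} [IsProbabilityMeasure ν]

theorem gd_tight {α : ℝ} {M : ℕ → ℕ} (hM : Tendsto (fun N => (M N : ℝ) / N) atTop (𝓝 α))
    {ε : ℝ} (hε : 0 < ε) :
    ∃ K : ℝ, 1 ≤ K ∧ ∀ᶠ N in atTop, (pats ν N (M N)).real {P | ¬ Gd K P} < ε := by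
  set c := √(max (α + 1) 0) + 2
  have hc : 0 < c := by positivity
  set t := max (2 * c / ε) 1
  have ht : 1 ≤ t := le_max_right _ _
  refine ⟨t ^ 2, one_le_pow₀ ht, ?_⟩
  filter_upwards [hM.eventually (gt_mem_nhds (lt_add_one α)), eventually_ge_atTop 16] with N hMN hN
  have hN' : (0 : ℝ) < N := by exact_mod_cast (show 0 < N by omega)
  rcases Nat.eq_zero_or_pos (M N) with h0 | h0
  · have : ∀ P : Pats N (M N), Gd (t ^ 2) P := fun P v => by
      have : IsEmpty (Fin (M N)) := by rw [h0]; infer_instance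
      simp only [Finset.univ_eq_empty, Finset.sum_empty, zero_div]
      positivity
    simp [this, hε]
  obtain ⟨Z, iZ, mZ, hZ, dZ⟩ := exists_top (M N) N h0 (by omega)
  set S : Set (Fin (M N) → Fin N → ℝ) := {G | t * √(N : ℝ) ≤ Z (flatten G)}
  have hflat : Measurable (flatten (M := M N) (N := N)) := by
    refine measurable_pi_lambda _ fun j => ?_
    simp only [flatten]; fun_prop
  have hS : MeasurableSet S := measurableSet_le measurable_const (mZ.comp hflat)
  have hsub : {P : Pats N (M N) | ¬ Gd (t ^ 2) P} ⊆ (fun P a => (P a).1) ⁻¹' S := fun P hP => by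
    by_contra hc'
    refine hP fun v => ?_
    simp only [S, Set.mem_preimage, Set.mem_ofPred_eq, not_le] at hc'
    rcases (Finset.sum_nonneg fun i _ => sq_nonneg (v i) : (0 : ℝ) ≤ ∑ i, v i ^ 2).eq_or_lt with hv | hv
    · have : v = 0 := by
        funext i
        have := (Finset.sum_eq_zero_iff_of_nonneg fun i _ => sq_nonneg (v i)).1 hv.symm i (mem_univ i)
        simpa using this
      simp [this]
    set s := √(∑ i, v i ^ 2)
    have hs : s ^ 2 = ∑ i, v i ^ 2 := Real.sq_sqrt hv.le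
    have hs0 : 0 < s := Real.sqrt_pos.2 hv
    have h := (dZ (flatten fun a => (P a).1)).2 (fun i => v i / s) (by
      simp only [div_pow, ← Finset.sum_div, hs]; exact div_self hv.ne')
    simp only [mat, flatten, Equiv.symm_apply_apply, mul_div_assoc', ← Finset.sum_div, div_pow, hs] at h
    rw [div_le_iff₀ hv] at h
    rw [div_le_iff₀ hN']
    refine h.trans ?_
    calc _ ≤ (t * √(N : ℝ)) ^ 2 * ∑ i, v i ^ 2 :=
          mul_le_mul_of_nonneg_right (pow_le_pow_left₀ (dZ _).1 hc'.le 2) hv.le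
      _ = _ := by rw [mul_pow, Real.sq_sqrt hN'.le]; ring
  have h1 : MeasurePreserving (fun (P : Pats N (M N)) a => (P a).1) (pats ν N (M N))
      (Measure.pi fun _ : Fin (M N) => gs N) :=
    measurePreserving_pi (fun _ : Fin (M N) => pl ν N) (fun _ : Fin (M N) => gs N)
      (f := fun _ (p : (Fin N → ℝ) × ℝ) => p.1) fun _ => measurePreserving_fst
  refine lt_of_le_of_lt (measureReal_mono hsub) ?_
  rw [measureReal_def, h1.measure_preimage hS.nullMeasurableSet,
    ← (measurePreserving_mat (M N) N).measure_preimage hS.nullMeasurableSet, ← measureReal_def]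
  have e : (fun (g : Fin (M N * N) → ℝ) a i => mat g a i) ⁻¹' S = {g | t * √(N : ℝ) ≤ Z g} := by
    ext g
    have : flatten (fun a i => mat g a i) = g := funext fun j => by
      simp only [flatten, mat, Prod.mk.eta, Equiv.apply_symm_apply]
    simp [S, this]
  rw [e]
  refine lt_of_le_of_lt (markov (fun g => (dZ g).1) iZ (by positivity)) ?_
  have hroot : √(M N : ℝ) + √(N : ℝ) + 4 ≤ c * √(N : ℝ) := by
    have h4 : (4 : ℝ) ≤ √(N : ℝ) := Real.le_sqrt_of_sq_le (by norm_num; exact_mod_cast hN)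
    rw [div_lt_iff₀ hN'] at hMN
    have : √(M N : ℝ) ≤ √(max (α + 1) 0) * √(N : ℝ) := by
      rw [← Real.sqrt_mul (le_max_right _ _)]
      exact Real.sqrt_le_sqrt (hMN.le.trans (mul_le_mul_of_nonneg_right (le_max_left _ _) hN'.le))
    simp only [c, add_mul]
    linarith
  rw [div_lt_iff₀ (by positivity)]
  refine lt_of_le_of_lt (hZ.trans hroot) ?_
  have : c < ε * t := by
    have : 2 * c ≤ ε * t := by
      have := le_max_left (2 * c / ε) 1
      rw [div_le_iff₀ hε] at this
      linarith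
    linarith
  calc c * √(N : ℝ) < ε * t * √(N : ℝ) := mul_lt_mul_of_pos_right this (Real.sqrt_pos.2 hN')
    _ = _ := by ring

end Vale.Agent.P166.Free
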