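import Vale.Agent.P166.Free.Moments
import Vale.Agent.P166.Deterministic

/-!
The limit law of the spectrum of the coupling and its upper end.
-/

open MeasureTheory ProbabilityTheory Filter Topology Matrix Finset

namespace Vale.Agent.P166.Free

theorem exists_notMem {Ω : Type*} [MeasurableSpace Ω] {P : Measure Ω} [IsProbabilityMeasure P]
    {s : Set Ω} (h : P.real s < 1) : ∃ x, x ∉ s := by
  by_contra hc
  push Not at hc
  rw [Set.eq_univ_of_forall hc, probReal_univ] at h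
  exact lt_irrefl _ h

/-- `μ` is the limit law with upper end `e`. -/
structure IsLaw (α : ℝ) (ν : Measure ℝ) (ξ : ℝ → ℝ) (μ : Measure ℝ) (C e : ℝ) : Prop where
  prob : IsProbabilityMeasure μ
  supp : ∀ᵐ x ∂μ, |x| ≤ C
  moments : ∀ k, ∫ x, x ^ k ∂μ = mom α ν ξ k
  le_top : ∀ᵐ x ∂μ, x ≤ e
  top : ∀ η, 0 < η → 0 < μ (Set.Ioi (e - η))

theorem IsLaw.integrable {α : ℝ} {ν : Measure ℝ} {ξ : ℝ → ℝ} {μ : Measure ℝ} {C e : ℝ}
    (h : IsLaw α ν ξ μ C e) {f : ℝ → ℝ} (hf : Continuous f) : Integrable f μ := by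
  have := h.prob
  obtain ⟨B, hB⟩ := (isCompact_Icc (a := -C) (b := C)).exists_bound_of_continuousOn hf.continuousOn
  exact Integrable.of_bound hf.aestronglyMeasurable B (h.supp.mono fun x hx => hB x (abs_le.1 hx))

variable {α r : ℝ} {ν : Measure ℝ} [IsProbabilityMeasure ν] {ξ : ℝ → ℝ}

theorem hM_floor (hα : 0 ≤ α) : Tendsto (fun N : ℕ => (⌊α * N⌋₊ : ℝ) / N) atTop (𝓝 α) :=
  (tendsto_nat_floor_mul_div_atTop hα).comp tendsto_natCast_atTop_atTop

/-- Finitely many trace moments are close to their limits. -/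
theorem moments_all (hα : 0 ≤ α) (hξ : ∀ x, |ξ x| ≤ r) (hξm : Measurable ξ) (j : ℕ) {η ε : ℝ}
    (hη : 0 < η) (hε : 0 < ε) :
    ∀ᶠ N : ℕ in atTop, (pats ν N ⌊α * N⌋₊).real
      (⋃ i ∈ range (j + 1), {P | η < |trm ξ i P - mom α ν ξ i|}) < ε := by
  have h : ∀ i ∈ range (j + 1), ∀ᶠ N : ℕ in atTop, (pats ν N ⌊α * N⌋₊).real
      {P | η < |trm ξ i P - mom α ν ξ i|} < ε / (j + 1) := fun i _ =>
    trm_tendsto hξ hξm i _ (hM_floor hα) η _ hη (by positivity)
  filter_upwards [(eventually_all_finset _).2 h] with N hN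
  refine lt_of_le_of_lt (measureReal_biUnion_finset_le _ _)
    (lt_of_lt_of_eq (Finset.sum_lt_sum_of_nonempty (by simp) hN) ?_)
  simp [field]

theorem exists_law (hα : 0 ≤ α) (hξ : ∀ x, |ξ x| ≤ r) (hξm : Measurable ξ) :
    ∃ μ C e, IsLaw α ν ξ μ C e ∧ |e| ≤ C := by
  have hr : 0 ≤ r := (abs_nonneg _).trans (hξ 0)
  obtain ⟨K, hK, hgd⟩ := gd_tight (ν := ν) (hM_floor hα) (show (0 : ℝ) < 1 / 3 by norm_num)
  set C := r * K
  have hC : 0 ≤ C := by positivity
  have hC' : -C ≤ C := by linarith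
  have hj : ∀ j : ℕ, ∃ P : ProbabilityMeasure (Set.Icc (-C) C), ∀ i ≤ j,
      |∫ x, (x : ℝ) ^ i ∂(P : Measure (Set.Icc (-C) C)) - mom α ν ξ i| ≤ 1 / ((j : ℝ) + 1) := fun j => by
    obtain ⟨N, hg, hm, hN⟩ := (hgd.and ((moments_all (ν := ν) hα hξ hξm j
      (η := 1 / ((j : ℝ) + 1)) (ε := 1 / 3) (by positivity) (by norm_num)).and
        (eventually_gt_atTop 0))).exists
    obtain ⟨P, hP⟩ := exists_notMem (P := pats ν N ⌊α * N⌋₊)
      (lt_of_le_of_lt (measureReal_union_le _ _) (show _ < (1 : ℝ) by linarith) :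
        (pats ν N ⌊α * N⌋₊).real ({P | ¬ Gd K P} ∪
          ⋃ i ∈ range (j + 1), {P | 1 / ((j : ℝ) + 1) < |trm ξ i P - mom α ν ξ i|}) < 1)
    simp only [Set.mem_union, Set.mem_ofPred_eq, Set.mem_iUnion, not_or, not_not, not_exists, not_lt] at hP
    obtain ⟨Q, x, hd⟩ := exists_dec (jm_symm ξ P)
    have hx : ∀ i, x i ∈ Set.Icc (-C) C := fun i => abs_le.1 (hd.abs_le (abs_qf_le hξ hP.1) i)
    obtain ⟨E, hE⟩ := exists_empirical (⟨C, hC', le_rfl⟩ : Set.Icc (-C) C)
      fun i : Fin N => (⟨x i, hx i⟩ : Set.Icc (-C) C)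
    refine ⟨E, fun i hi => ?_⟩
    rw [hE hN _ (by fun_prop)]
    simp only []
    rw [← hd.trace i]
    exact hP.2 i (mem_range.2 (by omega))
  choose P hP using hj
  obtain ⟨P₀, hP₀⟩ : ∃ P₀, MapClusterPt P₀ atTop P := exists_clusterPt_of_compactSpace (Filter.map P atTop)
  set μ := (P₀ : Measure (Set.Icc (-C) C)).map Subtype.val
  have hμp : IsProbabilityMeasure μ :=
    Measure.isProbabilityMeasure_map measurable_subtype_coe.aemeasurable
  have hμI : ∀ᵐ x ∂μ, x ∈ Set.Icc (-C) C :=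
    (ae_map_iff measurable_subtype_coe.aemeasurable measurableSet_Icc).2 (ae_of_all _ fun x => x.2)
  have hmom : ∀ k, ∫ x, x ^ k ∂μ = mom α ν ξ k := fun k => by
    rw [integral_map measurable_subtype_coe.aemeasurable (continuous_pow k).aestronglyMeasurable]
    set F : BoundedContinuousFunction (Set.Icc (-C) C) ℝ :=
      BoundedContinuousFunction.mkOfCompact ⟨fun x => (x : ℝ) ^ k, by fun_prop⟩
    have hc : Continuous fun Q : ProbabilityMeasure (Set.Icc (-C) C) =>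
        ∫ x, F x ∂(Q : Measure (Set.Icc (-C) C)) :=
      continuous_iff_continuousAt.2 fun Q => ProbabilityMeasure.tendsto_iff_forall_integral_tendsto.1 tendsto_id F
    have h2 : Tendsto ((fun Q : ProbabilityMeasure (Set.Icc (-C) C) =>
        ∫ x, F x ∂(Q : Measure (Set.Icc (-C) C))) ∘ P) atTop (𝓝 (mom α ν ξ k)) := by
      rw [tendsto_iff_norm_sub_tendsto_zero]
      refine squeeze_zero' (Eventually.of_forall fun j => norm_nonneg _) ?_
        (tendsto_one_div_add_atTop_nhds_zero_nat (𝕜 := ℝ))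
      filter_upwards [eventually_ge_atTop k] with j hj
      rw [Real.norm_eq_abs]
      exact hP j k hj
    exact eq_of_nhds_neBot ((hP₀.continuousAt_comp hc.continuousAt).clusterPt.mono h2)
  set S : Set ℝ := {t | μ (Set.Ioi t) = 0}
  have hCS : C ∈ S := by
    refine measure_mono_null (fun x (hx : C < x) => ?_) (ae_iff.1 hμI)
    exact fun h => absurd h.2 (not_le.2 hx)
  have hlow : ∀ t ∈ S, -C ≤ t := fun t ht => by
    by_contra h
    push Not at h
    have : ∀ᵐ x ∂μ, x ∈ Set.Ioi t := hμI.mono fun x hx => lt_of_lt_of_le h hx.1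
    have h1 : μ (Set.Ioi t) = μ Set.univ := measure_congr (eventuallyEq_univ.2 this)
    rw [ht, measure_univ] at h1
    exact zero_ne_one h1
  set e := sInf S
  have hne : S.Nonempty := ⟨C, hCS⟩
  have hbb : BddBelow S := ⟨-C, hlow⟩
  refine ⟨μ, C, e, ⟨hμp, hμI.mono fun x hx => abs_le.2 hx, hmom, ?_, fun η hη => ?_⟩,
    abs_le.2 ⟨le_csInf hne hlow, csInf_le hbb hCS⟩⟩
  · have h : ∀ n : ℕ, ∀ᵐ x ∂μ, x ≤ e + 1 / ((n : ℝ) + 1) := fun n => by
      obtain ⟨t, ht, hlt⟩ := exists_lt_of_csInf_lt hne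
        (show e < e + 1 / ((n : ℝ) + 1) from lt_add_of_pos_right e (by positivity))
      rw [ae_iff]
      exact measure_mono_null (fun x (hx : ¬ x ≤ _) => lt_trans hlt (not_le.1 hx)) ht
    filter_upwards [ae_all_iff.2 h] with x hx
    refine le_of_forall_pos_le_add fun δ hδ => ?_
    obtain ⟨n, hn⟩ := exists_nat_one_div_lt hδ
    linarith [hx n]
  · refine pos_iff_ne_zero.2 fun h => ?_
    linarith [csInf_le hbb (show e - η ∈ S from h)]

variable {μ : Measure ℝ} {C e : ℝ}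

/-- Linear statistics of the spectrum, on the event of bounded norm. -/
theorem spec_prob (hα : 0 ≤ α) (hξ : ∀ x, |ξ x| ≤ r) (hξm : Measurable ξ) (hμ : IsLaw α ν ξ μ C e)
    {f : ℝ → ℝ} (hf : Continuous f) (K : ℝ) {η ε : ℝ} (hη : 0 < η) (hε : 0 < ε) :
    ∀ᶠ N : ℕ in atTop, (pats ν N ⌊α * N⌋₊).real
      {P | Gd K P ∧ ∃ Q x, Dec (jm ξ P) Q x ∧ η < |(∑ i, f (x i)) / N - ∫ t, f t ∂μ|} < ε := by
  have := hμ.prob
  set D := max (r * K) C
  obtain ⟨p, hp⟩ := exists_polynomial_near_of_continuousOn (-D) D f hf.continuousOn (η / 4) (by positivity)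
  set η' := η / (4 * (∑ i ∈ range (p.natDegree + 1), |p.coeff i| + 1))
  filter_upwards [moments_all (ν := ν) hα hξ hξm p.natDegree (η := η') (by positivity) hε,
    eventually_gt_atTop 0] with N hN hN0
  refine lt_of_le_of_lt (measureReal_mono ?_ (measure_ne_top _ _)) hN
  rintro P ⟨hG, Q, x, hd, hbad⟩
  by_contra hc
  simp only [Set.mem_iUnion, Set.mem_ofPred_eq, not_exists, not_lt] at hc
  have hN' : (0 : ℝ) < N := by exact_mod_cast hN0
  have hip : Integrable (fun t => p.eval t) μ := hμ.integrable p.continuous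
  have h1 : |∫ t, f t ∂μ - ∫ t, p.eval t ∂μ| ≤ η / 4 := by
    rw [← integral_sub (hμ.integrable hf) hip, ← Real.norm_eq_abs]
    refine (norm_integral_le_of_norm_le_const (C := η / 4) (hμ.supp.mono fun t ht => ?_)).trans_eq (by simp)
    rw [Real.norm_eq_abs, abs_sub_comm]
    exact (hp t (abs_le.1 (ht.trans (le_max_right _ _)))).le
  have h2 : |(∑ i, f (x i)) / N - (∑ i, p.eval (x i)) / N| ≤ η / 4 := by
    rw [← sub_div, ← Finset.sum_sub_distrib, abs_div, abs_of_pos hN', div_le_iff₀ hN']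
    refine (Finset.abs_sum_le_sum_abs _ _).trans
      ((Finset.sum_le_sum (g := fun _ => η / 4) fun i _ => ?_).trans_eq (by simp [mul_comm]))
    rw [abs_sub_comm]
    exact (hp _ (abs_le.1 ((hd.abs_le (abs_qf_le hξ hG) i).trans (le_max_left _ _)))).le
  have h3 : |(∑ i, p.eval (x i)) / N - ∫ t, p.eval t ∂μ| ≤ η / 4 := by
    have e1 : (∑ i, p.eval (x i)) / N = ∑ l ∈ range (p.natDegree + 1), p.coeff l * trm ξ l P := by
      simp only [Polynomial.eval_eq_sum_range, trm, hd.trace, Finset.mul_sum, Finset.sum_div]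
      rw [Finset.sum_comm]
      simp [mul_div_assoc]
    have e2 : ∫ t, p.eval t ∂μ = ∑ l ∈ range (p.natDegree + 1), p.coeff l * mom α ν ξ l := by
      simp only [Polynomial.eval_eq_sum_range]
      rw [integral_finsetSum _ fun l _ => (hμ.integrable (continuous_pow l)).const_mul _]
      simp only [integral_const_mul, hμ.moments]
    rw [e1, e2, ← Finset.sum_sub_distrib]
    refine (Finset.abs_sum_le_sum_abs _ _).trans ((Finset.sum_le_sum (g := fun l => |p.coeff l| * η')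
      fun l hl => ?_).trans ?_)
    · rw [← mul_sub, abs_mul]; exact mul_le_mul_of_nonneg_left (hc l hl) (abs_nonneg _)
    · rw [← Finset.sum_mul]
      simp only [η']
      rw [← mul_div_assoc, div_le_iff₀ (by positivity)]
      nlinarith
  have := abs_le.1 h1; have := abs_le.1 h2; have := abs_le.1 h3
  exact absurd hbad (not_lt.2 (abs_le.2 ⟨by linarith, by linarith⟩))

/-- Some unit vector reaches the upper end up to `δ`. -/
theorem low_prob (hα : 0 ≤ α) (hξ : ∀ x, |ξ x| ≤ r) (hξm : Measurable ξ) (hμ : IsLaw α ν ξ μ C e)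
    (K : ℝ) {δ ε : ℝ} (hδ : 0 < δ) (hε : 0 < ε) :
    ∀ᶠ N : ℕ in atTop, (pats ν N ⌊α * N⌋₊).real
      {P | Gd K P ∧ ∀ v, ∑ i, v i ^ 2 = 1 → qf (jm ξ P) v < e - δ} < ε := by
  have := hμ.prob
  set ψ : ℝ → ℝ := fun x => 1 - ramp (e - δ) (δ / 2) x
  have hψc : Continuous ψ := continuous_const.sub (continuous_ramp _ _)
  have hψ0 : ∀ x, 0 ≤ ψ x := fun x => by simp only [ψ]; linarith [(ramp_mem (e - δ) (δ / 2) x).2]
  set c := ∫ x, ψ x ∂μ
  have hc : 0 < c := by
    have h1 : (Set.Ioi (e - δ / 2)).indicator (fun _ => (1 : ℝ)) ≤ ψ := fun x => by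
      refine Set.indicator_le' (fun x hx => ?_) (fun x _ => hψ0 x) x
      simp only [Set.mem_Ioi] at hx
      simp [ψ, ramp_upper (half_pos hδ) (show e - δ + δ / 2 ≤ x by linarith)]
    have h2 := integral_mono ((integrable_const (1 : ℝ)).indicator measurableSet_Ioi) (hμ.integrable hψc) h1
    rw [integral_indicator_const _ measurableSet_Ioi, smul_eq_mul, mul_one] at h2
    exact lt_of_lt_of_le (ENNReal.toReal_pos (hμ.top _ (half_pos hδ)).ne' (measure_ne_top _ _)) h2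
  filter_upwards [spec_prob hα hξ hξm hμ hψc K (half_pos hc) hε] with N hN
  refine lt_of_le_of_lt (measureReal_mono ?_) hN
  rintro P ⟨hG, hv⟩
  obtain ⟨Q, x, hd⟩ := exists_dec (jm_symm ξ P)
  refine ⟨hG, Q, x, hd, ?_⟩
  have : ∀ i, ψ (x i) = 0 := fun i => by
    have h := hv _ (hd.row i).1
    rw [(hd.row i).2] at h
    simp [ψ, ramp_lower (half_pos hδ) h.le]
  simp only [this, Finset.sum_const_zero, zero_div, zero_sub, abs_neg]
  rw [abs_of_pos hc]
  linarith

/-- Nearby jump values give nearby upper ends. -/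
theorem shift {ξ' : ℝ → ℝ} (hα : 0 ≤ α) (hξ : ∀ x, |ξ x| ≤ r) (hξm : Measurable ξ)
    (hξ' : ∀ x, |ξ' x| ≤ r) (hξm' : Measurable ξ') {h K : ℝ} (hh : ∀ x, |ξ x - ξ' x| ≤ h)
    (hgd : ∀ᶠ N : ℕ in atTop, (pats ν N ⌊α * N⌋₊).real {P | ¬ Gd K P} < 1 / 4)
    (hμ : IsLaw α ν ξ μ C e) {μ' : Measure ℝ} {C' e' : ℝ} (hμ' : IsLaw α ν ξ' μ' C' e') :
    e' ≤ e + h * K := by
  have := hμ.prob
  have := hμ'.prob
  by_contra hcon
  push Not at hcon
  set f : ℝ → ℝ := fun x => max (x - e) 0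
  set f' : ℝ → ℝ := fun x => max (x - h * K - e) 0
  have hfc : Continuous f := by fun_prop
  have hfc' : Continuous f' := by fun_prop
  have hz : ∫ x, f x ∂μ = 0 := integral_eq_zero_of_ae (hμ.le_top.mono fun x hx => by simp [f, hx])
  set δ := (e' - (e + h * K)) / 2
  have hδ : 0 < δ := by simp only [δ]; linarith
  set c := ∫ x, f' x ∂μ'
  have hc : 0 < c := by
    have h1 : (Set.Ioi (e' - δ)).indicator (fun _ => δ) ≤ f' := fun x => by
      refine Set.indicator_le' (g := f') (fun x hx => ?_) (fun x _ => le_max_right _ _) x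
      simp only [Set.mem_Ioi, δ] at hx
      exact le_max_of_le_left (by simp only [δ]; linarith)
    have h2 := integral_mono ((integrable_const δ).indicator measurableSet_Ioi) (hμ'.integrable hfc') h1
    rw [integral_indicator_const _ measurableSet_Ioi, smul_eq_mul] at h2
    exact lt_of_lt_of_le (mul_pos (ENNReal.toReal_pos (hμ'.top _ hδ).ne' (measure_ne_top _ _)) hδ) h2
  obtain ⟨N, g1, g2, g3, hN⟩ := (hgd.and ((spec_prob hα hξ hξm hμ hfc K (show 0 < c / 3 by positivity)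
    (show (0 : ℝ) < 1 / 4 by norm_num)).and ((spec_prob hα hξ' hξm' hμ' hfc' K (show 0 < c / 3 by positivity)
    (show (0 : ℝ) < 1 / 4 by norm_num)).and (eventually_gt_atTop 0)))).exists
  obtain ⟨P, hP⟩ := exists_notMem (P := pats ν N ⌊α * N⌋₊)
    (lt_of_le_of_lt ((measureReal_union_le _ _).trans (add_le_add (measureReal_union_le _ _) le_rfl))
      (show _ < (1 : ℝ) by linarith) : (pats ν N ⌊α * N⌋₊).real ({P | ¬ Gd K P}
        ∪ {P | Gd K P ∧ ∃ Q x, Dec (jm ξ P) Q x ∧ c / 3 < |(∑ i, f (x i)) / N - ∫ t, f t ∂μ|}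
        ∪ {P | Gd K P ∧ ∃ Q x, Dec (jm ξ' P) Q x ∧ c / 3 < |(∑ i, f' (x i)) / N - ∫ t, f' t ∂μ'|}) < 1)
  simp only [Set.mem_union, Set.mem_ofPred_eq, not_or, not_not, not_and, not_exists, not_lt] at hP
  obtain ⟨⟨hG, hA⟩, hB⟩ := hP
  obtain ⟨Q, x, hd⟩ := exists_dec (jm_symm ξ P)
  obtain ⟨Q', x', hd'⟩ := exists_dec (jm_symm ξ' P)
  have a1 := hA hG Q x hd
  have a2 := hB hG Q' x' hd'
  rw [hz, sub_zero] at a1
  have hq : ∀ v, ∑ i, v i ^ 2 = 1 → qf (jm ξ' P) v - h * K ≤ qf (jm ξ P) v := fun v hv => by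
    have hh0 : 0 ≤ h := (abs_nonneg _).trans (hh 0)
    have := hG v
    rw [hv, mul_one] at this
    have e2 : qf (jm ξ' P) v - qf (jm ξ P) v ≤ h * ((∑ a, ((P a).1 ⬝ᵥ v) ^ 2) / N) := by
      rw [jm_qf, jm_qf, ← sub_div, ← Finset.sum_sub_distrib, ← mul_div_assoc, Finset.mul_sum]
      gcongr with a
      rw [← sub_mul]
      exact mul_le_mul_of_nonneg_right (by linarith [(abs_le.1 (hh (P a).2)).1]) (sq_nonneg _)
    linarith [e2.trans (mul_le_mul_of_nonneg_left this hh0)]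
  have hsum : ∑ j, f' (x' j) ≤ ∑ i, f (x i) := by
    set R : Matrix (Fin N) (Fin N) ℝ := Q * Q'ᵀ with hRdef
    have hR : R * Rᵀ = 1 := by
      rw [hRdef, Matrix.transpose_mul, Matrix.transpose_transpose, ← Matrix.mul_assoc, Matrix.mul_assoc Q,
        hd'.1, Matrix.mul_one, hd.2.1]
    have hw : ∀ j i, (Q *ᵥ fun l => Q' j l) i = R i j := fun j i => rfl
    have hj : ∀ j, f' (x' j) ≤ ∑ i, R i j ^ 2 * f (x i) := fun j => by
      obtain ⟨hu, hu'⟩ := hd'.row j
      have hs : 0 ≤ ∑ i, R i j ^ 2 * f (x i) :=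
        Finset.sum_nonneg fun i _ => mul_nonneg (sq_nonneg _) (le_max_right _ _)
      refine max_le ?_ hs
      have h1 := hq _ hu
      rw [hu', hd.qf_eq] at h1
      have h2 : ∑ i, R i j ^ 2 = 1 := by simp only [← hw]; rw [hd.norm_sq]; exact hu
      have h3 : ∑ i, R i j ^ 2 * (x i - e) ≤ ∑ i, R i j ^ 2 * f (x i) :=
        Finset.sum_le_sum fun i _ => mul_le_mul_of_nonneg_left (le_max_left _ _) (sq_nonneg _)
      simp only [hw] at h1
      simp only [mul_sub, Finset.sum_sub_distrib, ← Finset.sum_mul, h2, one_mul] at h3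
      simp only [mul_comm (x _)] at h1
      linarith
    refine (Finset.sum_le_sum fun j _ => hj j).trans (le_of_eq ?_)
    rw [Finset.sum_comm]
    refine Finset.sum_congr rfl fun i _ => ?_
    rw [← Finset.sum_mul]
    have := congrFun (congrFun hR i) i
    simp only [Matrix.mul_apply, Matrix.transpose_apply, Matrix.one_apply_eq] at this
    simp [pow_two, this]
  have hN' : (0 : ℝ) < N := by exact_mod_cast hN
  have := div_le_div_of_nonneg_right hsum hN'.le
  linarith [(abs_le.1 a1).2, (abs_le.1 a2).1]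

end Vale.Agent.P166.Free
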