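import Vale.Agent.P166.Free.Gordon
import Vale.Agent.P166.Free.Law

/-!
An upper bound on the largest eigenvalue of the coupling through Gordon's comparison.
-/

open MeasureTheory ProbabilityTheory Filter Topology Matrix Finset

namespace Vale.Agent.P166.Free

section soft

variable {I K : Type*} [Fintype I] [Fintype K] [Nonempty I] [Nonempty K] {γ : ℝ}

theorem lse_mono {S : Type*} [Fintype S] [Nonempty S] {h h' : S → ℝ} {C : ℝ}
    (hh : ∀ s, γ * h s ≤ γ * h' s + C) : lse γ h ≤ lse γ h' + C := by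
  have hz : 0 < ∑ s, Real.exp (γ * h' s) :=
    Finset.sum_pos (fun s _ => Real.exp_pos _) Finset.univ_nonempty
  have hz' : 0 < ∑ s, Real.exp (γ * h s) :=
    Finset.sum_pos (fun s _ => Real.exp_pos _) Finset.univ_nonempty
  rw [lse, lse, ← Real.log_exp C, ← Real.log_mul hz.ne' (Real.exp_pos _).ne', Finset.sum_mul]
  refine Real.log_le_log hz' (Finset.sum_le_sum fun s _ => ?_)
  rw [← Real.exp_add]
  exact Real.exp_le_exp.2 (hh s)

/-- Soft minimax of a table, scaled by `γ`. -/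
noncomputable def sv (γ : ℝ) (H : I × K → ℝ) : ℝ := smm γ (fun _ => 1) (fun _ => 0) H

theorem smm_eq (ρ φ h : I × K → ℝ) : smm γ ρ φ h = sv γ fun c => ρ c * h c + φ c := by
  simp only [sv, smm]
  congr 1
  funext i
  simp only [inner']
  congr 2
  funext k
  simp [fld]

theorem sv_le (hγ : 0 ≤ γ) (H : I × K → ℝ) {C : ℝ} (h : ∀ i, ∃ k, H (i, k) ≤ C) :
    sv γ H ≤ γ * C + Real.log (Fintype.card I) := by
  refine (lse_bounds _).2 _ fun i => ?_
  obtain ⟨k, hk⟩ := h i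
  have h1 := (lse_bounds (γ := -γ) (fld (fun _ => (1 : ℝ)) (fun _ => (0 : ℝ)) H i)).1 k
  simp only [fld, one_mul, add_zero, inner'] at h1 ⊢
  linarith [mul_le_mul_of_nonneg_left hk hγ]

theorem le_sv (hγ : 0 ≤ γ) (H : I × K → ℝ) {C : ℝ} (i : I) (h : ∀ k, C ≤ H (i, k)) :
    γ * C - Real.log (Fintype.card K) ≤ sv γ H := by
  have h1 := (lse_bounds (γ := 1) (inner' γ (fun _ => (1 : ℝ)) (fun _ => (0 : ℝ)) H)).1 i
  have h2 := (lse_bounds (γ := -γ) (fld (fun _ => (1 : ℝ)) (fun _ => (0 : ℝ)) H i)).2 (-(γ * C))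
    (fun k => by simp only [fld, one_mul, add_zero]; linarith [mul_le_mul_of_nonneg_left (h k) hγ])
  simp only [inner', one_mul] at h1
  rw [sv, smm]
  linarith

theorem sv_shift (hγ : 0 ≤ γ) (H H' : I × K → ℝ) {c : ℝ} (h : ∀ p, H p - c ≤ H' p) :
    sv γ H - γ * c ≤ sv γ H' := by
  rw [sub_le_iff_le_add]
  refine lse_mono fun i => ?_
  have := lse_mono (γ := -γ) (C := γ * c) (h := fld (fun _ => (1 : ℝ)) (fun _ => (0 : ℝ)) H' i)
    (h' := fld (fun _ => (1 : ℝ)) (fun _ => (0 : ℝ)) H i) fun k => by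
      simp only [fld, one_mul, add_zero]; linarith [mul_le_mul_of_nonneg_left (h (i, k)) hγ]
  simp only [inner', one_mul]
  linarith

end soft

/-- Finite nets of compact sets of vectors, in the sup norm. -/
theorem exists_net {m : ℕ} {S : Set (Fin m → ℝ)} (hS : IsCompact S) {δ : ℝ} (hδ : 0 < δ) :
    ∃ T : Finset (Fin m → ℝ), (∀ u ∈ T, u ∈ S) ∧ ∀ x ∈ S, ∃ u ∈ T, ∀ a, |x a - u a| ≤ δ := by
  obtain ⟨t, hts, htf, hcov⟩ := finite_cover_balls_of_compact hS hδ
  refine ⟨htf.toFinset, fun u hu => hts (htf.mem_toFinset.1 hu), fun x hx => ?_⟩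
  obtain ⟨u, hu, hxu⟩ := Set.mem_iUnion₂.1 (hcov hx)
  refine ⟨u, htf.mem_toFinset.2 hu, fun a => ?_⟩
  rw [← Real.dist_eq]
  exact (dist_le_pi_dist x u a).trans (Metric.mem_ball.1 hxu).le

theorem isCompact_ball (m : ℕ) (R : ℝ) : IsCompact {x : Fin m → ℝ | ∑ a, x a ^ 2 ≤ R ^ 2} := by
  refine Metric.isCompact_of_isClosed_isBounded (isClosed_le (by fun_prop) continuous_const)
    ((Metric.isBounded_closedBall (x := (0 : Fin m → ℝ)) (r := |R|)).subset fun x hx => ?_)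
  rw [Metric.mem_closedBall, dist_zero_right, pi_norm_le_iff_of_nonneg (abs_nonneg R)]
  intro a
  rw [Real.norm_eq_abs, ← sq_le_sq]
  exact (single_le_sum (f := fun a => x a ^ 2) (fun a _ => sq_nonneg _) (mem_univ a)).trans hx

/-- Per coordinate, from above, positive jump. -/
theorem coord_pos_le {ξ t τ q h : ℝ} (hξ : 0 ≤ ξ) (hτ : 0 < τ) (ht : τ ≤ 1 - t * ξ) :
    t * (√ξ * q) ^ 2 + 2 * (√ξ * q) * h - q ^ 2 ≤ ξ * h ^ 2 / (1 - t * ξ) := by
  rw [le_div_iff₀ (lt_of_lt_of_le hτ ht), mul_pow, Real.sq_sqrt hξ]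
  nlinarith [sq_nonneg (√ξ * h - (1 - t * ξ) * q), Real.sq_sqrt hξ]

/-- Per coordinate, from above, near the minimiser. -/
theorem coord_neg_le {ξ t w d h : ℝ} (hξ : ξ < 0) (ht : 0 ≤ t)
    (hw : w = -√(-ξ) * h / (1 + t * -ξ) + d) :
    t * (√(-ξ) * w) ^ 2 + 2 * (√(-ξ) * w) * h + w ^ 2 = ξ * h ^ 2 / (1 - t * ξ) + (1 + t * -ξ) * d ^ 2 := by
  have hs := Real.sq_sqrt (show 0 ≤ -ξ by linarith)
  have hp : 0 < 1 + t * -ξ := by nlinarith
  rw [show 1 - t * ξ = 1 + t * -ξ by ring, hw]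
  set s := √(-ξ)
  have hξe : ξ = -s ^ 2 := by linarith
  rw [hξe] at hp ⊢
  simp only [neg_neg] at hp ⊢
  field_simp
  ring

variable {N M : ℕ} {ξ : ℝ → ℝ}

/-- Dual vector in coordinate `a`. -/
noncomputable def yv (ξ : ℝ → ℝ) (m : Fin M → ℝ) (q w : Fin M → ℝ) (a : Fin M) : ℝ :=
  √|ξ (m a)| * if 0 ≤ ξ (m a) then q a else w a

/-- Penalty. -/
noncomputable def pen (ξ : ℝ → ℝ) (m : Fin M → ℝ) (q w : Fin M → ℝ) : ℝ :=
  ∑ a, if 0 ≤ ξ (m a) then -q a ^ 2 else w a ^ 2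

/-- The saddle function. -/
noncomputable def sad (ξ : ℝ → ℝ) (v : Fin N → ℝ) (q w : Fin M → ℝ) (P : Pats N M) : ℝ :=
  2 / √(N : ℝ) * (∑ a, yv ξ (fun b => (P b).2) q w a * ((P a).1 ⬝ᵥ v)) + pen ξ (fun b => (P b).2) q w

theorem sad_eq (v : Fin N → ℝ) (q w : Fin M → ℝ) (P : Pats N M) :
    sad ξ v q w P = ∑ a, (2 * yv ξ (fun b => (P b).2) q w a * (((P a).1 ⬝ᵥ v) / √(N : ℝ))
      + if 0 ≤ ξ (P a).2 then -q a ^ 2 else w a ^ 2) := by
  rw [sad, pen, Finset.sum_add_distrib, Finset.mul_sum]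
  congr 1
  exact Finset.sum_congr rfl fun a _ => by ring

theorem sad_ge {v : Fin N → ℝ} {q : Fin M → ℝ} {δ : ℝ} {P : Pats N M} (w : Fin M → ℝ)
    (hq : ∀ a, 0 ≤ ξ (P a).2 → |√(ξ (P a).2) * (((P a).1 ⬝ᵥ v) / √(N : ℝ)) - q a| ≤ δ) :
    qf (jm ξ P) v - M * δ ^ 2 ≤ sad ξ v q w P := by
  rw [sad_eq, jm_qf, Finset.sum_div, show (M : ℝ) * δ ^ 2 = ∑ _a : Fin M, δ ^ 2 by simp,
    ← Finset.sum_sub_distrib]
  refine Finset.sum_le_sum fun a _ => ?_
  set z := ((P a).1 ⬝ᵥ v) / √(N : ℝ)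
  have hz : ξ (P a).2 * ((P a).1 ⬝ᵥ v) ^ 2 / N = ξ (P a).2 * z ^ 2 := by
    simp only [z, div_pow, Real.sq_sqrt (Nat.cast_nonneg N : (0 : ℝ) ≤ N)]; ring
  rw [hz]
  simp only [yv]
  split_ifs with h
  · rw [abs_of_nonneg h]
    have h1 := pow_le_pow_left₀ (abs_nonneg _) (hq a h) 2
    rw [sq_abs] at h1
    nlinarith [Real.sq_sqrt h]
  · push Not at h
    rw [abs_of_neg h]
    nlinarith [Real.sq_sqrt (show 0 ≤ -ξ (P a).2 by linarith),
      sq_nonneg (√(-ξ (P a).2) * z + w a), sq_nonneg δ]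

theorem sad_ge_crude {r δ : ℝ} (hξ : ∀ x, |ξ x| ≤ r) {q : Fin M → ℝ} (hq : ∀ a, |q a| ≤ δ)
    (v : Fin N → ℝ) (w : Fin M → ℝ) (P : Pats N M) :
    -(r * ((∑ a, ((P a).1 ⬝ᵥ v) ^ 2) / N)) - 2 * M * δ ^ 2 ≤ sad ξ v q w P := by
  rw [sad_eq, Finset.sum_div, Finset.mul_sum, show 2 * (M : ℝ) * δ ^ 2 = ∑ _a : Fin M, 2 * δ ^ 2 by
    simp; ring, ← Finset.sum_neg_distrib, ← Finset.sum_sub_distrib]
  refine Finset.sum_le_sum fun a _ => ?_
  set z := ((P a).1 ⬝ᵥ v) / √(N : ℝ)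
  have hz : ((P a).1 ⬝ᵥ v) ^ 2 / N = z ^ 2 := by
    simp only [z, div_pow, Real.sq_sqrt (Nat.cast_nonneg N : (0 : ℝ) ≤ N)]
  rw [hz]
  have hqq := pow_le_pow_left₀ (abs_nonneg _) (hq a) 2
  rw [sq_abs] at hqq
  have hr := abs_le.1 (hξ (P a).2)
  simp only [yv]
  split_ifs with h
  · rw [abs_of_nonneg h]
    nlinarith [Real.sq_sqrt h, sq_nonneg (√(ξ (P a).2) * z + q a), sq_nonneg z]
  · push Not at h
    rw [abs_of_neg h]
    nlinarith [Real.sq_sqrt (show 0 ≤ -ξ (P a).2 by linarith), sq_nonneg (√(-ξ (P a).2) * z + w a),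
      sq_nonneg z, sq_nonneg δ]

/-- Quadratic forms at nearby unit vectors. -/
theorem qf_close {r K : ℝ} (hξ : ∀ x, |ξ x| ≤ r) {P : Pats N M} (hG : Gd K P) {v u : Fin N → ℝ}
    (hv : ∑ i, v i ^ 2 = 1) {ε : ℝ} (hε : 0 < ε) :
    qf (jm ξ P) v ≤ qf (jm ξ P) u + r * (K * ε + (1 + 1 / ε) * (K * ∑ i, (u i - v i) ^ 2)) := by
  have hr : 0 ≤ r := (abs_nonneg _).trans (hξ 0)
  have h1 := hG v
  have h2 := hG fun i => u i - v i
  rw [hv, mul_one] at h1
  refine le_trans ?_ (add_le_add le_rfl (mul_le_mul_of_nonneg_left (add_le_add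
    (mul_le_mul_of_nonneg_right h1 hε.le) (mul_le_mul_of_nonneg_left h2 (by positivity))) hr))
  simp only [jm_qf, Finset.sum_div, Finset.sum_mul, Finset.mul_sum, ← Finset.sum_add_distrib]
  refine Finset.sum_le_sum fun a _ => ?_
  set x := (P a).1 ⬝ᵥ v
  set y := (P a).1 ⬝ᵥ fun i => u i - v i
  have e : (P a).1 ⬝ᵥ u = x + y := by
    simp only [x, y, dotProduct, ← Finset.sum_add_distrib]
    exact Finset.sum_congr rfl fun i _ => by ring
  rw [e, ← sub_nonneg]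
  have hb := abs_le.1 (hξ (P a).2)
  have key : ξ (P a).2 * (x ^ 2 - (x + y) ^ 2) ≤ r * (ε * x ^ 2 + (1 + 1 / ε) * y ^ 2) := by
    have h3 : |x ^ 2 - (x + y) ^ 2| ≤ ε * x ^ 2 + (1 + 1 / ε) * y ^ 2 := by
      have : 2 * |x * y| ≤ ε * x ^ 2 + 1 / ε * y ^ 2 := by
        rw [div_mul_eq_mul_div, one_mul, add_div' _ _ _ hε.ne', le_div_iff₀ hε, abs_mul]
        have h4 := sq_nonneg (ε * |x| - |y|)
        rw [sub_sq, mul_pow, sq_abs, sq_abs] at h4
        nlinarith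
      rw [abs_le]; constructor <;>
        nlinarith [le_abs_self (x * y), neg_abs_le (x * y), sq_nonneg y]
    calc ξ (P a).2 * (x ^ 2 - (x + y) ^ 2) ≤ |ξ (P a).2| * |x ^ 2 - (x + y) ^ 2| :=
          (le_abs_self _).trans (le_of_eq (abs_mul _ _))
      _ ≤ _ := mul_le_mul (hξ _) h3 (abs_nonneg _) hr
  have := div_le_div_of_nonneg_right key (Nat.cast_nonneg N : (0 : ℝ) ≤ N)
  linear_combination this

theorem abs_dev (M : ℕ) (hN : 0 < N) {η : ℝ} (hη : 0 < η) :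
    Integrable (fun h : Fin M → ℝ => |(∑ a, h a ^ 2) / N - (M : ℝ) / N|) (gs M) ∧
      ∫ h, |(∑ a, h a ^ 2) / N - (M : ℝ) / N| ∂gs M ≤ 2 * M / (N : ℝ) ^ 2 / η + η := by
  have hN' : (0 : ℝ) < N := by exact_mod_cast hN
  obtain ⟨i1, i2⟩ := qf_var (N := M) (A := 1) Matrix.transpose_one
  simp only [qf, Matrix.one_mulVec, Matrix.trace_one, Fintype.card_fin] at i1 i2
  have e : ∀ h : Fin M → ℝ, h ⬝ᵥ h = ∑ a, h a ^ 2 := fun h => by simp [dotProduct, pow_two]
  simp only [e] at i1 i2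
  rw [show ∑ i : Fin M, ∑ j : Fin M, (1 : Matrix (Fin M) (Fin M) ℝ) i j ^ 2 = M by
    simp [Matrix.one_apply]] at i2
  have hb : ∀ h : Fin M → ℝ, |(∑ a, h a ^ 2) / N - (M : ℝ) / N|
      ≤ (∑ a, h a ^ 2 - M) ^ 2 / (N : ℝ) ^ 2 / η + η := fun h => by
    rw [← sub_div, ← div_pow, div_add' _ _ _ hη.ne', le_div_iff₀ hη]
    nlinarith [sq_nonneg (|(∑ a, h a ^ 2 - (M : ℝ)) / N| - η), sq_abs ((∑ a, h a ^ 2 - (M : ℝ)) / (N : ℝ))]
  have iR := ((i1.div_const ((N : ℝ) ^ 2)).div_const η).fun_add (integrable_const η)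
  have iL : Integrable (fun h : Fin M → ℝ => |(∑ a, h a ^ 2) / N - (M : ℝ) / N|) (gs M) :=
    iR.mono' (Continuous.aestronglyMeasurable (continuous_abs.comp (Continuous.sub (by fun_prop) continuous_const))) (ae_of_all _ fun h => by rw [Real.norm_eq_abs, abs_abs]; exact hb h)
  refine ⟨iL, (integral_mono iL iR hb).trans (le_of_eq ?_)⟩
  rw [integral_add ((i1.div_const _).div_const _) (integrable_const _), integral_div, integral_div, i2,
    integral_const, probReal_univ, one_smul]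

theorem integral_comp {X Y : Type*} [MeasurableSpace X] [MeasurableSpace Y] {μ : Measure X} {ρ : Measure Y}
    {f : X → Y} (hf : MeasurePreserving f μ ρ) {F : Y → ℝ} (hF : Integrable F ρ) :
    ∫ x, F (f x) ∂μ = ∫ y, F y ∂ρ := by
  conv_rhs => rw [← hf.map_eq]
  rw [integral_map hf.measurable.aemeasurable (by rw [hf.map_eq]; exact hF.aestronglyMeasurable)]

section fixed

variable {TV : Finset (Fin N → ℝ)} {TQ : Finset (Fin M → ℝ)}

/-- The table of the saddle function on the nets. -/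
noncomputable def tab (ξ : ℝ → ℝ) (TV : Finset (Fin N → ℝ)) (TQ : Finset (Fin M → ℝ)) (P : Pats N M)
    (c : (TV × TQ) × TQ) : ℝ :=
  sad ξ c.1.1 c.1.2 c.2 P

/-- Marked vectors from a Gaussian vector and marks. -/
noncomputable def mkP (p : (Fin (M * N) → ℝ) × (Fin M → ℝ)) (a : Fin M) : (Fin N → ℝ) × ℝ :=
  (fun i => mat p.1 a i, p.2 a)

theorem mp_mkP (ν : Measure ℝ) [IsProbabilityMeasure ν] (N M : ℕ) :
    MeasurePreserving (mkP (M := M) (N := N))
      ((gs (M * N)).prod (Measure.pi fun _ : Fin M => ν)) (pats ν N M) := by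
  have h1 := (measurePreserving_mat M N).prod (MeasurePreserving.id (Measure.pi fun _ : Fin M => ν))
  have h2 := (measurePreserving_arrowProdEquivProdArrow (Fin N → ℝ) ℝ (Fin M) (fun _ => gs N)
    (fun _ => ν)).symm
  exact h2.comp h1

theorem term_good {x t τ r q k h δ : ℝ} (hx : |x| ≤ r) (ht : 0 < t) (hτ : 0 < τ) (htx : τ ≤ 1 - t * x)
    (hk : |(if 0 ≤ x then 0 else -√(-x) * h / (1 + t * -x)) - k| ≤ δ) :
    t * (√|x| * if 0 ≤ x then q else k) ^ 2 + 2 * (√|x| * if 0 ≤ x then q else k) * h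
      + (if 0 ≤ x then -q ^ 2 else k ^ 2) ≤ x * h ^ 2 / (1 - t * x) + (2 + t * r) * δ ^ 2 := by
  have hr : 0 ≤ r := (abs_nonneg _).trans hx
  have hd := pow_le_pow_left₀ (abs_nonneg _) hk 2
  rw [sq_abs] at hd
  split_ifs with hc
  · rw [abs_of_nonneg hc]
    have := coord_pos_le (q := q) (h := h) hc hτ htx
    nlinarith [sq_nonneg δ, mul_nonneg ht.le hr]
  · push Not at hc
    rw [abs_of_neg hc]
    rw [if_neg (not_le.2 hc)] at hd
    have hkw : k = -√(-x) * h / (1 + t * -x) + (k - -√(-x) * h / (1 + t * -x)) := by ring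
    rw [coord_neg_le hc ht.le hkw]
    refine add_le_add le_rfl (mul_le_mul ?_ (le_trans (le_of_eq (by ring)) hd) (sq_nonneg _) (by positivity))
    nlinarith [(neg_le_abs x).trans hx]

theorem term_bad {x t τ r q k h δ : ℝ} (hx : |x| ≤ r) (ht : 0 < t) (hτ : 0 < τ) (htx : τ ≤ 1 - t * x)
    (hk : |k| ≤ δ) :
    t * (√|x| * if 0 ≤ x then q else k) ^ 2 + 2 * (√|x| * if 0 ≤ x then q else k) * h
      + (if 0 ≤ x then -q ^ 2 else k ^ 2)
      ≤ x * h ^ 2 / (1 - t * x) + (2 + t * r) * δ ^ 2 + 2 * r * h ^ 2 := by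
  have hr : 0 ≤ r := (abs_nonneg _).trans hx
  have hd := pow_le_pow_left₀ (abs_nonneg _) hk 2
  rw [sq_abs] at hd
  split_ifs with hc
  · rw [abs_of_nonneg hc]
    have := coord_pos_le (q := q) (h := h) hc hτ htx
    nlinarith [sq_nonneg δ, mul_nonneg ht.le hr, sq_nonneg h]
  · push Not at hc
    rw [abs_of_neg hc]
    have hxr : -x ≤ r := (neg_le_abs _).trans hx
    have hs := Real.sq_sqrt (show 0 ≤ -x by linarith)
    have hneg : -(r * h ^ 2) ≤ x * h ^ 2 / (1 - t * x) := by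
      rw [le_div_iff₀ (lt_of_lt_of_le hτ htx)]
      nlinarith [mul_nonneg (sq_nonneg h) (mul_nonneg hr (mul_nonneg ht.le (show 0 ≤ -x by linarith))),
        mul_le_mul_of_nonneg_right hxr (sq_nonneg h)]
    have a1 : t * (√(-x) * k) ^ 2 ≤ t * r * δ ^ 2 := by
      rw [mul_pow, hs, mul_assoc t r]
      exact mul_le_mul_of_nonneg_left (mul_le_mul hxr hd (sq_nonneg _) hr) ht.le
    nlinarith [sq_nonneg (√(-x) * h - k), mul_le_mul_of_nonneg_right hxr (sq_nonneg h)]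

/-- The decoupled table is below the edge function. -/
theorem dual_le {r t τ R δ : ℝ} (hξ : ∀ x, |ξ x| ≤ r) (ht : 0 < t) (hτ : 0 < τ)
    (htξ : ∀ x, τ ≤ 1 - t * ξ x) (hN : 0 < N)
    (hcov : ∀ x : Fin M → ℝ, ∑ a, x a ^ 2 ≤ R ^ 2 → ∃ u ∈ TQ, ∀ a, |x a - u a| ≤ δ)
    (hR : r * ((M : ℝ) / N + 1) ≤ R ^ 2) (m q gu : Fin M → ℝ) (v gv : Fin N → ℝ)
    (hv : ∑ i, v i ^ 2 = 1) :
    ∃ k ∈ TQ, 2 * √(∑ a, yv ξ m q k a ^ 2) * ((∑ i, gv i * v i) / √(N : ℝ))
        + (∑ a, 2 * yv ξ m q k a * (gu a / √(N : ℝ))) + pen ξ m q k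
      ≤ (∑ i, gv i ^ 2) / N / t + (∑ a, ξ (m a) / (1 - t * ξ (m a)) * gu a ^ 2) / N
        + (2 + t * r) * M * δ ^ 2
        + 2 * r * ((M : ℝ) / N + 1) * |(∑ a, gu a ^ 2) / N - (M : ℝ) / N| := by
  have hr : 0 ≤ r := (abs_nonneg _).trans (hξ 0)
  have hN' : (0 : ℝ) < N := by exact_mod_cast hN
  have hsN : 0 < √(N : ℝ) := Real.sqrt_pos.2 hN'
  set h : Fin M → ℝ := fun a => gu a / √(N : ℝ) with hh
  set S := ∑ a, h a ^ 2
  have hS : S = (∑ a, gu a ^ 2) / N := by simp only [S, hh, div_pow, Real.sq_sqrt hN'.le, Finset.sum_div]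
  have he : ∀ a, ξ (m a) * h a ^ 2 / (1 - t * ξ (m a)) = ξ (m a) / (1 - t * ξ (m a)) * gu a ^ 2 / N := fun a => by
    simp only [hh, div_pow, Real.sq_sqrt hN'.le]; ring
  have hev : ∀ k : Fin M → ℝ, 2 * √(∑ a, yv ξ m q k a ^ 2) * ((∑ i, gv i * v i) / √(N : ℝ))
      ≤ (∑ i, gv i ^ 2) / N / t + ∑ a, t * yv ξ m q k a ^ 2 := fun k => by
    set G := √((∑ i, gv i ^ 2) / N)
    set Y := √(∑ a, yv ξ m q k a ^ 2)
    have hcs : (∑ i, gv i * v i) / √(N : ℝ) ≤ G := by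
      simp only [G]
      rw [Real.sqrt_div (Finset.sum_nonneg fun _ _ => sq_nonneg _)]
      refine div_le_div_of_nonneg_right ((Real.sum_mul_le_sqrt_mul_sqrt _ _ _).trans ?_) hsN.le
      rw [hv, Real.sqrt_one, mul_one]
    have ham : 2 * Y * G ≤ t * Y ^ 2 + G ^ 2 / t := by
      rw [add_div' _ _ _ ht.ne', le_div_iff₀ ht]
      nlinarith [sq_nonneg (t * Y - G)]
    have hG2 : G ^ 2 = (∑ i, gv i ^ 2) / N := Real.sq_sqrt (by positivity)
    have hY2 : Y ^ 2 = ∑ a, yv ξ m q k a ^ 2 := Real.sq_sqrt (by positivity)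
    rw [hG2, hY2, Finset.mul_sum] at ham
    have := mul_le_mul_of_nonneg_left hcs (show 0 ≤ 2 * Y by positivity)
    linarith
  set ws : Fin M → ℝ := fun a =>
    if 0 ≤ ξ (m a) then 0 else -√(-ξ (m a)) * h a / (1 + t * -ξ (m a)) with hws
  have hwsle : ∑ a, ws a ^ 2 ≤ r * S := by
    rw [Finset.mul_sum]
    refine Finset.sum_le_sum fun a _ => ?_
    simp only [hws]
    split_ifs with hc
    · simp; positivity
    · push Not at hc
      have h1 : 1 ≤ 1 + t * -ξ (m a) := by nlinarith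
      rw [div_pow, div_le_iff₀ (by positivity), mul_pow, neg_sq, Real.sq_sqrt (by linarith)]
      calc -ξ (m a) * h a ^ 2 ≤ r * h a ^ 2 * 1 := by
            rw [mul_one]; exact mul_le_mul_of_nonneg_right ((neg_le_abs _).trans (hξ _)) (sq_nonneg _)
        _ ≤ _ := mul_le_mul_of_nonneg_left (one_le_pow₀ h1) (by positivity)
  by_cases hb : r * S ≤ R ^ 2
  · obtain ⟨k, hk, hk'⟩ := hcov ws (hwsle.trans hb)
    refine ⟨k, hk, ?_⟩
    have hsum := Finset.sum_le_sum fun a (_ : a ∈ (univ : Finset (Fin M))) =>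
      term_good (q := q a) (h := h a) (hξ (m a)) ht hτ (htξ (m a)) (hk' a)
    simp only [he, Finset.sum_add_distrib, ← Finset.sum_div, Finset.sum_const, Finset.card_univ,
      Fintype.card_fin, nsmul_eq_mul] at hsum
    have hv' := hev k
    have hexc : 0 ≤ 2 * r * ((M : ℝ) / N + 1) * |(∑ a, gu a ^ 2) / N - (M : ℝ) / N| := by positivity
    simp only [pen, yv, hh] at hsum hv' ⊢
    linarith
  · push Not at hb
    obtain ⟨k, hk, hk'⟩ := hcov 0 (by simp [sq_nonneg])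
    refine ⟨k, hk, ?_⟩
    have hsum := Finset.sum_le_sum fun a (_ : a ∈ (univ : Finset (Fin M))) =>
      term_bad (q := q a) (h := h a) (hξ (m a)) ht hτ (htξ (m a))
        (show |k a| ≤ δ by simpa using hk' a)
    simp only [he, Finset.sum_add_distrib, ← Finset.sum_div, ← Finset.mul_sum, Finset.sum_const, Finset.card_univ,
      Fintype.card_fin, nsmul_eq_mul] at hsum
    have hv' := hev k
    have hexc : 2 * r * S ≤ 2 * r * ((M : ℝ) / N + 1) * |(∑ a, gu a ^ 2) / N - (M : ℝ) / N| := by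
      rw [← hS]
      have hρ : (0 : ℝ) ≤ (M : ℝ) / N := by positivity
      have hr0 : 0 < r := by
        rcases hr.eq_or_lt with h0 | h0
        · rw [← h0, zero_mul] at hb; nlinarith [sq_nonneg R]
        · exact h0
      have h3 : (M : ℝ) / N + 1 < S := by nlinarith [hR]
      rw [abs_of_nonneg (show 0 ≤ S - (M : ℝ) / N by linarith), mul_assoc (2 * r)]
      refine mul_le_mul_of_nonneg_left ?_ (by positivity)
      nlinarith
    simp only [pen, yv, hh, ← Finset.mul_sum, S] at hsum hv' hexc ⊢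
    linarith

/-- The decoupled bound, as a function of the Gaussian vectors. -/
noncomputable def ubf (ξ : ℝ → ℝ) (r t δ : ℝ) (m : Fin M → ℝ) (gv : Fin N → ℝ) (gu : Fin M → ℝ) : ℝ :=
  (∑ i, gv i ^ 2) / N / t + (∑ a, ξ (m a) / (1 - t * ξ (m a)) * gu a ^ 2) / N
    + (2 + t * r) * M * δ ^ 2 + 2 * r * ((M : ℝ) / N + 1) * |(∑ a, gu a ^ 2) / N - (M : ℝ) / N|

theorem ubf_integral {r t δ η : ℝ} (hr : 0 ≤ r) (hN : 0 < N) (hη : 0 < η) (m : Fin M → ℝ) {n : ℕ}
    {eV : Fin N → Fin n} {eU : Fin M → Fin n}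
    (mV : MeasurePreserving (fun (g : Fin n → ℝ) i => g (eV i)) (gs n) (gs N))
    (mU : MeasurePreserving (fun (g : Fin n → ℝ) a => g (eU a)) (gs n) (gs M)) :
    Integrable (fun g => ubf ξ r t δ m (fun i => g (eV i)) fun a => g (eU a)) (gs n) ∧
      ∫ g, ubf ξ r t δ m (fun i => g (eV i)) (fun a => g (eU a)) ∂gs n
        ≤ 1 / t + (∑ a, ξ (m a) / (1 - t * ξ (m a))) / N + (2 + t * r) * M * δ ^ 2
          + 2 * r * ((M : ℝ) / N + 1) * (2 * M / (N : ℝ) ^ 2 / η + η) := by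
  have hN' : (0 : ℝ) < N := by exact_mod_cast hN
  have q2 : ∀ a : Fin M, PolyB fun h : Fin M → ℝ => h a * h a := fun a => Tame.mul (polyB_coord a) (polyB_coord a)
  have iU : Integrable (fun h : Fin M → ℝ => (∑ a, ξ (m a) / (1 - t * ξ (m a)) * h a ^ 2) / (N : ℝ)) (gs M) := by
    refine (integrable_finsetSum _ fun a _ => ?_).div_const _
    simpa only [pow_two] using (q2 a).integrable.const_mul _
  have iV : Integrable (fun h : Fin N → ℝ => (∑ i, h i ^ 2) / (N : ℝ) / t) (gs N) := by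
    have h : PolyB fun h : Fin N → ℝ => ∑ i, h i * h i :=
      Tame.sum _ fun i _ => Tame.mul (polyB_coord i) (polyB_coord i)
    simpa only [pow_two] using (h.integrable.div_const (N : ℝ)).div_const t
  obtain ⟨iD, hDv⟩ := abs_dev (N := N) M hN hη
  have iE : Integrable (fun h : Fin M → ℝ =>
      2 * r * ((M : ℝ) / N + 1) * |(∑ a, h a ^ 2) / N - (M : ℝ) / N|) (gs M) := iD.const_mul _
  have jV : Integrable (fun g : Fin n → ℝ => (∑ i, g (eV i) ^ 2) / (N : ℝ) / t) (gs n) :=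
    mV.integrable_comp_of_integrable iV
  have jU : Integrable (fun g : Fin n → ℝ => (∑ a, ξ (m a) / (1 - t * ξ (m a)) * g (eU a) ^ 2) / (N : ℝ)) (gs n) :=
    mU.integrable_comp_of_integrable iU
  have jE : Integrable (fun g : Fin n → ℝ =>
      2 * r * ((M : ℝ) / N + 1) * |(∑ a, g (eU a) ^ 2) / N - (M : ℝ) / N|) (gs n) :=
    mU.integrable_comp_of_integrable iE
  refine ⟨((jV.fun_add jU).fun_add (integrable_const _)).fun_add jE, ?_⟩
  simp only [ubf]
  rw [integral_add ((jV.fun_add jU).fun_add (integrable_const _)) jE,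
    integral_add (jV.fun_add jU) (integrable_const _), integral_add jV jU, integral_const, probReal_univ,
    one_smul]
  refine add_le_add (add_le_add (add_le_add (le_of_eq ?_) (le_of_eq ?_)) le_rfl) ?_
  · refine (integral_comp mV iV).trans ?_
    rw [integral_div, integral_div, integral_sumsq, div_self hN'.ne']
  · refine (integral_comp mU iU).trans ?_
    rw [integral_div, integral_finsetSum _ fun a _ => by
      simpa only [pow_two] using (q2 a).integrable.const_mul (ξ (m a) / (1 - t * ξ (m a)))]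
    congr 1
    refine Finset.sum_congr rfl fun a _ => ?_
    have := sq_lin (Pi.single a 1 : Fin M → ℝ) (by simp [Pi.single_apply, ite_pow])
    rw [integral_const_mul, show ∫ h : Fin M → ℝ, h a ^ 2 ∂gs M = 1 by simpa [Pi.single_apply] using this,
      mul_one]
  · refine (integral_comp mU iE).trans_le ?_
    rw [integral_const_mul]
    exact mul_le_mul_of_nonneg_left hDv (by positivity)

/-- Gordon's comparison at fixed marks. -/
theorem fixed_le {r t τ R η : ℝ} (hξ : ∀ x, |ξ x| ≤ r) (ht : 0 < t) (hτ : 0 < τ)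
    (htξ : ∀ x, τ ≤ 1 - t * ξ x) (hN : 0 < N) (hM : 0 < M) (hη : 0 < η)
    [Nonempty TV] [Nonempty TQ] {δ : ℝ}
    (hTV : ∀ v ∈ TV, ∑ i, v i ^ 2 = 1) (hTQ : ∀ q ∈ TQ, ∑ a, q a ^ 2 ≤ R ^ 2)
    (hcov : ∀ x : Fin M → ℝ, ∑ a, x a ^ 2 ≤ R ^ 2 → ∃ u ∈ TQ, ∀ a, |x a - u a| ≤ δ)
    (hR : r * ((M : ℝ) / N + 1) ≤ R ^ 2) {γ : ℝ} (hγ : 0 < γ) (m : Fin M → ℝ)
    (hint : Integrable (fun g => sv γ (tab ξ TV TQ (mkP (g, m)))) (gs (M * N))) :
    ∫ g, sv γ (tab ξ TV TQ (mkP (g, m))) ∂gs (M * N)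
      ≤ γ * (1 / t + (∑ a, ξ (m a) / (1 - t * ξ (m a))) / N + 4 * |R| * √r / √(N : ℝ)
          + (2 + t * r) * M * δ ^ 2
          + 2 * r * ((M : ℝ) / N + 1) * (2 * M / (N : ℝ) ^ 2 / η + η))
        + Real.log (Fintype.card (TV × TQ)) := by
  classical
  have hr : 0 ≤ r := (abs_nonneg _).trans (hξ 0)
  have hN' : (0 : ℝ) < N := by exact_mod_cast hN
  have hsN : 0 < √(N : ℝ) := Real.sqrt_pos.2 hN'
  have h2 : √(2 : ℝ) ≠ 0 := Real.sqrt_ne_zero'.2 two_pos
  set y : (TV × TQ) × TQ → Fin M → ℝ := fun c => yv ξ m c.1.2 c.2 with hy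
  set Y : (TV × TQ) × TQ → ℝ := fun c => √(∑ a, y c a ^ 2) with hY
  set yh : (TV × TQ) × TQ → Fin M → ℝ := fun c a =>
    if Y c = 0 then (if a = ⟨0, hM⟩ then 1 else 0) else y c a / Y c with hyh
  have hY0 : ∀ c, 0 ≤ Y c := fun c => Real.sqrt_nonneg _
  have hYs : ∀ c, Y c ^ 2 = ∑ a, y c a ^ 2 := fun c => Real.sq_sqrt (Finset.sum_nonneg fun a _ => sq_nonneg _)
  have hyu : ∀ c, ∑ a, yh c a ^ 2 = 1 := fun c => by
    by_cases h : Y c = 0
    · simp [hyh, h, ite_pow]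
    · simp only [hyh, if_neg h, div_pow, ← Finset.sum_div]
      rw [← hYs c]
      exact div_self (pow_ne_zero 2 h)
  have hyy : ∀ c a, Y c * yh c a = y c a := fun c a => by
    by_cases h : Y c = 0
    · have h0 : ∑ a, y c a ^ 2 = 0 := by rw [← hYs, h]; ring
      have := (Finset.sum_eq_zero_iff_of_nonneg fun a _ => sq_nonneg (y c a)).1 h0 a (mem_univ a)
      rw [h, zero_mul, pow_eq_zero_iff two_ne_zero |>.1 this]
    · simp only [hyh, if_neg h]
      field_simp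
  have hYR : ∀ c, Y c ≤ 2 * |R| * √r := fun c => by
    refine Real.sqrt_le_iff.2 ⟨by positivity, ?_⟩
    rw [mul_pow, mul_pow, sq_abs, Real.sq_sqrt hr]
    refine (Finset.sum_le_sum (g := fun a => r * ((c.1.2 : Fin M → ℝ) a ^ 2 + (c.2 : Fin M → ℝ) a ^ 2))
      fun a _ => ?_).trans ?_
    · simp only [hy, yv, mul_pow, Real.sq_sqrt (abs_nonneg _)]
      refine mul_le_mul (hξ _) ?_ (sq_nonneg _) hr
      split_ifs <;> nlinarith [sq_nonneg ((c.1.2 : Fin M → ℝ) a), sq_nonneg ((c.2 : Fin M → ℝ) a)]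
    · rw [← Finset.mul_sum, Finset.sum_add_distrib]
      nlinarith [hTQ _ c.1.2.2, hTQ _ c.2.2, mul_le_mul_of_nonneg_left (add_le_add (hTQ _ c.1.2.2) (hTQ _ c.2.2)) hr,
        mul_nonneg hr (sq_nonneg R)]
  set ρ : (TV × TQ) × TQ → ℝ := fun c => 2 * √2 * Y c / √(N : ℝ)
  set φ : (TV × TQ) × TQ → ℝ := fun c => pen ξ m c.1.2 c.2
  set v1 : (TV × TQ) × TQ → Fin ((M * N + 1) + (M + N)) → ℝ := fun c => Fin.append (Fin.append (fun j =>
    yh c (finProdFinEquiv.symm j).1 * (c.1.1 : Fin N → ℝ) (finProdFinEquiv.symm j).2 / √2) fun _ => 1 / √2) 0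
  set v2 : (TV × TQ) × TQ → Fin ((M * N + 1) + (M + N)) → ℝ := fun c =>
    Fin.append 0 (Fin.append (fun a => yh c a / √2) fun i => (c.1.1 : Fin N → ℝ) i / √2)
  have hprod : ∀ (x z : Fin M → ℝ) (x' z' : Fin N → ℝ),
      ∑ j, (x (finProdFinEquiv.symm j).1 * x' (finProdFinEquiv.symm j).2 / √2)
        * (z (finProdFinEquiv.symm j).1 * z' (finProdFinEquiv.symm j).2 / √2)
        = (∑ a, x a * z a) * (∑ i, x' i * z' i) / 2 := fun x z x' z' => by
    rw [← finProdFinEquiv.sum_comp, Fintype.sum_prod_type, Finset.sum_mul_sum, Finset.sum_div]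
    refine Finset.sum_congr rfl fun a _ => ?_
    rw [Finset.sum_div]
    refine Finset.sum_congr rfl fun i _ => ?_
    simp only [Equiv.symm_apply_apply]
    field_simp
    rw [Real.sq_sqrt two_pos.le]; ring
  have hcov1 : ∀ p q, ∑ i, v1 p i * v1 q i
      = (∑ a, yh p a * yh q a) * (∑ i, (p.1.1 : Fin N → ℝ) i * (q.1.1 : Fin N → ℝ) i) / 2 + 1 / 2 := fun p q => by
    simp only [v1, Fin.sum_univ_add, Fin.append_left, Fin.append_right, hprod]
    simp
    field_simp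
    rw [Real.sq_sqrt two_pos.le]
  have hcov2 : ∀ p q, ∑ i, v2 p i * v2 q i
      = ((∑ a, yh p a * yh q a) + ∑ i, (p.1.1 : Fin N → ℝ) i * (q.1.1 : Fin N → ℝ) i) / 2 := fun p q => by
    simp only [v2, Fin.sum_univ_add, Fin.append_left, Fin.append_right, Pi.zero_apply, mul_zero,
      Finset.sum_const_zero, zero_add, add_div, Finset.sum_div]
    congr 1 <;> exact Finset.sum_congr rfl fun i _ => by
      field_simp
      rw [Real.sq_sqrt two_pos.le]; ring
  have hu : ∀ p : (TV × TQ) × TQ, ∑ i, (p.1.1 : Fin N → ℝ) i ^ 2 = 1 := fun p => hTV _ p.1.1.2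
  have hadm : Adm v1 v2 := by
    refine ⟨fun p => ?_, fun p => ?_, fun p q => ?_⟩
    · have := hcov1 p p
      simp only [← pow_two, hyu, hu] at this
      rw [this]; norm_num
    · have := hcov2 p p
      simp only [← pow_two, hyu, hu] at this
      rw [this]; norm_num
    · simp [v1, v2, Fin.sum_univ_add]
  have hD : ∀ p q, 0 ≤ dcov v1 v2 p q := fun p q => by
    have hx : ∑ a, yh p a * yh q a ≤ 1 := by
      refine (Real.sum_mul_le_sqrt_mul_sqrt _ _ _).trans ?_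
      rw [hyu p, hyu q, Real.sqrt_one, one_mul]
    have hz : ∑ i, (p.1.1 : Fin N → ℝ) i * (q.1.1 : Fin N → ℝ) i ≤ 1 := by
      refine (Real.sum_mul_le_sqrt_mul_sqrt _ _ _).trans ?_
      rw [hu p, hu q, Real.sqrt_one, one_mul]
    simp only [dcov, hcov1, hcov2]
    nlinarith [mul_nonneg (sub_nonneg.2 hx) (sub_nonneg.2 hz)]
  have hS : ∀ i k l, dcov v1 v2 (i, k) (i, l) = 0 := fun i k l => by
    have h : ∑ j, (i.1 : Fin N → ℝ) j * (i.1 : Fin N → ℝ) j = 1 := by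
      simpa [pow_two] using hTV _ i.1.2
    simp only [dcov, hcov1, hcov2, h]
    ring
  have hcmp := gordon (γ := γ) (ρ := ρ) (φ := φ) hadm hD hS fun c => by
    simp only [ρ]; have := hY0 c; positivity
  set cG : Fin (M * N) → Fin ((M * N + 1) + (M + N)) := fun j => Fin.castAdd (M + N) (Fin.castAdd 1 j)
  set cU : Fin M → Fin ((M * N + 1) + (M + N)) := fun a => Fin.natAdd (M * N + 1) (Fin.castAdd N a)
  set cV : Fin N → Fin ((M * N + 1) + (M + N)) := fun i => Fin.natAdd (M * N + 1) (Fin.natAdd M i)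
  have mG := P157.mp_comp (gaussianReal 0 1) (e := cG) ((Fin.castAdd_injective _ _).comp (Fin.castAdd_injective _ _))
  have mU := P157.mp_comp (gaussianReal 0 1) (e := cU) ((Fin.natAdd_injective _ _).comp (Fin.castAdd_injective _ _))
  have mV := P157.mp_comp (gaussianReal 0 1) (e := cV) ((Fin.natAdd_injective _ _).comp (Fin.natAdd_injective _ _))
  set ζ : Fin ((M * N + 1) + (M + N)) := Fin.castAdd (M + N) (Fin.natAdd (M * N) 0)
  set cc := 4 * |R| * √r / √(N : ℝ)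
  -- lower side
  have e1 : ∀ g : Fin ((M * N + 1) + (M + N)) → ℝ, sv γ (tab ξ TV TQ (mkP (fun j => g (cG j), m))) - γ * (cc * |g ζ|)
      ≤ smm γ ρ φ (fun c => ∑ i, g i * v1 c i) := fun g => by
    rw [smm_eq]
    refine sv_shift hγ.le _ _ fun c => ?_
    have e : ρ c * ∑ i, g i * v1 c i
        = 2 / √(N : ℝ) * (∑ a, y c a * ∑ i, g (cG (finProdFinEquiv (a, i))) * (c.1.1 : Fin N → ℝ) i)
          + 2 * Y c / √(N : ℝ) * g ζ := by
      simp only [v1, Fin.sum_univ_add, Fin.append_left, Fin.append_right, Pi.zero_apply, mul_zero,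
        Finset.sum_const_zero, add_zero, Fin.sum_univ_one, mul_add]
      congr 1
      · rw [← finProdFinEquiv.sum_comp, Fintype.sum_prod_type, Finset.mul_sum, Finset.mul_sum]
        refine Finset.sum_congr rfl fun a _ => ?_
        simp only [Finset.mul_sum, Equiv.symm_apply_apply, cG]
        refine Finset.sum_congr rfl fun i _ => ?_
        rw [← hyy c a]
        simp only [ρ]
        field_simp
      · simp only [ρ, ζ]
        field_simp
    rw [e]
    have h1 : -(cc * |g ζ|) ≤ 2 * Y c / √(N : ℝ) * g ζ := by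
      have hc2 : 2 * Y c / √(N : ℝ) ≤ cc := by
        simp only [cc]
        exact div_le_div_of_nonneg_right (by linarith [hYR c]) hsN.le
      have hc0 : 0 ≤ 2 * Y c / √(N : ℝ) := by have := hY0 c; positivity
      nlinarith [neg_abs_le (g ζ), mul_le_mul_of_nonneg_right hc2 (abs_nonneg (g ζ))]
    have e' : tab ξ TV TQ (mkP (fun j => g (cG j), m)) c
        = 2 / √(N : ℝ) * (∑ a, y c a * ∑ i, g (cG (finProdFinEquiv (a, i))) * (c.1.1 : Fin N → ℝ) i)
          + φ c := rfl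
    rw [e']
    linarith
  -- upper side
  set ub : (Fin ((M * N + 1) + (M + N)) → ℝ) → ℝ := fun g =>
    ubf ξ r t δ m (fun i => g (cV i)) fun a => g (cU a)
  have e2 : ∀ g : Fin ((M * N + 1) + (M + N)) → ℝ, smm γ ρ φ (fun c => ∑ i, g i * v2 c i)
      ≤ γ * ub g + Real.log (Fintype.card (TV × TQ)) := fun g => by
    rw [smm_eq]
    refine sv_le hγ.le _ fun i => ?_
    obtain ⟨k, hk, hkl⟩ := dual_le hξ ht hτ htξ hN hcov hR m (i.2 : Fin M → ℝ) (fun a => g (cU a))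
      (i.1 : Fin N → ℝ) (fun j => g (cV j)) (hTV _ i.1.2)
    refine ⟨⟨k, hk⟩, le_trans (le_of_eq ?_) hkl⟩
    have e : ρ (i, ⟨k, hk⟩) * ∑ j, g j * v2 (i, ⟨k, hk⟩) j
        = 2 * Y (i, ⟨k, hk⟩) * ((∑ j, g (cV j) * (i.1 : Fin N → ℝ) j) / √(N : ℝ))
          + ∑ a, 2 * y (i, ⟨k, hk⟩) a * (g (cU a) / √(N : ℝ)) := by
      simp only [v2, Fin.sum_univ_add, Fin.append_left, Fin.append_right, Pi.zero_apply, mul_zero,
        Finset.sum_const_zero, zero_add, mul_add, Finset.mul_sum, Finset.sum_div]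
      rw [add_comm]
      congr 1
      · exact Finset.sum_congr rfl fun j _ => by simp only [ρ, cV]; field_simp
      · refine Finset.sum_congr rfl fun a _ => ?_
        rw [← hyy (i, ⟨k, hk⟩) a]
        simp only [ρ, cU]
        field_simp
    rw [e]
  -- integrals
  have iT : ∀ u : ℝ, u ∈ Set.Icc (0 : ℝ) 1 → Integrable (fun g => smm γ ρ φ (hl v1 v2 u g)) (gs ((M * N + 1) + (M + N))) :=
    fun u hu => (tame_smm (γ := γ) (ρ := ρ) (φ := φ) (v1 := v1) (v2 := v2)).integrable hu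
  have iX : Integrable (fun g => smm γ ρ φ (fun c => ∑ i, g i * v1 c i)) (gs ((M * N + 1) + (M + N))) := by
    have := iT 1 (Set.right_mem_Icc.2 zero_le_one)
    unfold hl vec at this
    simpa using this
  have iY : Integrable (fun g => smm γ ρ φ (fun c => ∑ i, g i * v2 c i)) (gs ((M * N + 1) + (M + N))) := by
    have := iT 0 (Set.left_mem_Icc.2 zero_le_one)
    unfold hl vec at this
    simpa using this
  have iζ : Integrable (fun g : Fin ((M * N + 1) + (M + N)) → ℝ => |g ζ|) (gs ((M * N + 1) + (M + N))) := (polyB_coord ζ).integrable.abs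
  have zζ : ∫ g : Fin ((M * N + 1) + (M + N)) → ℝ, |g ζ| ∂gs ((M * N + 1) + (M + N)) ≤ 1 := by
    have h1 : PolyB fun g : Fin ((M * N + 1) + (M + N)) → ℝ => g ζ * g ζ := Tame.mul (polyB_coord ζ) (polyB_coord ζ)
    have hone : ∫ g : Fin ((M * N + 1) + (M + N)) → ℝ, g ζ * g ζ ∂gs ((M * N + 1) + (M + N)) = 1 := by
      have := sq_lin (Pi.single ζ 1 : Fin ((M * N + 1) + (M + N)) → ℝ) (by simp [Pi.single_apply, ite_pow])
      simpa [Pi.single_apply, pow_two] using this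
    refine (integral_mono iζ ((h1.integrable.fun_add (integrable_const 1)).div_const 2) fun g => ?_).trans ?_
    · simp only
      nlinarith [sq_nonneg (|g ζ| - 1), sq_abs (g ζ)]
    · rw [integral_div, integral_add h1.integrable (integrable_const _), hone, integral_const, probReal_univ,
        one_smul]
      norm_num
  have iG : Integrable (fun g : Fin ((M * N + 1) + (M + N)) → ℝ => sv γ (tab ξ TV TQ (mkP (fun j => g (cG j), m)))) (gs ((M * N + 1) + (M + N))) :=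
    mG.integrable_comp_of_integrable hint
  obtain ⟨jub, hub⟩ := ubf_integral (ξ := ξ) (r := r) (t := t) (δ := δ) hr hN hη m mV mU
  have h1 := integral_mono (iG.sub' ((iζ.const_mul cc).const_mul γ)) iX e1
  have h2 := integral_mono iY ((jub.const_mul γ).fun_add (integrable_const _)) e2
  rw [integral_sub iG ((iζ.const_mul cc).const_mul γ), integral_const_mul, integral_const_mul,
    show ∫ g : Fin ((M * N + 1) + (M + N)) → ℝ, sv γ (tab ξ TV TQ (mkP (fun j => g (cG j), m)))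
        ∂gs ((M * N + 1) + (M + N)) = ∫ g, sv γ (tab ξ TV TQ (mkP (g, m))) ∂gs (M * N)
      from integral_comp mG hint] at h1
  rw [integral_add (jub.const_mul γ) (integrable_const _), integral_const_mul, integral_const, probReal_univ,
    one_smul] at h2
  have hz : γ * (cc * ∫ g : Fin ((M * N + 1) + (M + N)) → ℝ, |g ζ| ∂gs ((M * N + 1) + (M + N))) ≤ γ * cc := by
    refine mul_le_mul_of_nonneg_left ?_ hγ.le
    calc cc * ∫ g : Fin ((M * N + 1) + (M + N)) → ℝ, |g ζ| ∂gs ((M * N + 1) + (M + N)) ≤ cc * 1 :=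
          mul_le_mul_of_nonneg_left zζ (by simp only [cc]; positivity)
      _ = cc := mul_one _
  have hm' := mul_le_mul_of_nonneg_left hub hγ.le
  linarith

end fixed

end Vale.Agent.P166.Free
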