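import Vale.Agent.P166.Edge

/-!
Gordon's comparison for soft minimax values of Gaussian fields.
-/

open MeasureTheory ProbabilityTheory Filter Topology Set

namespace Vale.Agent.P166.Free

variable {I K : Type*} [Fintype I] [Fintype K] [Nonempty I] [Nonempty K] {n : ℕ}

theorem hasDeriv_lse {S : Type*} [Fintype S] [Nonempty S] (γ : ℝ) {h : ℝ → S → ℝ} {h' : S → ℝ} {x : ℝ}
    (hh : ∀ s, HasDerivAt (fun r => h r s) (h' s) x) :
    HasDerivAt (fun r => lse γ (h r)) (γ * ∑ s, smax γ (h x) s * h' s) x := by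
  have hz : 0 < ∑ s, Real.exp (γ * h x s) :=
    Finset.sum_pos (fun s _ => Real.exp_pos _) Finset.univ_nonempty
  refine ((HasDerivAt.fun_sum (u := Finset.univ) fun s _ =>
    ((hh s).const_mul γ).exp).log hz.ne').congr_deriv ?_
  rw [Finset.sum_div, Finset.mul_sum]
  exact Finset.sum_congr rfl fun c _ => by simp only [smax]; ring

theorem hasDeriv_smax {S : Type*} [Fintype S] [Nonempty S] (γ : ℝ) {h : ℝ → S → ℝ} {h' : S → ℝ} {x : ℝ}
    (hh : ∀ s, HasDerivAt (fun r => h r s) (h' s) x) (a : S) :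
    HasDerivAt (fun r => smax γ (h r) a)
      (γ * smax γ (h x) a * (h' a - ∑ s, smax γ (h x) s * h' s)) x := by
  have hz : 0 < ∑ s, Real.exp (γ * h x s) :=
    Finset.sum_pos (fun s _ => Real.exp_pos _) Finset.univ_nonempty
  refine (((hh a).const_mul γ).exp.div (HasDerivAt.fun_sum (u := Finset.univ) fun s _ =>
    ((hh s).const_mul γ).exp) hz.ne').congr_deriv ?_
  simp only [smax, div_mul_eq_mul_div, ← Finset.sum_div]
  rw [show ∑ s, Real.exp (γ * h x s) * (γ * h' s) = γ * ∑ s, Real.exp (γ * h x s) * h' s by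
    rw [Finset.mul_sum]; exact Finset.sum_congr rfl fun s _ => by ring]
  field_simp

/-- Row `i` of the affine fields. -/
def fld (ρ φ : I × K → ℝ) (h : I × K → ℝ) (i : I) (k : K) : ℝ := ρ (i, k) * h (i, k) + φ (i, k)

/-- Inner soft minima, with a minus sign. -/
noncomputable def inner' (γ : ℝ) (ρ φ : I × K → ℝ) (h : I × K → ℝ) (i : I) : ℝ :=
  -lse (-γ) (fld ρ φ h i)

/-- Soft minimax, scaled by `γ`. -/
noncomputable def smm (γ : ℝ) (ρ φ : I × K → ℝ) (h : I × K → ℝ) : ℝ := lse 1 (inner' γ ρ φ h)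

/-- Minimax weights. -/
noncomputable def wt (γ : ℝ) (ρ φ : I × K → ℝ) (h : I × K → ℝ) (c : I × K) : ℝ :=
  smax 1 (inner' γ ρ φ h) c.1 * smax (-γ) (fld ρ φ h c.1) c.2

variable {γ : ℝ} {ρ φ : I × K → ℝ} {h : ℝ → I × K → ℝ} {h' : I × K → ℝ} {x : ℝ}

theorem wt_mem (h : I × K → ℝ) (c : I × K) : wt γ ρ φ h c ∈ Icc (0 : ℝ) 1 := by
  obtain ⟨a, b⟩ := smax_mem 1 (inner' γ ρ φ h) c.1
  obtain ⟨a', b'⟩ := smax_mem (-γ) (fld ρ φ h c.1) c.2
  exact ⟨mul_nonneg a a', mul_le_one₀ b a' b'⟩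

omit [Nonempty I] in
theorem hasDeriv_fld (hh : ∀ c, HasDerivAt (fun r => h r c) (h' c) x) (i : I) (k : K) :
    HasDerivAt (fun r => fld ρ φ (h r) i k) (ρ (i, k) * h' (i, k)) x :=
  ((hh (i, k)).const_mul _).add_const _

theorem hasDeriv_inner (hh : ∀ c, HasDerivAt (fun r => h r c) (h' c) x) (i : I) :
    HasDerivAt (fun r => inner' γ ρ φ (h r) i)
      (γ * ∑ k, smax (-γ) (fld ρ φ (h x) i) k * (ρ (i, k) * h' (i, k))) x :=
  ((hasDeriv_lse (-γ) fun k => hasDeriv_fld hh i k).fun_neg).congr_deriv (by ring)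

theorem hasDeriv_smm (hh : ∀ c, HasDerivAt (fun r => h r c) (h' c) x) :
    HasDerivAt (fun r => smm γ ρ φ (h r)) (∑ c, γ * ρ c * wt γ ρ φ (h x) c * h' c) x := by
  refine (hasDeriv_lse 1 fun i => hasDeriv_inner hh i).congr_deriv ?_
  rw [one_mul, Fintype.sum_prod_type]
  refine Finset.sum_congr rfl fun i _ => ?_
  simp only [wt, Finset.mul_sum]
  exact Finset.sum_congr rfl fun k _ => by ring

theorem hasDeriv_wt (hh : ∀ c, HasDerivAt (fun r => h r c) (h' c) x) (c : I × K) :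
    HasDerivAt (fun r => wt γ ρ φ (h r) c)
      (γ * wt γ ρ φ (h x) c * (2 * (∑ k, smax (-γ) (fld ρ φ (h x) c.1) k * (ρ (c.1, k) * h' (c.1, k)))
        - ρ c * h' c - ∑ d, wt γ ρ φ (h x) d * (ρ d * h' d))) x := by
  refine ((hasDeriv_smax 1 (fun i => hasDeriv_inner hh i) c.1).mul
    (hasDeriv_smax (-γ) (fun k => hasDeriv_fld hh c.1 k) c.2)).congr_deriv ?_
  simp only [Fintype.sum_prod_type, wt]
  rw [show ∑ i, ∑ k, smax 1 (inner' γ ρ φ (h x)) i * smax (-γ) (fld ρ φ (h x) i) k * (ρ (i, k) * h' (i, k))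
    = ∑ i, smax 1 (inner' γ ρ φ (h x)) i * ∑ k, smax (-γ) (fld ρ φ (h x) i) k * (ρ (i, k) * h' (i, k)) from
      Finset.sum_congr rfl fun i _ => by
        rw [Finset.mul_sum]; exact Finset.sum_congr rfl fun k _ => by ring]
  rw [show ∑ i, smax 1 (inner' γ ρ φ (h x)) i * (γ * ∑ k, smax (-γ) (fld ρ φ (h x) i) k * (ρ (i, k) * h' (i, k)))
    = γ * ∑ i, smax 1 (inner' γ ρ φ (h x)) i * ∑ k, smax (-γ) (fld ρ φ (h x) i) k * (ρ (i, k) * h' (i, k)) by
      rw [Finset.mul_sum]; exact Finset.sum_congr rfl fun k _ => by ring]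
  ring

theorem continuous_fld (i : I) : Continuous fun h => fld ρ φ h i := by unfold fld; fun_prop

theorem continuous_inner : Continuous (inner' γ ρ φ) :=
  continuous_pi fun i => ((continuous_lse (-γ)).comp (continuous_fld i)).neg

theorem continuous_smm : Continuous (smm γ ρ φ) := (continuous_lse 1).comp continuous_inner

theorem continuous_wt (c : I × K) : Continuous fun h => wt γ ρ φ h c :=
  ((continuous_smax 1 c.1).comp continuous_inner).mul ((continuous_smax (-γ) c.2).comp (continuous_fld c.1))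

theorem abs_lse_le {S : Type*} [Fintype S] [Nonempty S] (γ : ℝ) (h : S → ℝ) :
    |lse γ h| ≤ Real.log (Fintype.card S) + ∑ s, |γ * h s| := by
  have hs : ∀ a, |γ * h a| ≤ ∑ s, |γ * h s| := fun a =>
    Finset.single_le_sum (f := fun s => |γ * h s|) (fun s _ => abs_nonneg _) (Finset.mem_univ a)
  obtain ⟨h1, h2⟩ := lse_bounds (γ := γ) h
  obtain ⟨a⟩ := (inferInstance : Nonempty S)
  have := h2 _ fun s => (le_abs_self _).trans (hs s)
  have hlog : 0 ≤ Real.log (Fintype.card S) := Real.log_nonneg (by exact_mod_cast Fintype.card_pos)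
  rw [abs_le]
  exact ⟨by linarith [h1 a, neg_abs_le (γ * h a), hs a], by linarith⟩

theorem abs_smm_le (h : I × K → ℝ) :
    |smm γ ρ φ h| ≤ Real.log (Fintype.card I) + ∑ i : I, (Real.log (Fintype.card K)
      + ∑ k : K, |γ| * (|ρ (i, k)| * |h (i, k)| + |φ (i, k)|)) := by
  refine (abs_lse_le 1 _).trans (add_le_add le_rfl (Finset.sum_le_sum fun i _ => ?_))
  rw [one_mul, inner', abs_neg]
  refine (abs_lse_le (-γ) _).trans (add_le_add le_rfl (Finset.sum_le_sum fun k _ => ?_))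
  rw [fld, abs_mul, abs_neg]
  exact mul_le_mul_of_nonneg_left ((abs_add_le (ρ (i, k) * h (i, k)) (φ (i, k))).trans_eq (by rw [abs_mul])) (abs_nonneg γ)

variable {v1 v2 : I × K → Fin n → ℝ}

theorem tame_smm : Tame (Icc (0 : ℝ) 1) fun t g => smm γ ρ φ (hl v1 v2 t g) := by
  obtain ⟨-, C, l, hC, hb⟩ := (tame_const (T := Icc (0 : ℝ) 1) (n := n) (Real.log (Fintype.card I))).add
    (Tame.sum Finset.univ fun i (_ : i ∈ (Finset.univ : Finset I)) => (tame_const (Real.log (Fintype.card K))).add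
      ((Tame.sum Finset.univ fun k (_ : k ∈ (Finset.univ : Finset K)) =>
        ((((tame_hl (v1 := v1) (v2 := v2) (i, k)).mul (tame_hl (i, k))).add (tame_const 1)).const_mul |ρ (i, k)|).add
          (tame_const |φ (i, k)|)).const_mul |γ|))
  refine ⟨fun t ht => continuous_smm.comp (continuous_pi fun s => (tame_hl s).1 t ht), C, l, hC,
    fun t ht g => ((abs_smm_le _).trans ?_).trans ((le_abs_self _).trans (hb t ht g))⟩
  refine add_le_add le_rfl (Finset.sum_le_sum fun i _ => add_le_add le_rfl ?_)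
  rw [Finset.mul_sum]
  refine Finset.sum_le_sum fun k _ => mul_le_mul_of_nonneg_left ?_ (abs_nonneg γ)
  refine add_le_add (mul_le_mul_of_nonneg_left ?_ (abs_nonneg _)) le_rfl
  nlinarith [sq_nonneg (|hl v1 v2 t g (i, k)| - 1), sq_abs (hl v1 v2 t g (i, k))]

theorem tame_wt {T : Set ℝ} (hT : T ⊆ Icc (0 : ℝ) 1) (c : I × K) :
    Tame T fun t g => wt γ ρ φ (hl v1 v2 t g) c :=
  tame_bdd (fun t ht => (continuous_wt c).comp (continuous_pi fun s => (tame_hl s).1 t (hT ht)))
    zero_le_one fun t _ g => by rw [abs_of_nonneg (wt_mem _ c).1]; exact (wt_mem _ c).2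

/-- Gordon's comparison. -/
theorem gordon (hv : Adm v1 v2) (hD : ∀ a c, 0 ≤ dcov v1 v2 a c)
    (hS : ∀ i k l, dcov v1 v2 (i, k) (i, l) = 0) (hρ : ∀ c, 0 ≤ ρ c) :
    ∫ g, smm γ ρ φ (fun s => ∑ i, g i * v1 s i) ∂gs n
      ≤ ∫ g, smm γ ρ φ (fun s => ∑ i, g i * v2 s i) ∂gs n := by
  set Φ : ℝ → ℝ := fun t => ∫ g, smm γ ρ φ (hl v1 v2 t g) ∂gs n
  have hder : ∀ t ∈ Ioo (0 : ℝ) 1, ∃ x ≤ 0, HasDerivAt Φ x t := fun t ht => by
    have hsub : Icc (t / 2) ((1 + t) / 2) ⊆ Icc (0 : ℝ) 1 :=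
      Icc_subset_Icc (by linarith [ht.1]) (by linarith [ht.2])
    have ht1 : ({t} : Set ℝ) ⊆ Icc 0 1 := singleton_subset_iff.2 (Ioo_subset_Icc_self ht)
    set F : I × K → (Fin n → ℝ) → ℝ := fun c g => γ * ρ c * wt γ ρ φ (hl v1 v2 t g) c with hFdef
    set F' : I × K → Fin n → (Fin n → ℝ) → ℝ := fun c i g => γ * ρ c * (γ * wt γ ρ φ (hl v1 v2 t g) c *
      (2 * (∑ k, smax (-γ) (fld ρ φ (hl v1 v2 t g) c.1) k * (ρ (c.1, k) * vec v1 v2 t (c.1, k) i))
        - ρ c * vec v1 v2 t c i - ∑ d, wt γ ρ φ (hl v1 v2 t g) d * (ρ d * vec v1 v2 t d i))) with hF'def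
    refine ⟨_, ?_, deriv_under ht tame_smm
      (F' := fun r g => ∑ c, γ * ρ c * wt γ ρ φ (hl v1 v2 r g) c * dhl v1 v2 r g c)
      (Tame.sum _ fun c _ => ((tame_wt hsub c).const_mul (γ * ρ c)).mul
        (tame_dhl (by linarith [ht.1]) (by linarith [ht.2]) c))
      fun r hr g => hasDeriv_smm fun c => hasDeriv_hl
        ⟨by linarith [hr.1, ht.1], by linarith [hr.2, ht.2]⟩ g c⟩
    rw [ibp_fields (F := F) (F' := F') (fun c => ?_) (fun c i => ?_) fun c i g => ?_]
    · refine integral_nonpos fun g => ?_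
      set p := wt γ ρ φ (hl v1 v2 t g)
      have e : ∀ c, ∑ i, dvec v1 v2 t c i * F' c i g
          = -(γ ^ 2 * (ρ c * p c) * ∑ d, p d * ρ d * (dcov v1 v2 c d / 2)) := fun c => by
        have h1 : ∑ i, dvec v1 v2 t c i
            * (∑ k, smax (-γ) (fld ρ φ (hl v1 v2 t g) c.1) k * (ρ (c.1, k) * vec v1 v2 t (c.1, k) i)) = 0 := by
          simp only [Finset.mul_sum]
          rw [Finset.sum_comm]
          refine Finset.sum_eq_zero fun k _ => ?_
          have h0 := sum_vec_dvec hv ht c (c.1, k)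
          rw [show dcov v1 v2 c (c.1, k) = 0 from hS c.1 c.2 k, zero_div] at h0
          calc _ = smax (-γ) (fld ρ φ (hl v1 v2 t g) c.1) k * ρ (c.1, k)
              * ∑ i, dvec v1 v2 t c i * vec v1 v2 t (c.1, k) i := by
                rw [Finset.mul_sum]; exact Finset.sum_congr rfl fun i _ => by ring
            _ = 0 := by rw [h0, mul_zero]
        have h2 := sum_vec_dvec hv ht c c
        rw [dcov_diag hv, zero_div] at h2
        have h3 := contract_vec hv ht c fun d => p d * ρ d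
        rw [← h3]
        calc _ = γ ^ 2 * (ρ c * p c) * (2 * ∑ i, dvec v1 v2 t c i
                * (∑ k, smax (-γ) (fld ρ φ (hl v1 v2 t g) c.1) k * (ρ (c.1, k) * vec v1 v2 t (c.1, k) i))
              - ρ c * ∑ i, dvec v1 v2 t c i * vec v1 v2 t c i
              - ∑ i, dvec v1 v2 t c i * ∑ d, p d * ρ d * vec v1 v2 t d i) := by
              rw [Finset.mul_sum, Finset.mul_sum, ← Finset.sum_sub_distrib, ← Finset.sum_sub_distrib,
                Finset.mul_sum]
              refine Finset.sum_congr rfl fun i _ => ?_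
              simp only [hF'def, mul_assoc]
              ring
          _ = _ := by rw [h1, h2]; ring
      simp only [e, Pi.zero_apply]
      refine Finset.sum_nonpos fun c _ => neg_nonpos.2 (mul_nonneg
        (mul_nonneg (sq_nonneg γ) (mul_nonneg (hρ c) (wt_mem _ c).1))
        (Finset.sum_nonneg fun d _ => mul_nonneg (mul_nonneg (wt_mem _ d).1 (hρ d)) (by linarith [hD c d])))
    · obtain ⟨h1, C, l, hC, hb⟩ := (tame_wt (γ := γ) (ρ := ρ) (φ := φ) (v1 := v1) (v2 := v2) ht1 c).const_mul (γ * ρ c)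
      exact ⟨fun _ _ => h1 t rfl, C, l, hC, fun _ _ g => hb t rfl g⟩
    · have hsm : ∀ k, Tame ({t} : Set ℝ) fun s g => smax (-γ) (fld ρ φ (hl v1 v2 s g) c.1) k := fun k =>
        tame_bdd (fun s hs => ((continuous_smax (-γ) k).comp (continuous_fld c.1)).comp
          (continuous_pi fun d => (tame_hl d).1 s (ht1 hs))) zero_le_one fun s _ g => by
            rw [abs_of_nonneg (smax_mem (-γ) _ k).1]; exact (smax_mem (-γ) _ k).2
      obtain ⟨h1, C, l, hC, hb⟩ := (((tame_wt (γ := γ) (ρ := ρ) (φ := φ) (v1 := v1) (v2 := v2) ht1 c).const_mul γ).mul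
        ((((Tame.sum Finset.univ fun k _ => (hsm k).mul (tame_const (ρ (c.1, k) * vec v1 v2 t (c.1, k) i))).const_mul 2).sub
          (tame_const (ρ c * vec v1 v2 t c i))).sub (Tame.sum Finset.univ fun d _ =>
          (tame_wt (γ := γ) (ρ := ρ) (φ := φ) (v1 := v1) (v2 := v2) ht1 d).mul (tame_const (ρ d * vec v1 v2 t d i))))).const_mul (γ * ρ c)
      exact ⟨fun _ _ => h1 t rfl, C, l, hC, fun _ _ g => hb t rfl g⟩
    · have h := (hasDeriv_wt (γ := γ) (ρ := ρ) (φ := φ)
        (fun d => hasDeriv_hl_update (v1 := v1) (v2 := v2) t g i (g i) d) c).const_mul (γ * ρ c)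
      simp only [Function.update_eq_self] at h
      exact h
  have hcont : ContinuousOn Φ (Icc (0 : ℝ) 1) := by
    obtain ⟨hc, C, k, -, hb⟩ := tame_smm (γ := γ) (ρ := ρ) (φ := φ) (v1 := v1) (v2 := v2)
    exact continuousOn_of_dominated (fun t ht => (hc t ht).aestronglyMeasurable)
      (fun t ht => ae_of_all _ fun g => by simpa [Real.norm_eq_abs] using hb t ht g)
      ((integrable_env_pow k).const_mul C)
      (ae_of_all _ fun g => (continuous_smm.comp (continuous_pi fun s => by unfold hl vec; fun_prop)).continuousOn)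
  have h := antitoneOn_of_deriv_nonpos (convex_Icc 0 1) hcont
    (by
      intro t ht
      rw [interior_Icc] at ht
      obtain ⟨x, -, hx⟩ := hder t ht
      exact hx.differentiableAt.differentiableWithinAt)
    (by
      intro t ht
      rw [interior_Icc] at ht
      obtain ⟨x, hx0, hx⟩ := hder t ht
      rw [hx.deriv]; exact hx0)
    (left_mem_Icc.2 zero_le_one) (right_mem_Icc.2 zero_le_one) zero_le_one
  simp only [Φ] at h
  unfold hl vec at h
  simpa using h

end Vale.Agent.P166.Free
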