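import Vale.Agent.P166.Free.Basic

/-!
Moments of the coupling by removing one vector at a time.
-/

open MeasureTheory ProbabilityTheory Filter Topology Matrix Finset

namespace Vale.Agent.P166.Free

mutual
/-- Limiting moments. -/
noncomputable def mom (α : ℝ) (ν : Measure ℝ) (ξ : ℝ → ℝ) : ℕ → ℝ
  | 0 => 1
  | k + 1 => α * ∫ x, ξ x * tk α ν ξ k (ξ x) ∂ν
termination_by k => 2 * k
/-- Limiting overlap of a vector with the powers of the coupling, as a function of its jump. -/
noncomputable def tk (α : ℝ) (ν : Measure ℝ) (ξ : ℝ → ℝ) (k : ℕ) (y : ℝ) : ℝ :=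
  mom α ν ξ k + y * ∑ i : Fin k, mom α ν ξ i * tk α ν ξ (k - 1 - i) y
termination_by 2 * k + 1
decreasing_by all_goals omega
end

variable {α : ℝ} {ν : Measure ℝ} {ξ : ℝ → ℝ}

theorem mom_zero : mom α ν ξ 0 = 1 := by rw [mom]

theorem mom_succ (k : ℕ) : mom α ν ξ (k + 1) = α * ∫ x, ξ x * tk α ν ξ k (ξ x) ∂ν := by rw [mom]

theorem tk_eq (k : ℕ) (y : ℝ) :
    tk α ν ξ k y = mom α ν ξ k + y * ∑ i ∈ range k, mom α ν ξ i * tk α ν ξ (k - 1 - i) y := by
  rw [tk, Finset.sum_range]

theorem continuous_tk (k : ℕ) : Continuous (tk α ν ξ k) := by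
  induction k using Nat.strong_induction_on with
  | _ k ih =>
    simp only [funext fun y => tk_eq (α := α) (ν := ν) (ξ := ξ) k y]
    exact continuous_const.add (continuous_id.mul (continuous_finsetSum _ fun i hi =>
      continuous_const.mul (ih _ (by have := mem_range.1 hi; omega))))

theorem tk_bound {r : ℝ} (hr : 0 ≤ r) (k : ℕ) : ∃ B, 0 ≤ B ∧ ∀ y, |y| ≤ r → |tk α ν ξ k y| ≤ B := by
  obtain ⟨B, hB⟩ := (isCompact_Icc (a := -r) (b := r)).exists_bound_of_continuousOn
    (continuous_tk (α := α) (ν := ν) (ξ := ξ) k).continuousOn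
  exact ⟨max B 0, le_max_right _ _, fun y hy =>
    (le_of_eq_of_le (Real.norm_eq_abs _).symm (hB y (abs_le.1 hy))).trans (le_max_left _ _)⟩

/-- Stability of the recursion. -/
theorem loo_bound {r : ℝ} (hr : 0 ≤ r) (B : ℕ → ℝ) (hB : ∀ i, 0 ≤ B i) (k : ℕ) :
    ∃ D, 0 ≤ D ∧ ∀ (y ε : ℝ) (q Q : ℕ → ℝ), |y| ≤ r → 0 ≤ ε →
      (∀ j ≤ k, Q j = q j + y * ∑ i ∈ range j, q i * Q (j - 1 - i)) →
      (∀ i ≤ k, |q i - mom α ν ξ i| ≤ ε) → (∀ i ≤ k, |Q i| ≤ B i) →
      |Q k - tk α ν ξ k y| ≤ D * ε := by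
  induction k using Nat.strong_induction_on with
  | _ k ih =>
    choose D hD0 hD using fun i : Fin k => ih (k - 1 - i) (by have := i.2; omega)
    refine ⟨1 + r * ∑ i : Fin k, (B (k - 1 - i) + |mom α ν ξ i| * D i),
      add_nonneg zero_le_one (mul_nonneg hr (Finset.sum_nonneg fun i _ =>
        add_nonneg (hB _) (mul_nonneg (abs_nonneg _) (hD0 i)))), fun y ε q Q hy hε hrec hq hQ => ?_⟩
    rw [hrec k le_rfl, tk_eq, Finset.sum_range, Finset.sum_range,
      show ∀ a b c d : ℝ, a + y * b - (c + y * d) = (a - c) + y * (b - d) from fun a b c d => by ring]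
    refine (abs_add_le _ _).trans ?_
    rw [add_mul, one_mul, abs_mul, mul_assoc, Finset.sum_mul, ← Finset.sum_sub_distrib]
    refine add_le_add (hq k le_rfl) (mul_le_mul hy ((Finset.abs_sum_le_sum_abs _ _).trans
      (Finset.sum_le_sum fun i _ => ?_)) (abs_nonneg _) hr)
    have hi : (i : ℕ) ≤ k := i.2.le
    have hj : k - 1 - (i : ℕ) ≤ k := by omega
    rw [show q i * Q (k - 1 - i) - mom α ν ξ i * tk α ν ξ (k - 1 - i) y
      = (q i - mom α ν ξ i) * Q (k - 1 - i) + mom α ν ξ i * (Q (k - 1 - i) - tk α ν ξ (k - 1 - i) y) by ring]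
    refine (abs_add_le _ _).trans ?_
    rw [abs_mul, abs_mul, add_mul, mul_comm (B _) ε, mul_assoc]
    refine add_le_add (mul_le_mul (hq i hi) (hQ _ hj) (abs_nonneg _) hε)
      (mul_le_mul_of_nonneg_left (hD i y ε q Q hy hε (fun j hj' => hrec j (by omega))
        (fun l hl => hq l (by omega)) fun l hl => hQ l (by omega)) (abs_nonneg _))

variable {N : ℕ}

/-- Trace moment. -/
noncomputable def trm (ξ : ℝ → ℝ) {M : ℕ} (k : ℕ) (P : Pats N M) : ℝ := (jm ξ P ^ k).trace / N

/-- Overlap of the vector `a` with a power of the coupling. -/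
noncomputable def ovl (ξ : ℝ → ℝ) {M : ℕ} (k : ℕ) (a : Fin M) (P : Pats N M) : ℝ :=
  qf (jm ξ P ^ k) (P a).1 / N

/-- The same with the vector `a` removed from the coupling. -/
noncomputable def ovl' (ξ : ℝ → ℝ) {m : ℕ} (k : ℕ) (a : Fin (m + 1)) (P : Pats N (m + 1)) : ℝ :=
  qf (jm ξ (a.removeNth P) ^ k) (P a).1 / N

theorem trm_succ {M : ℕ} (k : ℕ) (P : Pats N M) :
    trm ξ (k + 1) P = (∑ a, ξ (P a).2 * ovl ξ k a P) / N := by
  rw [trm, pow_succ]
  congr 1
  have e : ∀ A : Matrix (Fin N) (Fin N) ℝ, (A * jm ξ P).trace = (∑ a, ξ (P a).2 * qf A (P a).1) / N :=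
    fun A => by
      simp only [Matrix.trace, Matrix.diag, Matrix.mul_apply, jm, qf, dotProduct, Matrix.mulVec,
        Finset.mul_sum, Finset.sum_div]
      conv_lhs =>
        enter [2, i]
        rw [Finset.sum_comm]
      rw [Finset.sum_comm]
      refine Finset.sum_congr rfl fun a _ => Finset.sum_congr rfl fun i _ => Finset.sum_congr rfl fun j _ => ?_
      ring
  rw [e, Finset.sum_div]
  exact Finset.sum_congr rfl fun a _ => mul_div_assoc _ _ _

theorem ovl_rec {m : ℕ} (a : Fin (m + 1)) (P : Pats N (m + 1)) (j : ℕ) :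
    ovl ξ j a P = ovl' ξ j a P
      + ξ (P a).2 * ∑ i ∈ range j, ovl' ξ i a P * ovl ξ (j - 1 - i) a P := by
  set A := jm ξ P
  set B := jm ξ (a.removeNth P)
  set g := (P a).1
  set y := ξ (P a).2
  have hA : ∀ v, A *ᵥ v = B *ᵥ v + (y * (g ⬝ᵥ v) / N) • g := fun v => by
    funext i
    simp only [A, B, jm, Matrix.mulVec, dotProduct, Pi.add_apply, Pi.smul_apply, smul_eq_mul,
      Fin.sum_univ_succAbove _ a, Fin.removeNth_apply, add_div, add_mul, Finset.sum_add_distrib]
    rw [add_comm]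
    congr 1
    simp only [Finset.mul_sum, Finset.sum_mul, Finset.sum_div, y, g]
    exact Finset.sum_congr rfl fun l _ => by ring
  have hv : ∀ k, A ^ k *ᵥ g
      = B ^ k *ᵥ g + ∑ i ∈ range k, (y * (g ⬝ᵥ A ^ (k - 1 - i) *ᵥ g) / N) • (B ^ i *ᵥ g) := by
    intro k
    induction k with
    | zero => simp
    | succ k ih =>
      rw [pow_succ', ← Matrix.mulVec_mulVec, hA]
      conv_lhs =>
        enter [1, 2]
        rw [ih]
      rw [Matrix.mulVec_add, Matrix.mulVec_sum, Matrix.mulVec_mulVec, ← pow_succ', Finset.sum_range_succ' _ k,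
        add_assoc]
      congr 1
      simp only [Matrix.mulVec_smul, Matrix.mulVec_mulVec, ← pow_succ', pow_zero, Matrix.one_mulVec,
        Nat.add_sub_cancel, Nat.sub_zero]
      congr 1
      exact Finset.sum_congr rfl fun i _ => by rw [show k - (i + 1) = k - 1 - i by omega]
  simp only [ovl, ovl', qf]
  rw [hv j, dotProduct_add, dotProduct_sum, add_div, Finset.mul_sum, Finset.sum_div]
  congr 1
  exact Finset.sum_congr rfl fun i _ => by rw [dotProduct_smul, smul_eq_mul]; ring

theorem abs_ovl_le {r K : ℝ} (hξ : ∀ x, |ξ x| ≤ r) (hK : 0 ≤ K) {M : ℕ} {P : Pats N M}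
    (h : Gd K P) (k : ℕ) (a : Fin M) : |ovl ξ k a P| ≤ (r * K) ^ k * K := by
  have hr : 0 ≤ r := (abs_nonneg _).trans (hξ 0)
  have e : ∑ i, (P a).1 i ^ 2 = (P a).1 ⬝ᵥ (P a).1 := by simp [dotProduct, pow_two]
  have h1 := (pow_facts (jm_symm ξ P) (abs_qf_le hξ h) k).1 (P a).1
  rw [ovl, abs_div, Nat.abs_cast]
  refine (div_le_div_of_nonneg_right h1 (Nat.cast_nonneg _)).trans ?_
  rw [mul_div_assoc, e]
  exact mul_le_mul_of_nonneg_left (row_le hK h a) (pow_nonneg (mul_nonneg hr hK) k)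

theorem measurable_trm (hξm : Measurable ξ) {M : ℕ} (k : ℕ) :
    Measurable fun P : Pats N M => trm ξ k P := by
  simp only [trm, Matrix.trace, Matrix.diag]
  exact (Finset.measurable_sum _ fun i _ => measurable_pow_entry hξm k i i).div_const _

theorem measurable_qf_pow (hξm : Measurable ξ) {M : ℕ} (k : ℕ) :
    Measurable fun q : (Fin N → ℝ) × Pats N M => qf (jm ξ q.2 ^ k) q.1 := by
  simp only [qf, dotProduct, Matrix.mulVec]
  exact Finset.measurable_sum _ fun i _ => ((measurable_pi_apply i).comp measurable_fst).mul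
    (Finset.measurable_sum _ fun j _ => ((measurable_pow_entry hξm k i j).comp measurable_snd).mul
      ((measurable_pi_apply j).comp measurable_fst))

theorem measurable_ovl' (hξm : Measurable ξ) {m : ℕ} (k : ℕ) (a : Fin (m + 1)) :
    Measurable fun P : Pats N (m + 1) => ovl' ξ k a P := by
  have h : Measurable fun P : Pats N (m + 1) => ((P a).1, (a.removeNth P : Pats N m)) := by
    refine Measurable.prodMk (by fun_prop) (measurable_pi_lambda _ fun b => ?_)
    simp only [Fin.removeNth_apply]; fun_prop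
  exact ((measurable_qf_pow hξm k).comp h).div_const _

variable [IsProbabilityMeasure ν]

/-- One removed vector. -/
theorem ovl'_small {r K η : ℝ} (hξ : ∀ x, |ξ x| ≤ r) (hξm : Measurable ξ) (hη : 0 < η)
    (hN : 0 < N) {m : ℕ} (a : Fin (m + 1)) (i : ℕ) (c : ℝ) :
    (pats ν N (m + 1)).real {P | η < |ovl' ξ i a P - c|}
      ≤ (pats ν N m).real ({P | ¬ Gd K P} ∪ {P | η / 2 < |trm ξ i P - c|})
        + 8 * (r * K) ^ (2 * i) / (η ^ 2 * N) := by
  have hN' : (0 : ℝ) < N := by exact_mod_cast hN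
  have hc0 : 0 ≤ 8 * (r * K) ^ (2 * i) / (η ^ 2 * N) := by
    rw [pow_mul]; positivity
  set B := toMeasurable (pats ν N m) ({P : Pats N m | ¬ Gd K P} ∪ {P | η / 2 < |trm ξ i P - c|})
  set S : Set (((Fin N → ℝ) × ℝ) × Pats N m) :=
    {q | η / 2 < |qf (jm ξ q.2 ^ i) q.1.1 / N - trm ξ i q.2| ∧ q.2 ∉ B}
  have hS : MeasurableSet S := by
    have hc1 : Measurable fun q : ((Fin N → ℝ) × ℝ) × Pats N m =>
        |qf (jm ξ q.2 ^ i) q.1.1 / N - trm ξ i q.2| :=
      ((((measurable_qf_pow hξm i).comp ((measurable_fst.comp measurable_fst).prodMk measurable_snd)).div_const _).sub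
        ((measurable_trm hξm i).comp measurable_snd)).abs
    exact (measurableSet_lt measurable_const hc1).inter
      ((measurableSet_toMeasurable (pats ν N m) _).compl.preimage measurable_snd)
  set e := MeasurableEquiv.piFinSuccAbove (fun _ : Fin (m + 1) => (Fin N → ℝ) × ℝ) a
  have hmp : MeasurePreserving e (pats ν N (m + 1)) ((pl ν N).prod (pats ν N m)) :=
    measurePreserving_piFinSuccAbove (fun _ : Fin (m + 1) => pl ν N) a
  have hsub : {P : Pats N (m + 1) | η < |ovl' ξ i a P - c|} ⊆ e ⁻¹' (Set.univ ×ˢ B ∪ S) := fun P hP => by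
    by_cases hB : a.removeNth P ∈ B
    · exact Or.inl ⟨trivial, hB⟩
    refine Or.inr ⟨?_, hB⟩
    have h2 : ¬ η / 2 < |trm ξ i (a.removeNth P : Pats N m) - c| := fun h =>
      hB (subset_toMeasurable _ _ (Or.inr h))
    simp only [Set.mem_ofPred_eq, ovl'] at hP
    change η / 2 < |qf (jm ξ (a.removeNth P : Pats N m) ^ i) (P a).1 / N - trm ξ i (a.removeNth P : Pats N m)|
    have := abs_sub_le (qf (jm ξ (a.removeNth P : Pats N m) ^ i) (P a).1 / N)
      (trm ξ i (a.removeNth P : Pats N m)) c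
    linarith [not_lt.1 h2]
  have hslice : ∀ P' : Pats N m, (pl ν N) ((fun p => (p, P')) ⁻¹' S)
      ≤ ENNReal.ofReal (8 * (r * K) ^ (2 * i) / (η ^ 2 * N)) := fun P' => by
    by_cases hB : P' ∈ B
    · simp [S, hB]
    have hG : Gd K P' := by
      by_contra h
      exact hB (subset_toMeasurable _ _ (Or.inl h))
    set A := jm ξ P' ^ i with hAdef
    have hA : Aᵀ = A := by rw [hAdef, Matrix.transpose_pow, jm_symm]
    obtain ⟨iv, hv⟩ := qf_var hA
    set T := {g : Fin N → ℝ | (η / 2) ^ 2 * N ^ 2 ≤ (qf A g - A.trace) ^ 2}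
    have hT : (fun p => (p, P')) ⁻¹' S ⊆ T ×ˢ (Set.univ : Set ℝ) := fun p hp => by
      refine ⟨?_, trivial⟩
      have h := hp.1
      simp only [trm, ← sub_div, abs_div, Nat.abs_cast, lt_div_iff₀ hN'] at h
      simp only [T, Set.mem_ofPred_eq, ← mul_pow]
      rw [← sq_abs (qf A p.1 - A.trace)]
      exact pow_le_pow_left₀ (by positivity) h.le 2
    refine (measure_mono hT).trans ?_
    rw [pl, Measure.prod_prod, measure_univ, mul_one, ← ofReal_measureReal]
    refine ENNReal.ofReal_le_ofReal ((markov (fun g => sq_nonneg _) iv (by positivity)).trans ?_)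
    rw [hv]
    have h2 := (pow_facts (jm_symm ξ P') (abs_qf_le hξ hG) i).2
    calc 2 * (∑ x, ∑ y, A x y ^ 2) / ((η / 2) ^ 2 * (N : ℝ) ^ 2)
        ≤ 2 * (N * (r * K) ^ (2 * i)) / ((η / 2) ^ 2 * (N : ℝ) ^ 2) := by gcongr
      _ = _ := by field_simp; ring
  have h1 : ((pl ν N).prod (pats ν N m)) S ≤ ENNReal.ofReal (8 * (r * K) ^ (2 * i) / (η ^ 2 * N)) := by
    rw [Measure.prod_apply_symm hS]
    exact (lintegral_mono hslice).trans (by simp)
  refine (measureReal_mono hsub).trans ?_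
  rw [measureReal_def, hmp.measure_preimage_equiv, ← measureReal_def]
  refine (measureReal_union_le _ _).trans (add_le_add ?_ ?_)
  · rw [measureReal_def, Measure.prod_prod, measure_univ, one_mul, measure_toMeasurable]
    rfl
  · exact ENNReal.toReal_le_of_le_ofReal hc0 h1

/-- Law of large numbers for a bounded function of the jumps. -/
theorem lln {M : ℕ → ℕ} (hM : Tendsto (fun N => (M N : ℝ) / N) atTop (𝓝 α))
    {φ : ℝ → ℝ} (hφm : Measurable φ) {C : ℝ} (hφ : ∀ x, |φ x| ≤ C) {η ε : ℝ} (hη : 0 < η) (hε : 0 < ε) :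
    ∀ᶠ N in atTop, (pats ν N (M N)).real
      {P | η < |(∑ a, φ (P a).2) / N - α * ∫ x, φ x ∂ν|} < ε := by
  set I := ∫ x, φ x ∂ν
  have h1 : Tendsto (fun N => ((M N : ℝ) / N) * C ^ 2 * (N : ℝ)⁻¹ / (η / 2) ^ 2) atTop (𝓝 0) := by
    simpa using (((hM.mul_const (C ^ 2)).mul
      (tendsto_inv_atTop_zero.comp tendsto_natCast_atTop_atTop)).div_const ((η / 2) ^ 2))
  have h2 : Tendsto (fun N => (M N : ℝ) / N * I - α * I) atTop (𝓝 0) := by
    simpa using (hM.mul_const I).sub_const (α * I)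
  filter_upwards [h1.eventually (gt_mem_nhds hε), Metric.tendsto_nhds.1 h2 (η / 2) (by positivity),
    eventually_gt_atTop 0] with N hs hb hN
  rw [Real.dist_eq, sub_zero] at hb
  set μ := pats ν N (M N)
  set Y : (Fin N → ℝ) × ℝ → ℝ := fun p => φ p.2 / N
  have hYb : ∀ p, |Y p| ≤ C / N := fun p => by
    simp only [Y, abs_div, Nat.abs_cast]
    exact div_le_div_of_nonneg_right (hφ _) (Nat.cast_nonneg _)
  have hY : MemLp Y 2 (pl ν N) :=
    MemLp.of_bound (by fun_prop : AEStronglyMeasurable Y _) (C / N) (ae_of_all _ hYb)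
  set X : Pats N (M N) → ℝ := ∑ a, fun P => Y (P a)
  have hX : MemLp X 2 μ := memLp_finsetSum' _ fun a _ =>
    hY.comp_measurePreserving (measurePreserving_eval (fun _ : Fin (M N) => pl ν N) a)
  have hsum : ∀ P, X P = (∑ a, φ (P a).2) / N := fun P => by simp [X, Y, Finset.sum_div]
  have hvar : Var[X; μ] ≤ (M N : ℝ) / N * C ^ 2 * (N : ℝ)⁻¹ := by
    simp only [X, μ, pats]
    rw [variance_sum_pi fun _ => hY]
    refine (Finset.sum_le_sum fun a _ => (variance_le_expectation_sq hY.1).trans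
      (integral_mono (hY.integrable_sq) (integrable_const ((C / N) ^ 2)) fun p => ?_)).trans (le_of_eq ?_)
    · simp only [Pi.pow_apply]
      rw [← sq_abs]
      exact pow_le_pow_left₀ (abs_nonneg _) (hYb p) 2
    · simp only [integral_const, probReal_univ, one_smul, Finset.sum_const, Finset.card_univ,
        Fintype.card_fin, nsmul_eq_mul, div_eq_mul_inv]
      ring
  have hmean : ∫ P, X P ∂μ = (M N : ℝ) / N * I := by
    simp only [X, Finset.sum_apply]
    have iY : ∀ a ∈ (univ : Finset (Fin (M N))), Integrable (fun P : Pats N (M N) => Y (P a)) μ := fun a _ =>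
      (hY.comp_measurePreserving (measurePreserving_eval (fun _ : Fin (M N) => pl ν N) a)).integrable one_le_two
    rw [integral_finsetSum _ iY]
    have e : ∀ a : Fin (M N), ∫ P, Y (P a) ∂μ = I / N := fun a => by
      have hmp := measurePreserving_eval (fun _ : Fin (M N) => pl ν N) a
      rw [show ∫ P, Y (P a) ∂μ = ∫ p, Y p ∂pl ν N by
        conv_rhs => rw [← hmp.map_eq]
        rw [integral_map hmp.measurable.aemeasurable (by fun_prop)]
        rfl]
      simp only [Y, pl, integral_div]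
      congr 1
      rw [show ∫ p : (Fin N → ℝ) × ℝ, φ p.2 ∂(gs N).prod ν = ∫ x, φ x ∂ν by
        have h2 := measurePreserving_snd (μ := gs N) (ν := ν)
        conv_rhs => rw [← h2.map_eq]
        rw [integral_map h2.measurable.aemeasurable hφm.aestronglyMeasurable]]
    simp only [e, Finset.sum_const, Finset.card_univ, Fintype.card_fin, nsmul_eq_mul]
    ring
  have hch := meas_ge_le_variance_div_sq hX (show 0 < η / 2 by positivity)
  rw [hmean] at hch
  have hsub : {P : Pats N (M N) | η < |(∑ a, φ (P a).2) / N - α * I|}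
      ⊆ {P | η / 2 ≤ |X P - (M N : ℝ) / N * I|} := fun P hP => by
    simp only [Set.mem_ofPred_eq, hsum] at hP ⊢
    linarith [abs_sub_le ((∑ a, φ (P a).2) / (N : ℝ)) ((M N : ℝ) / N * I) (α * I)]
  refine lt_of_le_of_lt (measureReal_mono hsub) (lt_of_le_of_lt ?_ hs)
  refine ENNReal.toReal_le_of_le_ofReal (by positivity) (hch.trans (ENNReal.ofReal_le_ofReal ?_))
  gcongr

/-- The trace moments converge in probability. -/
theorem trm_tendsto {r : ℝ} (hξ : ∀ x, |ξ x| ≤ r) (hξm : Measurable ξ) (k : ℕ) :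
    ∀ M : ℕ → ℕ, Tendsto (fun N => (M N : ℝ) / N) atTop (𝓝 α) → ∀ η ε : ℝ, 0 < η → 0 < ε →
      ∀ᶠ N in atTop, (pats ν N (M N)).real {P | η < |trm ξ k P - mom α ν ξ k|} < ε := by
  classical
  have hr : 0 ≤ r := (abs_nonneg _).trans (hξ 0)
  induction k using Nat.strong_induction_on with
  | _ k ih =>
    intro M hM η ε hη hε
    rcases k with _ | k
    · filter_upwards [eventually_gt_atTop 0] with N hN
      have hN' : (N : ℝ) ≠ 0 := by exact_mod_cast hN.ne'
      simp [trm, mom_zero, Matrix.trace_one, hN', hη.not_gt, hε]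
    obtain ⟨K, hK, hgd⟩ := gd_tight (ν := ν) hM (show 0 < ε / 3 by positivity)
    have hK0 : 0 ≤ K := le_trans zero_le_one hK
    obtain ⟨B, hB0, hB⟩ := tk_bound (α := α) (ν := ν) (ξ := ξ) hr k
    set C : ℕ → ℝ := fun i => (r * K) ^ i * K
    obtain ⟨D, hD0, hD⟩ := loo_bound (α := α) (ν := ν) (ξ := ξ) hr C (fun i => by positivity) k
    set ε₁ := η / (4 * (r * (|α| + 1) * D + 1))
    have hε₁ : 0 < ε₁ := by positivity
    set θ := η / (4 * (r * (C k + B) + 1))
    have hθ : 0 < θ := by positivity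
    set p := ε / 3 * θ / ((|α| + 1) * (k + 1))
    have hp : 0 < p := by positivity
    set M' : ℕ → ℕ := fun N => M N - 1
    have hM' : Tendsto (fun N => (M' N : ℝ) / N) atTop (𝓝 α) := by
      have h0 : Tendsto (fun N : ℕ => (1 : ℝ) / N) atTop (𝓝 0) := tendsto_one_div_atTop_nhds_zero_nat
      refine tendsto_of_tendsto_of_tendsto_of_le_of_le (g := fun N => (M N : ℝ) / N - 1 / N)
        (by simpa using hM.sub h0) hM (fun N => ?_) fun N => ?_
      · simp only [M', ← sub_div]
        gcongr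
        rw [sub_le_iff_le_add]
        exact_mod_cast (show M N ≤ M N - 1 + 1 by omega)
      · simp only [M']
        gcongr
        exact_mod_cast Nat.sub_le _ _
    obtain ⟨K', hK', hgd'⟩ := gd_tight (ν := ν) hM' (show 0 < p / 3 by positivity)
    have hbad : ∀ i ∈ range (k + 1), ∀ᶠ N in atTop, ∀ (m : ℕ), M N = m + 1 → ∀ a : Fin (m + 1),
        (pats ν N (m + 1)).real {P | ε₁ < |ovl' ξ i a P - mom α ν ξ i|} ≤ p := fun i hi => by
      have h8 : Tendsto (fun N : ℕ => 8 * (r * K') ^ (2 * i) / (ε₁ ^ 2 * N)) atTop (𝓝 0) := by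
        simp only [← div_div]; exact tendsto_const_div_atTop_nhds_zero_nat _
      filter_upwards [hgd', ih i (mem_range.1 hi) M' hM' (ε₁ / 2) (p / 3) (by positivity) (by positivity),
        h8.eventually (gt_mem_nhds (show 0 < p / 3 by positivity)), eventually_gt_atTop 0] with N g1 g2 g3 hN
      intro m hm a
      have e : M' N = m := by simp [M', hm]
      rw [e] at g1 g2
      refine (ovl'_small hξ hξm hε₁ hN a i _ (K := K')).trans ?_
      linarith [measureReal_union_le (μ := pats ν N m) {P | ¬ Gd K' P}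
        {P | ε₁ / 2 < |trm ξ i P - mom α ν ξ i|}]
    have hl := lln (ν := ν) hM (φ := fun x => ξ x * tk α ν ξ k (ξ x))
      (hξm.mul ((continuous_tk k).measurable.comp hξm)) (C := r * B) (fun x => by
        rw [abs_mul]; exact mul_le_mul (hξ x) (hB _ (hξ x)) (abs_nonneg _) hr)
      (show 0 < η / 4 by positivity) (show 0 < ε / 3 by positivity)
    filter_upwards [hgd, hl, (eventually_all_finset (range (k + 1))).2 hbad,
      hM.eventually (gt_mem_nhds (show α < |α| + 1 by linarith [le_abs_self α])), eventually_gt_atTop 0]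
      with N hg hlN hb hMN hN
    have hN' : (0 : ℝ) < N := by exact_mod_cast hN
    generalize hMdef : M N = Mn at hg hlN hMN ⊢
    rcases Mn with _ | m
    · have hs : {P : Pats N 0 | η < |trm ξ (k + 1) P - mom α ν ξ (k + 1)|}
          ⊆ {P | η / 4 < |(∑ a, ξ (P a).2 * tk α ν ξ k (ξ (P a).2)) / N
            - α * ∫ x, ξ x * tk α ν ξ k (ξ x) ∂ν|} := fun P hP => by
        simp only [Set.mem_ofPred_eq, trm_succ, mom_succ, Finset.univ_eq_empty, Finset.sum_empty] at hP ⊢
        linarith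
      exact lt_of_le_of_lt (measureReal_mono hs) (hlN.trans (by linarith))
    set μ := pats ν N (m + 1)
    set Bad : Fin (m + 1) → Set (Pats N (m + 1)) := fun a =>
      ⋃ i ∈ range (k + 1), {P | ε₁ < |ovl' ξ i a P - mom α ν ξ i|}
    have hBm : ∀ a, MeasurableSet (Bad a) := fun a => Finset.measurableSet_biUnion _ fun i _ =>
      measurableSet_lt measurable_const ((measurable_ovl' hξm i a).sub_const _).abs
    have hBp : ∀ a, μ.real (Bad a) ≤ (k + 1) * p := fun a =>
      (measureReal_biUnion_finset_le _ _).trans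
        ((Finset.sum_le_sum fun i hi => hb i hi m hMdef a).trans_eq (by simp))
    set cnt : Pats N (m + 1) → ℝ := fun P => (∑ a, (Bad a).indicator (fun _ => (1 : ℝ)) P) / N
    have icnt : Integrable cnt μ :=
      (integrable_finsetSum _ fun a _ => (integrable_const (1 : ℝ)).indicator (hBm a)).div_const _
    have hcnt0 : ∀ P, 0 ≤ cnt P := fun P =>
      div_nonneg (Finset.sum_nonneg fun a _ => Set.indicator_nonneg (fun _ _ => zero_le_one) P) hN'.le
    have hcnt : μ.real {P | θ ≤ cnt P} ≤ ε / 3 := by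
      refine (markov hcnt0 icnt hθ).trans ?_
      rw [div_le_iff₀ hθ]
      simp only [cnt]
      rw [integral_div, integral_finsetSum _ fun a _ => (integrable_const (1 : ℝ)).indicator (hBm a)]
      simp only [integral_indicator_const _ (hBm _), smul_eq_mul, mul_one]
      rw [div_le_iff₀ hN']
      refine (Finset.sum_le_sum fun a _ => hBp a).trans ?_
      rw [Finset.sum_const, Finset.card_univ, Fintype.card_fin, nsmul_eq_mul]
      have hm' : ((m + 1 : ℕ) : ℝ) ≤ (|α| + 1) * N := by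
        rw [div_lt_iff₀ hN'] at hMN; exact hMN.le
      refine (mul_le_mul_of_nonneg_right hm' (by positivity)).trans (le_of_eq ?_)
      simp only [p]
      field_simp
    have hsub : {P : Pats N (m + 1) | η < |trm ξ (k + 1) P - mom α ν ξ (k + 1)|}
        ⊆ {P | ¬ Gd K P} ∪ {P | η / 4 < |(∑ a, ξ (P a).2 * tk α ν ξ k (ξ (P a).2)) / N
            - α * ∫ x, ξ x * tk α ν ξ k (ξ x) ∂ν|} ∪ {P | θ ≤ cnt P} := fun P hP => by
      simp only [Set.mem_union, Set.mem_ofPred_eq] at hP ⊢
      by_contra hc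
      push Not at hc
      obtain ⟨⟨hG, hL⟩, hC⟩ := hc
      have hG' : Gd K P := hG
      have hd : ∀ a, |ovl ξ k a P - tk α ν ξ k (ξ (P a).2)|
          ≤ D * ε₁ + (C k + B) * (Bad a).indicator (fun _ => (1 : ℝ)) P := fun a => by
        by_cases ha : P ∈ Bad a
        · rw [Set.indicator_of_mem ha, mul_one]
          refine (abs_sub _ _).trans ?_
          have := add_le_add (abs_ovl_le hξ hK0 hG' k a) (hB _ (hξ (P a).2))
          linarith [mul_nonneg hD0 hε₁.le]
        · rw [Set.indicator_of_notMem ha, mul_zero, add_zero]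
          refine hD _ ε₁ (fun i => ovl' ξ i a P) (fun i => ovl ξ i a P) (hξ _) hε₁.le
            (fun j _ => ovl_rec a P j) (fun i hi => ?_) fun i _ => abs_ovl_le hξ hK0 hG' i a
          by_contra h
          exact ha (Set.mem_biUnion (mem_range.2 (by omega : i < k + 1)) (not_le.1 h))
      have h1 : |(∑ a, ξ (P a).2 * ovl ξ k a P) / N - (∑ a, ξ (P a).2 * tk α ν ξ k (ξ (P a).2)) / N|
          ≤ r * (|α| + 1) * D * ε₁ + r * (C k + B) * cnt P := by
        rw [← sub_div, ← Finset.sum_sub_distrib, abs_div, Nat.abs_cast, div_le_iff₀ hN']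
        refine (Finset.abs_sum_le_sum_abs _ _).trans ((Finset.sum_le_sum (g := fun a =>
          r * (D * ε₁ + (C k + B) * (Bad a).indicator (fun _ => (1 : ℝ)) P)) fun a _ => ?_).trans ?_)
        · rw [← mul_sub, abs_mul]; exact mul_le_mul (hξ _) (hd a) (abs_nonneg _) hr
        · simp only [mul_add, Finset.sum_add_distrib, Finset.sum_const, Finset.card_univ, Fintype.card_fin,
            nsmul_eq_mul, add_mul]
          refine add_le_add ?_ (le_of_eq ?_)
          · rw [div_lt_iff₀ hN'] at hMN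
            calc ((m + 1 : ℕ) : ℝ) * (r * (D * ε₁)) ≤ (|α| + 1) * N * (r * (D * ε₁)) :=
                  mul_le_mul_of_nonneg_right hMN.le (by positivity)
              _ = _ := by ring
          · simp only [cnt, ← Finset.mul_sum]
            field_simp
      rw [trm_succ, mom_succ] at hP
      have t1 : r * (|α| + 1) * D * ε₁ ≤ η / 4 := by
        simp only [ε₁]
        rw [← mul_div_assoc, div_le_iff₀ (by positivity)]
        nlinarith
      have t2 : r * (C k + B) * cnt P ≤ η / 4 := by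
        refine (mul_le_mul_of_nonneg_left hC.le (by positivity)).trans ?_
        simp only [θ]
        rw [← mul_div_assoc, div_le_iff₀ (by positivity)]
        nlinarith
      linarith [abs_sub_le ((∑ a, ξ (P a).2 * ovl ξ k a P) / (N : ℝ))
        ((∑ a, ξ (P a).2 * tk α ν ξ k (ξ (P a).2)) / N) (α * ∫ x, ξ x * tk α ν ξ k (ξ x) ∂ν)]
    refine lt_of_le_of_lt ((measureReal_mono hsub).trans ((measureReal_union_le _ _).trans
      (add_le_add (measureReal_union_le _ _) hcnt))) ?_
    linarith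

/-- Geometric growth of the moments. -/
theorem mom_bound {r : ℝ} (hα : 0 ≤ α) (hξ : ∀ x, |ξ x| ≤ r) (hξm : Measurable ξ) :
    ∃ C : ℝ, 0 ≤ C ∧ ∀ k, |mom α ν ξ k| ≤ C ^ k := by
  have hr : 0 ≤ r := (abs_nonneg _).trans (hξ 0)
  have hM : Tendsto (fun N : ℕ => (⌊α * N⌋₊ : ℝ) / N) atTop (𝓝 α) :=
    (tendsto_nat_floor_mul_div_atTop hα).comp tendsto_natCast_atTop_atTop
  obtain ⟨K, hK, hgd⟩ := gd_tight (ν := ν) hM (show (0 : ℝ) < 1 / 3 by norm_num)
  refine ⟨r * K, by positivity, fun k => le_of_forall_pos_le_add fun η hη => ?_⟩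
  obtain ⟨N, hg, ht, hN⟩ := (hgd.and ((trm_tendsto (α := α) (ν := ν) hξ hξm k _ hM η (1 / 3) hη (by norm_num)).and
    (eventually_gt_atTop 0))).exists
  obtain ⟨P, hP⟩ : ∃ P : Pats N ⌊α * N⌋₊, Gd (K) P ∧ |trm ξ k P - mom α ν ξ k| ≤ η := by
    by_contra hc
    push Not at hc
    have : (Set.univ : Set (Pats N ⌊α * N⌋₊))
        ⊆ {P | ¬ Gd K P} ∪ {P | η < |trm ξ k P - mom α ν ξ k|} := fun P _ => by
      by_cases h : Gd K P
      · exact Or.inr (hc P h)
      · exact Or.inl h
    have h := (measureReal_mono (μ := pats ν N ⌊α * N⌋₊) this).trans (measureReal_union_le _ _)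
    rw [probReal_univ] at h
    linarith
  have hN' : (0 : ℝ) < N := by exact_mod_cast hN
  obtain ⟨Q, x, hd⟩ := exists_dec (jm_symm ξ P)
  have hx : |trm ξ k P| ≤ (r * K) ^ k := by
    rw [trm, hd.trace, abs_div, Nat.abs_cast, div_le_iff₀ hN']
    refine (Finset.abs_sum_le_sum_abs _ _).trans ((Finset.sum_le_sum fun i _ => ?_).trans_eq
      (show ∑ _i : Fin N, (r * K) ^ k = (r * K) ^ k * N by simp [mul_comm]))
    rw [abs_pow]
    exact pow_le_pow_left₀ (abs_nonneg _) (hd.abs_le (abs_qf_le hξ hP.1) i) k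
  have := abs_sub_abs_le_abs_sub (mom α ν ξ k) (trm ξ k P)
  rw [abs_sub_comm] at this
  linarith [hP.2]

end Vale.Agent.P166.Free
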