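import Vale.Agent.P166.Free.Law

/-!
For finitely many jump values, every point right of the support is a value of the edge function.
-/

open MeasureTheory Filter Topology Finset

namespace Vale.Agent.P166.Free

variable {α r C e : ℝ} {ν μ : Measure ℝ} [IsProbabilityMeasure ν] {ξ : ℝ → ℝ} {S : Finset ℝ}

/-- Weight of a jump value. -/
noncomputable def jw (α : ℝ) (ν : Measure ℝ) (ξ : ℝ → ℝ) (s : ℝ) : ℝ := α * ν.real (ξ ⁻¹' {s})

theorem finite_integral (hξm : Measurable ξ) (hS : ∀ x, ξ x ∈ S) (F : ℝ → ℝ) :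
    α * ∫ x, F (ξ x) ∂ν = ∑ s ∈ S, jw α ν ξ s * F s := by
  classical
  have hm : ∀ s, MeasurableSet (ξ ⁻¹' {s}) := fun s => hξm (measurableSet_singleton s)
  have e : ∀ x, F (ξ x) = ∑ s ∈ S, (ξ ⁻¹' {s}).indicator (fun _ => F s) x := fun x => by
    rw [Finset.sum_eq_single (ξ x) (fun s _ hs => Set.indicator_of_notMem (by simpa using fun h => hs h.symm) _)
      fun h => absurd (hS x) h, Set.indicator_of_mem (by simp)]
  simp only [e]
  rw [integral_finsetSum _ fun s _ => (integrable_const (F s)).indicator (hm s), Finset.mul_sum]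
  refine Finset.sum_congr rfl fun s _ => ?_
  rw [integral_indicator_const _ (hm s), smul_eq_mul, jw]
  ring

theorem abs_mom_le (hμ : IsLaw α ν ξ μ C e) (k : ℕ) : |mom α ν ξ k| ≤ C ^ k := by
  have := hμ.prob
  rw [← hμ.moments k, ← Real.norm_eq_abs]
  refine (norm_integral_le_of_norm_le_const (C := C ^ k) (hμ.supp.mono fun x hx => ?_)).trans_eq (by simp)
  rw [norm_pow, Real.norm_eq_abs]
  exact pow_le_pow_left₀ (abs_nonneg x) hx k

theorem abs_tk_le (hμ : IsLaw α ν ξ μ C e) (hC : 0 ≤ C) (hr : 0 ≤ r) {y : ℝ} (hy : |y| ≤ r) (k : ℕ) :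
    |tk α ν ξ k y| ≤ (C + r + 1) ^ k := by
  induction k using Nat.strong_induction_on with
  | _ k ih =>
    set D := C + r + 1
    set G := ∑ i ∈ range k, C ^ i * D ^ (k - 1 - i)
    rw [tk_eq]
    refine (abs_add_le _ _).trans ((add_le_add (b := C ^ k) (d := r * G) (abs_mom_le hμ k) ?_).trans ?_)
    · rw [abs_mul]
      refine mul_le_mul hy ((Finset.abs_sum_le_sum_abs _ _).trans (Finset.sum_le_sum fun i hi => ?_))
        (abs_nonneg _) hr
      rw [abs_mul]
      exact mul_le_mul (abs_mom_le hμ i) (ih _ (by have := mem_range.1 hi; omega)) (abs_nonneg _)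
        (pow_nonneg hC i)
    · have hG : G * (C - D) = C ^ k - D ^ k := geom_sum₂_mul C D k
      have hG0 : 0 ≤ G := Finset.sum_nonneg fun i _ => by positivity
      simp only [D] at hG hG0 ⊢
      linarith

theorem stieltjes_bounds (hμ : IsLaw α ν ξ μ C e) {z : ℝ} (hz : e < z) :
    Integrable (fun y => (z - y)⁻¹) μ ∧ 0 < ∫ y, (z - y)⁻¹ ∂μ ∧ ∫ y, (z - y)⁻¹ ∂μ ≤ (z - e)⁻¹ := by
  have := hμ.prob
  have hb : ∀ᵐ y ∂μ, (|z| + |C| + 1)⁻¹ ≤ (z - y)⁻¹ ∧ (z - y)⁻¹ ≤ (z - e)⁻¹ := by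
    filter_upwards [hμ.le_top, hμ.supp] with y h1 h2
    refine ⟨?_, inv_anti₀ (by linarith) (by linarith)⟩
    exact inv_anti₀ (by linarith) (by linarith [le_abs_self z, neg_abs_le y, le_abs_self C])
  have hi : Integrable (fun y => (z - y)⁻¹) μ :=
    Integrable.of_bound (Measurable.aestronglyMeasurable (by fun_prop)) (z - e)⁻¹ (hb.mono fun y hy => by
      rw [Real.norm_eq_abs, abs_of_nonneg (le_trans (by positivity) hy.1)]; exact hy.2)
  refine ⟨hi, lt_of_lt_of_le (show (0 : ℝ) < (|z| + |C| + 1)⁻¹ by positivity) ?_, ?_⟩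
  · simpa using integral_mono_ae (integrable_const _) hi (hb.mono fun y hy => hy.1)
  · simpa using integral_mono_ae hi (integrable_const _) (hb.mono fun y hy => hy.2)

theorem stieltjes_series (hμ : IsLaw α ν ξ μ C e) (hC : 0 ≤ C) {z : ℝ} (hz : C < z) (he : e < z) :
    HasSum (fun k => mom α ν ξ k * z⁻¹ ^ (k + 1)) (∫ y, (z - y)⁻¹ ∂μ) := by
  have := hμ.prob
  have hz0 : 0 < z := lt_of_le_of_lt hC hz
  have hq : C * z⁻¹ < 1 := by rw [← div_eq_mul_inv, div_lt_one hz0]; exact hz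
  have hs : Summable fun k => mom α ν ξ k * z⁻¹ ^ (k + 1) := by
    refine Summable.of_norm_bounded ((summable_geometric_of_lt_one (by positivity) hq).mul_right z⁻¹) fun k => ?_
    rw [Real.norm_eq_abs, abs_mul, abs_of_nonneg (show 0 ≤ z⁻¹ ^ (k + 1) by positivity), mul_pow, mul_assoc,
      ← pow_succ]
    exact mul_le_mul_of_nonneg_right (abs_mom_le hμ k) (by positivity)
  refine (hs.hasSum_iff_tendsto_nat).2 ?_
  obtain ⟨hi, -, -⟩ := stieltjes_bounds hμ he
  rw [tendsto_iff_norm_sub_tendsto_zero]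
  refine squeeze_zero (fun n => norm_nonneg _) (fun n => ?_)
    (by simpa using (tendsto_pow_atTop_nhds_zero_of_lt_one (by positivity) hq).mul_const (z - C)⁻¹)
  have e1 : ∑ k ∈ range n, mom α ν ξ k * z⁻¹ ^ (k + 1) = ∫ y, ∑ k ∈ range n, y ^ k * z⁻¹ ^ (k + 1) ∂μ := by
    rw [integral_finsetSum _ fun k _ => (hμ.integrable (continuous_pow k)).mul_const _]
    simp only [integral_mul_const, hμ.moments]
  rw [e1, ← integral_sub (integrable_finsetSum _ fun k _ => (hμ.integrable (continuous_pow k)).mul_const _) hi]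
  refine (norm_integral_le_of_norm_le_const (C := (C * z⁻¹) ^ n * (z - C)⁻¹) (hμ.supp.mono fun y hy => ?_)).trans_eq
    (by simp)
  have hy' : y ≤ C := (le_abs_self y).trans hy
  have hne : z - y ≠ 0 := by linarith
  have e2 : (∑ k ∈ range n, y ^ k * z⁻¹ ^ (k + 1)) - (z - y)⁻¹ = -((y * z⁻¹) ^ n * (z - y)⁻¹) := by
    have h1 : ∑ k ∈ range n, y ^ k * z⁻¹ ^ (k + 1) = z⁻¹ * ∑ k ∈ range n, (y * z⁻¹) ^ k := by
      rw [Finset.mul_sum]
      exact Finset.sum_congr rfl fun k _ => by rw [mul_pow]; ring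
    have hne1 : y * z⁻¹ ≠ 1 := by
      intro h; rw [mul_inv_eq_one₀ hz0.ne'] at h; linarith
    rw [h1, geom_sum_eq hne1]
    have h3 : y * z⁻¹ - 1 = -(z - y) * z⁻¹ := by field_simp; ring
    rw [h3]
    field_simp
    ring
  rw [e2, norm_neg, norm_mul, norm_pow, norm_mul, Real.norm_eq_abs, Real.norm_eq_abs, Real.norm_eq_abs,
    abs_of_pos (inv_pos.2 hz0), abs_of_pos (inv_pos.2 (show 0 < z - y by linarith))]
  refine mul_le_mul (pow_le_pow_left₀ (by positivity) (mul_le_mul_of_nonneg_right hy (by positivity)) n)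
    (inv_anti₀ (by linarith) (by linarith)) (inv_nonneg.2 (by linarith)) (by positivity)

/-- The polynomial form of the functional equation. -/
noncomputable def feq {R : Type*} [CommRing R] (S : Finset ℝ) (q : ℝ → ℝ) (cst : ℝ →+* R) (z A : R) : R :=
  (∏ s ∈ S, (1 - cst s * A)) * (z * A - 1)
    - ∑ s ∈ S, cst (q s) * cst s * A * ∏ u ∈ S.erase s, (1 - cst u * A)

theorem feq_large (hμ : IsLaw α ν ξ μ C e) (hC : 0 ≤ C) (hξ : ∀ x, |ξ x| ≤ r) (hξm : Measurable ξ)
    (hS : ∀ x, ξ x ∈ S) (hSr : ∀ s ∈ S, |s| ≤ r) {z : ℝ} (hz : C + r + 1 < z) (he : e < z) :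
    feq S (jw α ν ξ) (RingHom.id ℝ) z (∫ y, (z - y)⁻¹ ∂μ) = 0 := by
  have hr : 0 ≤ r := (abs_nonneg _).trans (hξ 0)
  set D := C + r + 1
  have hz0 : 0 < z := by simp only [D] at hz; linarith
  set w := z⁻¹
  have hw : 0 < w := inv_pos.2 hz0
  have hDw : D * w < 1 := by rw [← div_eq_mul_inv, div_lt_one hz0]; exact hz
  have hA := stieltjes_series hμ hC (show C < z by simp only [D] at hz; linarith) he
  set A := ∫ y, (z - y)⁻¹ ∂μ
  set a : ℕ → ℝ := fun k => mom α ν ξ k * w ^ (k + 1)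
  set b : ℝ → ℕ → ℝ := fun s k => tk α ν ξ k s * w ^ (k + 1)
  have hsa : Summable fun k => ‖a k‖ := by
    refine Summable.of_nonneg_of_le (fun k => norm_nonneg _) (fun k => ?_)
      ((summable_geometric_of_lt_one (by positivity) hDw).mul_right w)
    simp only [a, Real.norm_eq_abs, abs_mul, abs_of_nonneg (pow_nonneg hw.le _)]
    rw [mul_pow, mul_assoc, ← pow_succ]
    exact mul_le_mul_of_nonneg_right ((abs_mom_le hμ k).trans (pow_le_pow_left₀ hC (by simp only [D]; linarith) k))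
      (by positivity)
  have hsb : ∀ s ∈ S, Summable fun k => ‖b s k‖ := fun s hs => by
    refine Summable.of_nonneg_of_le (fun k => norm_nonneg _) (fun k => ?_)
      ((summable_geometric_of_lt_one (by positivity) hDw).mul_right w)
    simp only [b, Real.norm_eq_abs, abs_mul, abs_of_nonneg (pow_nonneg hw.le _)]
    rw [mul_pow, mul_assoc, ← pow_succ]
    exact mul_le_mul_of_nonneg_right (abs_tk_le hμ hC hr (hSr s hs) k) (by positivity)
  have hB : ∀ s ∈ S, (∑' k, b s k) * (1 - s * A) = A := fun s hs => by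
    set c : ℕ → ℝ := fun k => ∑ i ∈ range k, a i * b s (k - 1 - i)
    have hstep : ∀ k, b s k = a k + s * c k := fun k => by
      simp only [a, b, c]
      rw [tk_eq, add_mul, mul_assoc]
      congr 2
      rw [Finset.sum_mul]
      refine Finset.sum_congr rfl fun i hi => ?_
      have := mem_range.1 hi
      rw [show k + 1 = (i + 1) + (k - 1 - i + 1) by omega, pow_add]
      ring
    have hc1 : (fun n => c (n + 1)) = fun n => ∑ i ∈ range (n + 1), a i * b s (n - i) := by
      funext n; simp only [c, Nat.add_sub_cancel]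
    have hcs : Summable fun n => ∑ i ∈ range (n + 1), a i * b s (n - i) :=
      (summable_norm_sum_mul_range_of_summable_norm hsa (hsb s hs)).of_norm
    have hcS : Summable c := (summable_nat_add_iff 1).1 (hc1 ▸ hcs)
    have hcT : ∑' k, c k = A * ∑' k, b s k := by
      rw [hcS.tsum_eq_zero_add, hc1, ← tsum_mul_tsum_eq_tsum_sum_range_of_summable_norm hsa (hsb s hs),
        hA.tsum_eq]
      simp [c]
    have : ∑' k, b s k = A + s * (A * ∑' k, b s k) := by
      conv_lhs => rw [tsum_congr hstep, hsa.of_norm.tsum_add (hcS.mul_left s), tsum_mul_left, hcT, hA.tsum_eq]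
    linear_combination this
  have hzA : z * A - 1 = ∑ s ∈ S, jw α ν ξ s * s * ∑' k, b s k := by
    have h0 := hA.summable.tsum_eq_zero_add
    rw [hA.tsum_eq] at h0
    simp only [a] at h0
    rw [mom_zero, one_mul, zero_add, pow_one] at h0
    have h1 : ∀ k, z * (mom α ν ξ (k + 1) * w ^ (k + 1 + 1)) = ∑ s ∈ S, jw α ν ξ s * s * b s k := fun k => by
      rw [mom_succ, finite_integral hξm hS fun y => y * tk α ν ξ k y, Finset.sum_mul, Finset.mul_sum]
      refine Finset.sum_congr rfl fun s _ => ?_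
      simp only [b, w, pow_succ]
      field_simp
    rw [h0, mul_add, ← tsum_mul_left, tsum_congr h1, Summable.tsum_finsetSum fun s hs => ((hsb s hs).of_norm).mul_left _]
    simp only [tsum_mul_left]
    rw [show z * w = 1 from mul_inv_cancel₀ hz0.ne']
    ring
  simp only [feq, RingHom.id_apply]
  rw [hzA, Finset.mul_sum, sub_eq_zero]
  refine Finset.sum_congr rfl fun s hs => ?_
  rw [← Finset.mul_prod_erase S (fun u => 1 - u * A) hs]
  linear_combination (jw α ν ξ s * s * ∏ u ∈ S.erase s, (1 - u * A)) * hB s hs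

theorem stieltjes_analytic (hμ : IsLaw α ν ξ μ C e) :
    AnalyticOnNhd ℂ (fun z : ℂ => ∫ y, (z - (y : ℂ))⁻¹ ∂μ) {z : ℂ | e < z.re} := by
  have := hμ.prob
  refine DifferentiableOn.analyticOnNhd (fun z hz => ?_) (isOpen_lt continuous_const Complex.continuous_re)
  set ρ := (z.re - e) / 2
  have hρ : 0 < ρ := by simp only [Set.mem_ofPred_eq] at hz; simp only [ρ]; linarith
  have hne : ∀ y : ℝ, y ≤ e → ∀ u ∈ Metric.ball z ρ, ρ ≤ ‖u - (y : ℂ)‖ := fun y hy u hu => by
    have h1 := Complex.abs_re_le_norm (u - (y : ℂ))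
    rw [Metric.mem_ball, dist_eq_norm] at hu
    have h2 := Complex.abs_re_le_norm (u - z)
    rw [Complex.sub_re] at h1 h2
    rw [Complex.ofReal_re] at h1
    have := (abs_le.1 h2).1
    have := le_abs_self (u.re - y)
    simp only [ρ] at hu ⊢
    linarith
  have hb : ∀ u ∈ Metric.ball z ρ, ∀ y : ℝ, y ≤ e → ‖(u - (y : ℂ))⁻¹‖ ≤ ρ⁻¹ := fun u hu y hy => by
    rw [norm_inv]; exact inv_anti₀ hρ (hne y hy u hu)
  refine (hasDerivAt_integral_of_dominated_loc_of_deriv_le (μ := μ)
    (F := fun (u : ℂ) (y : ℝ) => (u - (y : ℂ))⁻¹) (F' := fun (u : ℂ) (y : ℝ) => -1 / (u - (y : ℂ)) ^ 2)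
    (bound := fun _ => ρ⁻¹ ^ 2) (Metric.ball_mem_nhds z hρ)
    (Eventually.of_forall fun u => Measurable.aestronglyMeasurable (by fun_prop))
    (Integrable.of_bound (Measurable.aestronglyMeasurable (by fun_prop)) ρ⁻¹
      (hμ.le_top.mono fun y hy => hb z (Metric.mem_ball_self hρ) y hy))
    (Measurable.aestronglyMeasurable (by fun_prop))
    (hμ.le_top.mono fun y hy u hu => ?_) (integrable_const _)
    (hμ.le_top.mono fun y hy u hu => ?_)).2.differentiableAt.differentiableWithinAt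
  · rw [norm_div, norm_neg, norm_one, norm_pow, inv_pow, ← one_div]
    exact one_div_le_one_div_of_le (by positivity) (pow_le_pow_left₀ hρ.le (hne y hy u hu) 2)
  · have h0 : u - (y : ℂ) ≠ 0 := norm_pos_iff.1 (lt_of_lt_of_le hρ (hne y hy u hu))
    exact (((hasDerivAt_id u).sub_const (y : ℂ)).inv h0)

theorem stieltjes_cast (z : ℝ) :
    ∫ y, ((z : ℂ) - (y : ℂ))⁻¹ ∂μ = ((∫ y, (z - y)⁻¹ ∂μ : ℝ) : ℂ) := by
  rw [← integral_complex_ofReal]
  congr 1
  funext y
  push_cast
  rfl

theorem feq_cast (S : Finset ℝ) (q : ℝ → ℝ) (z A : ℝ) :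
    feq S q Complex.ofRealHom (z : ℂ) (A : ℂ) = ((feq S q (RingHom.id ℝ) z A : ℝ) : ℂ) := by
  simp only [feq, RingHom.id_apply, Complex.ofRealHom_eq_coe]
  push_cast
  ring

/-- Every point right of the support is a value of the edge function. -/
theorem exists_dual (hμ : IsLaw α ν ξ μ C e) (hC : 0 ≤ C) (hξ : ∀ x, |ξ x| ≤ r) (hξm : Measurable ξ)
    (hS : ∀ x, ξ x ∈ S) (hSr : ∀ s ∈ S, |s| ≤ r) (hq : ∀ s ∈ S, jw α ν ξ s ≠ 0) {δ : ℝ} (hδ : 0 < δ) :
    ∃ t τ, 0 < t ∧ 0 < τ ∧ (∀ x, τ ≤ 1 - t * ξ x) ∧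
      1 / t + α * (∫ x, ξ x / (1 - t * ξ x) ∂ν) ≤ e + δ := by
  classical
  have hr : 0 ≤ r := (abs_nonneg _).trans (hξ 0)
  set A : ℝ → ℝ := fun z => ∫ y, (z - y)⁻¹ ∂μ
  set U : Set ℂ := {z : ℂ | e < z.re}
  set G : ℂ → ℂ := fun z => ∫ y, (z - (y : ℂ))⁻¹ ∂μ
  set q := jw α ν ξ
  set F : ℂ → ℂ := fun z => feq S q Complex.ofRealHom z (G z)
  have hG : AnalyticOnNhd ℂ G U := stieltjes_analytic hμ
  have hF : AnalyticOnNhd ℂ F U := by
    have h1 : ∀ s : ℝ, AnalyticOnNhd ℂ (fun z => 1 - Complex.ofRealHom s * G z) U := fun s =>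
      analyticOnNhd_const.sub (analyticOnNhd_const.mul hG)
    refine ((Finset.analyticOnNhd_fun_prod S fun s _ => h1 s).mul ((analyticOnNhd_id.mul hG).sub analyticOnNhd_const)).sub
      (Finset.analyticOnNhd_fun_sum S fun s _ => (analyticOnNhd_const.mul hG).mul
        (Finset.analyticOnNhd_fun_prod _ fun u _ => h1 u))
  have hreal : ∀ z : ℝ, F (z : ℂ) = ((feq S q (RingHom.id ℝ) z (A z) : ℝ) : ℂ) := fun z => by
    simp only [F, G, A, stieltjes_cast, feq_cast]
  set z₁ := C + r + 2 + |e|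
  have hz₁ : ((z₁ : ℝ) : ℂ) ∈ U := by
    simp only [U, Set.mem_ofPred_eq, Complex.ofReal_re, z₁]; linarith [le_abs_self e]
  have hfreq : ∃ᶠ z in 𝓝[≠] ((z₁ : ℝ) : ℂ), F z = 0 := by
    have ht : Tendsto (fun n : ℕ => ((z₁ + 1 / ((n : ℝ) + 1) : ℝ) : ℂ)) atTop (𝓝[≠] ((z₁ : ℝ) : ℂ)) := by
      refine tendsto_nhdsWithin_iff.2 ⟨?_, Eventually.of_forall fun n => ?_⟩
      · refine (Complex.continuous_ofReal.tendsto _).comp ?_
        simpa using (tendsto_const_nhds (x := z₁)).add (tendsto_one_div_add_atTop_nhds_zero_nat (𝕜 := ℝ))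
      · simp only [Set.mem_compl_iff, Set.mem_singleton_iff, Complex.ofReal_inj]
        have : (0 : ℝ) < 1 / ((n : ℝ) + 1) := by positivity
        linarith
    refine ht.frequently (Eventually.of_forall fun n => ?_).frequently
    have : (0 : ℝ) < 1 / ((n : ℝ) + 1) := by positivity
    rw [hreal, feq_large hμ hC hξ hξm hS hSr (by simp only [z₁]; linarith [abs_nonneg e])
      (by simp only [z₁]; linarith [le_abs_self e])]
    rfl
  have hzero := hF.eqOn_zero_of_preconnected_of_frequently_eq_zero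
    (convex_halfSpace_re_gt e).isPreconnected hz₁ hfreq
  have heq : ∀ z, e < z → feq S q (RingHom.id ℝ) z (A z) = 0 := fun z hz => by
    have := hzero (show ((z : ℝ) : ℂ) ∈ U by simpa [U] using hz)
    simp only [hreal, Pi.zero_apply] at this
    exact_mod_cast this
  have hnv : ∀ z, e < z → ∀ s ∈ S, 1 - s * A z ≠ 0 := fun z hz s hs h0 => by
    have h := heq z hz
    simp only [feq, RingHom.id_apply] at h
    rw [Finset.prod_eq_zero hs h0, zero_mul, zero_sub, neg_eq_zero] at h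
    rw [Finset.sum_eq_single s (fun u _ hne => by
      rw [Finset.prod_eq_zero (Finset.mem_erase.2 ⟨hne.symm, hs⟩) h0, mul_zero]) (fun hh => absurd hs hh)] at h
    have hA : 0 < A z := (stieltjes_bounds hμ hz).2.1
    have hs0 : s ≠ 0 := fun h' => by rw [h'] at h0; norm_num at h0
    refine mul_ne_zero (mul_ne_zero (mul_ne_zero (hq s hs) hs0) hA.ne') ?_ h
    refine Finset.prod_ne_zero_iff.2 fun u hu hu0 => (Finset.mem_erase.1 hu).1 ?_
    have : (u - s) * A z = 0 := by linear_combination h0 - hu0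
    exact sub_eq_zero.1 ((mul_eq_zero.1 this).resolve_right hA.ne')
  set z := e + δ
  have hz : e < z := by simp only [z]; linarith
  have hpos : ∀ s ∈ S, 0 < 1 - s * A z := fun s hs => by
    by_contra hle
    push Not at hle
    set Z := z + r + 1
    have hZ : z ≤ Z := by simp only [Z]; linarith
    have hZe : e < Z := lt_of_lt_of_le hz hZ
    have hlast : 0 < 1 - s * A Z := by
      obtain ⟨-, h1, h2⟩ := stieltjes_bounds hμ hZe
      have h3 : s * A Z ≤ r * (Z - e)⁻¹ :=
        (mul_le_mul_of_nonneg_right ((le_abs_self s).trans (hSr s hs)) h1.le).trans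
          (mul_le_mul_of_nonneg_left h2 hr)
      have h4 : r * (Z - e)⁻¹ < 1 := by
        rw [← div_eq_mul_inv, div_lt_one (by linarith)]; simp only [Z]; linarith
      linarith
    have hcont : ContinuousOn (fun u => 1 - s * A u) (Set.Icc z Z) := by
      refine continuousOn_const.sub (continuousOn_const.mul fun u hu => ?_)
      have hu' : e < u := lt_of_lt_of_le hz hu.1
      have h1 : ContinuousAt (fun u : ℝ => (G (u : ℂ)).re) u :=
        Complex.continuous_re.continuousAt.comp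
          ((hG (u : ℂ) (by simpa [U] using hu')).continuousAt.comp Complex.continuous_ofReal.continuousAt)
      simp only [G, stieltjes_cast, Complex.ofReal_re] at h1
      exact h1.continuousWithinAt
    obtain ⟨u, hu, hu0⟩ := intermediate_value_Icc hZ hcont ⟨hle, hlast.le⟩
    exact hnv u (lt_of_lt_of_le hz hu.1) s hs hu0
  have hA0 : 0 < A z := (stieltjes_bounds hμ hz).2.1
  have hSne : S.Nonempty := ⟨ξ 0, hS 0⟩
  refine ⟨A z, S.inf' hSne fun s => 1 - s * A z, hA0, (Finset.lt_inf'_iff hSne).2 hpos,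
    fun x => (Finset.inf'_le _ (hS x)).trans_eq (by ring), le_of_eq ?_⟩
  rw [finite_integral hξm hS fun y => y / (1 - A z * y)]
  have h := heq z hz
  simp only [feq, RingHom.id_apply] at h
  have hP : (∏ s ∈ S, (1 - s * A z)) ≠ 0 := Finset.prod_ne_zero_iff.2 fun s hs => (hpos s hs).ne'
  have hsum : ∑ s ∈ S, q s * s * A z * ∏ u ∈ S.erase s, (1 - u * A z)
      = (∏ s ∈ S, (1 - s * A z)) * (A z * ∑ s ∈ S, q s * (s / (1 - A z * s))) := by
    rw [Finset.mul_sum, Finset.mul_sum]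
    refine Finset.sum_congr rfl fun s hs => ?_
    rw [← Finset.mul_prod_erase S (fun u => 1 - u * A z) hs, mul_comm (A z) s]
    have := (hpos s hs).ne'
    field_simp
  rw [hsum, ← mul_sub, mul_eq_zero] at h
  have h' := h.resolve_left hP
  have hA0' := hA0.ne'
  field_simp
  simp only [q, mul_div_assoc] at h' ⊢
  linear_combination -h'

end Vale.Agent.P166.Free
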