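import Vale.Agent.P166.Free.Top
import Vale.Agent.P166.Free.Stieltjes

/-!
No eigenvalue of the coupling leaves the neighbourhood of the limit law.
-/

open MeasureTheory ProbabilityTheory Filter Topology Matrix Finset

namespace Vale.Agent.P166.Free

variable {α r : ℝ} {ν : Measure ℝ} [IsProbabilityMeasure ν] {ξ ξ' : ℝ → ℝ}

omit [IsProbabilityMeasure ν] in
theorem mom_congr (h : ∀ᵐ x ∂ν, ξ x = ξ' x) (k : ℕ) :
    mom α ν ξ k = mom α ν ξ' k ∧ ∀ y, tk α ν ξ k y = tk α ν ξ' k y := by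
  induction k using Nat.strong_induction_on with
  | _ k ih =>
    have h1 : mom α ν ξ k = mom α ν ξ' k := by
      rcases k with _ | k
      · rw [mom_zero, mom_zero]
      · rw [mom_succ, mom_succ]
        congr 1
        refine integral_congr_ae ?_
        filter_upwards [h] with x hx
        rw [hx, (ih k (by omega)).2]
    refine ⟨h1, fun y => ?_⟩
    rw [tk_eq, tk_eq, h1]
    congr 2
    refine Finset.sum_congr rfl fun i hi => ?_
    have := mem_range.1 hi
    rw [(ih i (by omega)).1, (ih (k - 1 - i) (by omega)).2]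

omit [IsProbabilityMeasure ν] in
theorem IsLaw.congr {μ : Measure ℝ} {C e : ℝ} (h : ∀ᵐ x ∂ν, ξ x = ξ' x) (hμ : IsLaw α ν ξ μ C e) :
    IsLaw α ν ξ' μ C e :=
  ⟨hμ.prob, hμ.supp, fun k => (hμ.moments k).trans (mom_congr h k).1, hμ.le_top, hμ.top⟩

theorem jm_congr_ae (h : ∀ᵐ x ∂ν, ξ x = ξ' x) (N M : ℕ) :
    ∀ᵐ P ∂pats ν N M, jm ξ P = jm ξ' P := by
  have hall : ∀ᵐ P ∂pats ν N M, ∀ a, ξ (P a).2 = ξ' (P a).2 := by
    rw [ae_all_iff]
    intro a
    have hs : MeasurePreserving (fun P : Pats N M => (P a).2) (pats ν N M) ν :=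
      (measurePreserving_snd (μ := gs N) (ν := ν)).comp (measurePreserving_eval (fun _ : Fin M => pl ν N) a)
    exact hs.quasiMeasurePreserving.tendsto_ae h
  filter_upwards [hall] with P hP
  ext i j
  simp only [jm, hP]

/-- The sharp upper end, for every bounded jump function. -/
theorem top_prob (hα : 0 ≤ α) (hξ : ∀ x, |ξ x| ≤ r) (hξm : Measurable ξ) {μ : Measure ℝ} {C e : ℝ}
    (hμ : IsLaw α ν ξ μ C e) {η ε : ℝ} (hη : 0 < η) (hε : 0 < ε) :
    ∀ᶠ N : ℕ in atTop, (pats ν N ⌊α * N⌋₊).real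
      {P | ∃ v, ∑ i, v i ^ 2 = 1 ∧ e + η < qf (jm ξ P) v} < ε := by
  classical
  have := hμ.prob
  have hr : 0 ≤ r := (abs_nonneg _).trans (hξ 0)
  rcases hα.eq_or_lt with rfl | hα
  · have he : 0 ≤ e := by
      have hz : ∫ x, x ^ 2 ∂μ = 0 := by rw [hμ.moments]; simp [mom_succ]
      have h0 := (integral_eq_zero_iff_of_nonneg (fun x => sq_nonneg x) (hμ.integrable (continuous_pow 2))).1 hz
      obtain ⟨x, hx, hx'⟩ := (h0.and hμ.le_top).exists
      rwa [show x = 0 by simpa using hx] at hx'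
    refine Eventually.of_forall fun N => ?_
    have : {P : Pats N ⌊(0 : ℝ) * N⌋₊ | ∃ v, ∑ i, v i ^ 2 = 1 ∧ e + η < qf (jm ξ P) v} = ∅ := by
      refine Set.eq_empty_iff_forall_notMem.2 fun P ⟨v, _, hv⟩ => ?_
      have : IsEmpty (Fin ⌊(0 : ℝ) * N⌋₊) := by simp only [zero_mul, Nat.floor_zero]; infer_instance
      rw [jm_qf] at hv
      simp only [Finset.univ_eq_empty, Finset.sum_empty, zero_div] at hv
      linarith
    rw [this]; simpa using hε
  set ε₀ := min (ε / 3) (1 / 4)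
  obtain ⟨K, hK, hgd⟩ := gd_tight (ν := ν) (hM_floor hα.le) (show 0 < ε₀ from lt_min (by positivity) (by norm_num))
  set h := η / (4 * K)
  have hK0 : 0 < K := lt_of_lt_of_le one_pos hK
  have hh : 0 < h := by positivity
  have hhK : 4 * (h * K) = η := by simp only [h]; field_simp
  set ρ : ℝ → ℝ := fun x => h * ⌊ξ x / h⌋
  have hρm : Measurable ρ := by fun_prop
  have hρ : ∀ x, |ξ x - ρ x| ≤ h := fun x => by
    have h1 := Int.floor_le (ξ x / h)
    have h2 := Int.lt_floor_add_one (ξ x / h)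
    rw [le_div_iff₀ hh] at h1
    rw [div_lt_iff₀ hh] at h2
    simp only [ρ]
    rw [abs_le]
    constructor <;> linarith
  set n : ℤ := ⌈r / h⌉ + 1
  set S₀ : Finset ℝ := (Finset.Icc (-n) n).image fun i : ℤ => h * i
  have hS₀ : ∀ x, ρ x ∈ S₀ := fun x => by
    refine Finset.mem_image.2 ⟨⌊ξ x / h⌋, Finset.mem_Icc.2 ⟨?_, ?_⟩, rfl⟩
    · refine Int.le_floor.2 ?_
      have h1 := Int.le_ceil (r / h)
      have h2 : -(r / h) ≤ ξ x / h := by
        rw [← neg_div]; exact div_le_div_of_nonneg_right (abs_le.1 (hξ x)).1 hh.le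
      simp only [n]; push_cast
      linarith
    · refine (Int.floor_le_floor (div_le_div_of_nonneg_right (abs_le.1 (hξ x)).2 hh.le)).trans ?_
      have := Int.floor_le_ceil (r / h)
      simp only [n]; omega
  set S := S₀.filter fun s => jw α ν ρ s ≠ 0
  have hae : ∀ᵐ x ∂ν, ρ x ∈ S := by
    have h1 : ∀ s ∈ S₀, ∀ᵐ x ∂ν, ρ x = s → s ∈ S := fun s hs => by
      by_cases h0 : jw α ν ρ s = 0
      · have hn : ν (ρ ⁻¹' {s}) = 0 := by
          rw [jw, mul_eq_zero] at h0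
          exact (measureReal_eq_zero_iff (measure_ne_top _ _)).1 (h0.resolve_left hα.ne')
        rw [ae_iff]
        exact measure_mono_null (fun x hx => by
          simp only [Set.mem_ofPred_eq, Classical.not_imp] at hx; exact hx.1) hn
      · exact ae_of_all _ fun x _ => Finset.mem_filter.2 ⟨hs, h0⟩
    filter_upwards [(eventually_all_finset S₀).2 h1] with x hx
    exact hx _ (hS₀ x) rfl
  obtain ⟨s₀, hs₀⟩ : ∃ s, s ∈ S := ⟨_, hae.exists.choose_spec⟩
  set ρ' : ℝ → ℝ := fun x => if ρ x ∈ S then ρ x else s₀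
  set ξ₂ : ℝ → ℝ := fun x => if ρ x ∈ S then ξ x else s₀
  have hmS : MeasurableSet {x | ρ x ∈ S} := hρm S.measurableSet
  have hρ'm : Measurable ρ' := Measurable.ite hmS hρm measurable_const
  have hξ₂m : Measurable ξ₂ := Measurable.ite hmS hξm measurable_const
  have hS : ∀ x, ρ' x ∈ S := fun x => by simp only [ρ']; split_ifs with hx <;> assumption
  set r' := r + h + ∑ s ∈ S, |s|
  have hr' : 0 ≤ ∑ s ∈ S, |s| := Finset.sum_nonneg fun s _ => abs_nonneg s
  have hSr : ∀ s ∈ S, |s| ≤ r' := fun s hs =>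
    (Finset.single_le_sum (f := fun s => |s|) (fun s _ => abs_nonneg s) hs).trans (by simp only [r']; linarith)
  have hρ'b : ∀ x, |ρ' x| ≤ r' := fun x => hSr _ (hS x)
  have hξ₂b : ∀ x, |ξ₂ x| ≤ r' := fun x => by
    simp only [ξ₂]; split_ifs
    · exact (hξ x).trans (by simp only [r']; linarith)
    · exact hSr _ hs₀
  have hclose : ∀ x, |ξ₂ x - ρ' x| ≤ h := fun x => by
    simp only [ξ₂, ρ']; split_ifs
    · exact hρ x
    · simp [hh.le]
  have he2 : ∀ᵐ x ∂ν, ξ x = ξ₂ x := hae.mono fun x hx => by simp [ξ₂, hx]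
  have hμ₂ := hμ.congr he2
  obtain ⟨μ', C', e', hμ', hC'⟩ := exists_law (ν := ν) hα.le hρ'b hρ'm
  have hq : ∀ s ∈ S, jw α ν ρ' s ≠ 0 := fun s hs => by
    have : jw α ν ρ' s = jw α ν ρ s := by
      simp only [jw, measureReal_def]
      congr 2
      refine measure_congr ?_
      filter_upwards [hae] with x hx
      change (ρ' x = s) = (ρ x = s)
      simp only [ρ', if_pos hx]
    rw [this]; exact (Finset.mem_filter.1 hs).2
  have hgd4 : ∀ᶠ N : ℕ in atTop, (pats ν N ⌊α * N⌋₊).real {P | ¬ Gd K P} < 1 / 4 :=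
    hgd.mono fun N hN => lt_of_lt_of_le hN (min_le_right _ _)
  have hee : e' ≤ e + h * K := shift hα.le hξ₂b hξ₂m hρ'b hρ'm hclose hgd4 hμ₂ hμ'
  have hC0 : 0 ≤ C' := (abs_nonneg _).trans hC'
  filter_upwards [hgd, edge_prob hα hρ'b hρ'm hμ'
    (fun δ hδ => exists_dual hμ' hC0 hρ'b hρ'm hS hSr hq hδ) (half_pos hη) (show 0 < ε / 3 by positivity)]
    with N hg hp
  refine lt_of_le_of_lt (measureReal_mono (s₂ := {P | ¬ Gd K P}
    ∪ {P | ∃ v, ∑ i, v i ^ 2 = 1 ∧ e' + η / 2 < qf (jm ρ' P) v} ∪ {P | jm ξ P ≠ jm ξ₂ P}) ?_) ?_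
  · intro P ⟨v, hv, hlt⟩
    by_cases hJ : jm ξ P = jm ξ₂ P
    · by_cases hG : Gd K P
      · refine Or.inl (Or.inr ⟨v, hv, ?_⟩)
        rw [hJ] at hlt
        have e2 : qf (jm ξ₂ P) v - qf (jm ρ' P) v ≤ h * ((∑ a, ((P a).1 ⬝ᵥ v) ^ 2) / N) := by
          rw [jm_qf, jm_qf, ← sub_div, ← Finset.sum_sub_distrib, ← mul_div_assoc, Finset.mul_sum]
          gcongr with a
          rw [← sub_mul]
          exact mul_le_mul_of_nonneg_right ((le_abs_self _).trans (hclose _)) (sq_nonneg _)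
        have h3 := hG v
        rw [hv, mul_one] at h3
        linarith [e2.trans (mul_le_mul_of_nonneg_left h3 hh.le)]
      · exact Or.inl (Or.inl hG)
    · exact Or.inr hJ
  · have hz : (pats ν N ⌊α * N⌋₊).real {P | jm ξ P ≠ jm ξ₂ P} = 0 :=
      (measureReal_eq_zero_iff (measure_ne_top _ _)).2 (ae_iff.1 (jm_congr_ae he2 N _))
    refine lt_of_le_of_lt ((measureReal_union_le _ _).trans (add_le_add (measureReal_union_le _ _) hz.le)) ?_
    have := min_le_left (ε / 3) (1 / 4 : ℝ)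
    linarith [hg, this]

end Vale.Agent.P166.Free
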